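import Vale.Agent.P339.Stmt

/-!
Basic lemmas: planting, sums of juntas, lines in the space of states.
-/

namespace Vale.Agent.P339

open Finset Vale.Agent.Lib.PCP Vale.Agent.P325
open scoped BigOperators

theorem expect_prod {A B : Type} [Fintype A] [Fintype B] (F : A × B → ℝ) :
    𝔼 p, F p = 𝔼 a, 𝔼 b, F (a, b) := by
  rw [← univ_product_univ, expect_product]

theorem expect_ind_eq {B : Type} [Fintype B] (b₀ : B) (F : B → ℝ) :
    (Fintype.card B : ℝ) * 𝔼 b, ind (b₀ = b) * F b = F b₀ := by
  classical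
  rw [Fintype.card_mul_expect, sum_eq_single b₀]
  · rw [ind_of rfl, one_mul]
  · intro b _ hb
    rw [ind_of_not (Ne.symm hb), zero_mul]
  · simp

theorem sq_expect_le {A : Type} [Fintype A] (F : A → ℝ) : (𝔼 a, F a) ^ 2 ≤ 𝔼 a, F a ^ 2 := by
  rcases isEmpty_or_nonempty A with h | h
  · simp
  · have := expect_mul_sq_le_sq_mul_sq univ F (fun _ => (1 : ℝ))
    simpa using this

theorem expect_le_of_sq {A : Type} [Fintype A] (F : A → ℝ) {e : ℝ} (he : 0 ≤ e)
    (h : 𝔼 a, F a ^ 2 ≤ e ^ 2) : 𝔼 a, |F a| ≤ e := by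
  have h1 := sq_expect_le fun a => |F a|
  simp only [sq_abs] at h1
  exact (abs_le_of_sq_le_sq' (h1.trans h) he).2

/-! ### Planting -/

section Plant

variable {J B K Ω : Type} [Fintype J] [DecidableEq J] [Fintype B] [Fintype K] [Fintype Ω]

omit [Fintype J] [Fintype B] [Fintype K] in
@[simp] theorem plant_self (s : (J → B) × K) (j : J) (b : B) : (plant s j b).1 j = b := by
  simp [plant]

omit [Fintype J] [Fintype B] [Fintype K] in
theorem plant_ne (s : (J → B) × K) {j j' : J} (h : j' ≠ j) (b : B) :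
    (plant s j b).1 j' = s.1 j' := by
  simp [plant, h]

omit [Fintype J] [Fintype B] [Fintype K] in
@[simp] theorem plant_snd (s : (J → B) × K) (j : J) (b : B) : (plant s j b).2 = s.2 := rfl

omit [Fintype J] [Fintype B] [Fintype K] in
@[simp] theorem plant_plant (s : (J → B) × K) (j : J) (b b' : B) :
    plant (plant s j b) j b' = plant s j b' := by
  simp [plant]

omit [Fintype J] [Fintype B] [Fintype K] in
theorem plant_comm (s : (J → B) × K) {j j' : J} (h : j ≠ j') (b b' : B) :
    plant (plant s j b) j' b' = plant (plant s j' b') j b := by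
  simp [plant, Function.update_comm h]

theorem expect_plant [Nonempty B] (Φ : (J → B) × K → ℝ) (j : J) :
    𝔼 s, 𝔼 b, Φ (plant s j b) = 𝔼 s, Φ s := by
  rw [expect_prod, expect_prod, expect_comm, expect_comm (s := univ) (t := univ)
    (f := fun a b => Φ (a, b))]
  exact expect_congr rfl fun k _ => expect_update (fun x => Φ (x, k)) j

/-- The planting identity for one position. -/
theorem expect_mul_plant [Nonempty B] (g : Ω → B) (j : J) (F : Ω → (J → B) × K → ℝ) :
    𝔼 s, (Fintype.card B : ℝ) * 𝔼 ω, ind (g ω = s.1 j) * F ω s =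
      𝔼 ω, 𝔼 s, F ω (plant s j (g ω)) := by
  rw [← expect_plant _ j, expect_comm (s := univ) (t := univ)
    (f := fun ω s => F ω (plant s j (g ω)))]
  refine expect_congr rfl fun s _ => ?_
  simp only [plant_self]
  rw [← mul_expect, expect_comm, mul_expect]
  exact expect_congr rfl fun ω _ => expect_ind_eq (g ω) fun b => F ω (plant s j b)

/-- The planting identity. -/
theorem expect_mul_Av [Nonempty B] (g : Ω → B) (F : J → Ω → (J → B) × K → ℝ)
    (Φ : (J → B) × K → ℝ) : 𝔼 s, Φ s * Av g F s =
      𝔼 j, 𝔼 ω, 𝔼 s, Φ (plant s j (g ω)) * F j ω (plant s j (g ω)) := by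
  simp only [Av, mul_expect (s := (univ : Finset J))]
  rw [expect_comm]
  refine expect_congr rfl fun j _ => ?_
  rw [← expect_mul_plant g j fun ω s => Φ s * F j ω s]
  refine expect_congr rfl fun s _ => ?_
  rw [mul_left_comm, mul_expect]
  congr 1
  exact expect_congr rfl fun ω _ => by ring

theorem expect_Av [Nonempty B] (g : Ω → B) (F : J → Ω → (J → B) × K → ℝ) :
    𝔼 s, Av g F s = 𝔼 j, 𝔼 ω, 𝔼 s, F j ω (plant s j (g ω)) := by
  simpa using expect_mul_Av g F fun _ => 1

omit [DecidableEq J] [Fintype K] in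
theorem Av_mono (g : Ω → B) {F F' : J → Ω → (J → B) × K → ℝ} (s : (J → B) × K)
    (h : ∀ j ω, F j ω s ≤ F' j ω s) : Av g F s ≤ Av g F' s :=
  expect_le_expect fun j _ => mul_le_mul_of_nonneg_left (expect_le_expect fun ω _ =>
    mul_le_mul_of_nonneg_left (h j ω) (ind_nonneg _)) (Nat.cast_nonneg _)

omit [DecidableEq J] [Fintype K] in
theorem Av_nonneg (g : Ω → B) {F : J → Ω → (J → B) × K → ℝ} (s : (J → B) × K)
    (h : ∀ j ω, 0 ≤ F j ω s) : 0 ≤ Av g F s :=
  expect_nonneg fun j _ => mul_nonneg (Nat.cast_nonneg _) (expect_nonneg fun ω _ =>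
    mul_nonneg (ind_nonneg _) (h j ω))

omit [DecidableEq J] [Fintype K] in
theorem Av_sub (g : Ω → B) (F F' : J → Ω → (J → B) × K → ℝ) (s : (J → B) × K) :
    Av g (fun j ω s => F j ω s - F' j ω s) s = Av g F s - Av g F' s := by
  simp only [Av, mul_sub, expect_sub_distrib]

omit [DecidableEq J] [Fintype K] in
theorem Av_sum {A : Type} (T : Finset A) (g : Ω → B) (F : A → J → Ω → (J → B) × K → ℝ)
    (s : (J → B) × K) : Av g (fun j ω s => ∑ a ∈ T, F a j ω s) s = ∑ a ∈ T, Av g (F a) s := by
  simp only [Av, mul_sum, expect_sum_comm]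

omit [DecidableEq J] [Fintype K] in
theorem abs_Av_le (g : Ω → B) {F : J → Ω → (J → B) × K → ℝ} (s : (J → B) × K)
    (h : ∀ j ω, |F j ω s| ≤ 1) : |Av g F s| ≤ Av g (fun _ _ _ => 1) s := by
  refine abs_le.2 ⟨?_, Av_mono g s fun j ω => (abs_le.1 (h j ω)).2⟩
  have h1 := Av_mono g (F := fun _ _ _ => 0 - 1) (F' := F) s fun j ω => by
    simpa using (abs_le.1 (h j ω)).1
  rw [Av_sub g (fun _ _ _ => 0) (fun _ _ _ => 1)] at h1
  simpa [Av] using h1

omit [Fintype J] [DecidableEq J] [Fintype K] in
/-- One term of the average is bounded. -/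
theorem abs_term_le (g : Ω → B) (b : B) {F : Ω → ℝ} (h : ∀ ω, |F ω| ≤ 1) :
    |(Fintype.card B : ℝ) * 𝔼 ω, ind (g ω = b) * F ω| ≤ Fintype.card B := by
  rw [abs_mul, Nat.abs_cast]
  refine mul_le_of_le_one_right (Nat.cast_nonneg _) ?_
  rcases isEmpty_or_nonempty Ω with h0 | h0
  · simp
  refine (abs_expect_le _ _).trans (expect_le univ_nonempty fun ω _ => ?_)
  rw [abs_mul]
  exact mul_le_one₀ (abs_ind_le _) (abs_nonneg _) (h ω)

omit [Fintype K] in
/-- Second moment of an average of independent centred variables. -/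
theorem expect_sq_avg_le [Nonempty J] [Nonempty B] (u : J → B → ℝ) (hu : ∀ j, 𝔼 b, u j b = 0)
    {c : ℝ} (hc : ∀ j, 𝔼 b, u j b ^ 2 ≤ c) :
    𝔼 x : J → B, (𝔼 j, u j (x j)) ^ 2 ≤ c / Fintype.card J := by
  have h1 : ∀ j j' : J, 𝔼 x : J → B, u j (x j) * u j' (x j') ≤ if j = j' then c else 0 := by
    intro j j'
    split_ifs with h
    · subst h
      simp only [← sq]
      exact (expect_coord (fun b => u j b ^ 2) j).trans_le (hc j)
    · rw [← expect_update (fun x => u j (x j) * u j' (x j')) j]
      simp only [Function.update_self, Function.update_of_ne (Ne.symm h), ← expect_mul, hu,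
        zero_mul, Fintype.expect_const, le_refl]
  simp only [sq (𝔼 j, _), Fintype.expect_mul_expect]
  rw [expect_comm]
  refine expect_le univ_nonempty fun j _ => ?_
  rw [expect_comm]
  refine (expect_le_expect fun j' _ => h1 j j').trans (le_of_eq ?_)
  rw [Fintype.expect_eq_sum_div_card, sum_ite_eq]
  simp

/-- The total density of all plantings is close to one. -/
theorem den_sq [Nonempty J] [Nonempty B] [Nonempty K] [Nonempty Ω] (g : Ω → B) :
    𝔼 s : (J → B) × K, (Av g (fun _ _ _ => 1) s - 1) ^ 2 ≤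
      (Fintype.card B : ℝ) / Fintype.card J := by
  set N : ℝ := (Fintype.card B : ℝ) with hN
  set w : B → ℝ := fun b => N * 𝔼 ω, ind (g ω = b) * 1 with hw
  have w0 : ∀ b, 0 ≤ w b := fun b => mul_nonneg (Nat.cast_nonneg _)
    (expect_nonneg fun ω _ => mul_nonneg (ind_nonneg _) zero_le_one)
  have w1 : ∀ b, w b ≤ N := fun b =>
    (le_abs_self _).trans (abs_term_le g b (F := fun _ => 1) fun _ => by simp)
  have wm : 𝔼 b, w b = 1 := by
    simp only [hw]
    rw [← mul_expect, expect_comm, mul_expect]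
    exact (expect_congr rfl fun ω _ => expect_ind_eq (g ω) fun _ => 1).trans
      (Fintype.expect_const _)
  have h1 : ∀ s : (J → B) × K, Av g (fun _ _ _ => 1) s - 1 = 𝔼 j, (w (s.1 j) - 1) := fun s => by
    rw [expect_sub_distrib, Fintype.expect_const]; rfl
  simp only [h1]
  rw [expect_prod]
  simp only [Fintype.expect_const]
  refine expect_sq_avg_le (fun _ b => w b - 1) (fun _ => ?_) fun _ => ?_
  · rw [expect_sub_distrib, wm]; simp
  · calc 𝔼 b, (w b - 1) ^ 2 ≤ 𝔼 b, ((N - 2) * w b + 1) :=
          expect_le_expect fun b _ => by nlinarith [w0 b, w1 b]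
      _ = N - 1 := by
          rw [expect_add_distrib, ← mul_expect, wm, Fintype.expect_const]; ring
      _ ≤ N := by linarith

theorem den_sq_le [Nonempty J] [Nonempty B] [Nonempty K] [Nonempty Ω] (g : Ω → B) {e : ℝ}
    (h : (Fintype.card B : ℝ) ≤ e ^ 2 * Fintype.card J) :
    𝔼 s : (J → B) × K, (Av g (fun _ _ _ => 1) s - 1) ^ 2 ≤ e ^ 2 :=
  (den_sq g).trans ((div_le_iff₀ (by exact_mod_cast Fintype.card_pos)).2 h)

theorem den_abs_le [Nonempty J] [Nonempty B] [Nonempty K] [Nonempty Ω] (g : Ω → B) {e : ℝ}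
    (he : 0 ≤ e) (h : (Fintype.card B : ℝ) ≤ e ^ 2 * Fintype.card J) :
    𝔼 s : (J → B) × K, |Av g (fun _ _ _ => 1) s - 1| ≤ e :=
  expect_le_of_sq _ he (den_sq_le g h)

/-- The covering lemma. -/
theorem cover_abs [Nonempty J] [Nonempty B] [Nonempty K] [Nonempty Ω] (g : Ω → B)
    (Φ : (J → B) × K → ℝ) (hΦ : ∀ s, |Φ s| ≤ 1) {e : ℝ} (he : 0 ≤ e)
    (h : (Fintype.card B : ℝ) ≤ e ^ 2 * Fintype.card J) :
    |(𝔼 j, 𝔼 ω, 𝔼 s, Φ (plant s j (g ω))) - 𝔼 s, Φ s| ≤ e := by
  have h1 := expect_mul_Av g (fun _ _ _ => 1) Φ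
  simp only [mul_one] at h1
  rw [← h1, ← expect_sub_distrib]
  refine (abs_expect_le _ _).trans (le_trans (expect_le_expect fun s _ => ?_) (den_abs_le g he h))
  rw [← mul_sub_one, abs_mul]
  exact mul_le_of_le_one_left (abs_nonneg _) (hΦ s)

end Plant

/-! ### Resampling a block -/

section Block

variable {J L A : Type} [DecidableEq J]

/-- Overwrite the part below the child `j`. -/
def blk (x : J × L → A) (j : J) (y : L → A) : J × L → A := fun p => if p.1 = j then y p.2 else x p

@[simp] theorem sub_blk (x : J × L → A) (j : J) (y : L → A) : sub j (blk x j y) = y := by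
  funext p; simp [sub, blk]

theorem sub_blk_ne (x : J × L → A) {j j' : J} (h : j' ≠ j) (y : L → A) :
    sub j' (blk x j y) = sub j' x := by
  funext p; simp [sub, blk, h]

theorem expect_blk [Fintype J] [Fintype L] [DecidableEq L] [Fintype A] [Nonempty A]
    (F : (J × L → A) → ℝ) (j : J) : 𝔼 x, 𝔼 y, F (blk x j y) = 𝔼 x, F x := by
  have h1 : ∀ G : (J × L → A) → ℝ, 𝔼 x, G x = 𝔼 x : J → L → A, G (Function.uncurry x) :=
    fun G => (Fintype.expect_equiv (Equiv.curry J L A).symm _ _ fun _ => rfl).symm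
  rw [h1, h1 F, ← expect_update (fun x : J → L → A => F (Function.uncurry x)) j]
  refine expect_congr rfl fun x _ => expect_congr rfl fun y _ => congrArg F ?_
  funext p
  by_cases h : p.1 = j
  · obtain ⟨p1, p2⟩ := p
    subst h
    simp [blk]
  · obtain ⟨p1, p2⟩ := p
    simp only at h
    simp [blk, h]

omit [DecidableEq J] in
theorem sub_update_self [DecidableEq J] [DecidableEq L] (α : J × L → A) (j : J) (p : L) (s : A) :
    sub j (Function.update α (j, p) s) = Function.update (sub j α) p s := by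
  funext q
  by_cases h : q = p
  · subst h; simp [sub]
  · simp [sub, h]

theorem sub_update_ne [DecidableEq L] (α : J × L → A) {j j' : J} (h : j' ≠ j) (p : L) (s : A) :
    sub j' (Function.update α (j, p) s) = sub j' α := by
  funext q
  simp [sub, h]

theorem sub_upd_self [DecidableEq L] (π : A → A) (α : J × L → A) (j : J) (p : L) :
    sub j (upd π (j, p) α) = upd π p (sub j α) := sub_update_self α j p _

theorem sub_upd_ne [DecidableEq L] (π : A → A) (α : J × L → A) {j j' : J} (h : j' ≠ j) (p : L) :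
    sub j' (upd π (j, p) α) = sub j' α := sub_update_ne α h p _

end Block

/-! ### Sums of juntas -/

section Junta

variable {L S : Type} [Fintype L] [DecidableEq L] [Fintype S] [DecidableEq S] {d : ℕ}

omit [DecidableEq L] [Fintype S] [DecidableEq S] in
theorem ev_add {M : Type} [AddCommMonoid M] (t t' : Idx L S d → M) (α : L → S) :
    ev (t + t') α = ev t α + ev t' α := by
  simp [ev, sum_add_distrib]

omit [DecidableEq L] [Fintype S] [DecidableEq S] in
@[simp] theorem ev_zero {M : Type} [AddCommMonoid M] (α : L → S) :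
    ev (0 : Idx L S d → M) α = 0 := by
  simp [ev]

omit [DecidableEq L] [Fintype S] [DecidableEq S] in
theorem ev_sum {M A : Type} [AddCommMonoid M] (T : Finset A) (t : A → Idx L S d → M) (α : L → S) :
    ev (∑ a ∈ T, t a) α = ∑ a ∈ T, ev (t a) α := by
  simp only [ev, Finset.sum_apply]
  exact sum_comm

omit [DecidableEq L] [Fintype S] [DecidableEq S] in
theorem ev_tens {l : ℕ} (a : Vec l) (t : Idx L S d → ZMod 2) (α : L → S) :
    ev (tens a t) α = ev t α • a := by
  simp [ev, tens, sum_smul]

omit [DecidableEq L] [Fintype S] [DecidableEq S] in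
theorem ev_smul (c : ZMod 2) (t : Idx L S d → ZMod 2) (α : L → S) :
    ev (c • t) α = c * ev t α := by
  simp [ev, mul_sum]

omit [Fintype S] [DecidableEq S] in
theorem ev_pull (π : S → S) (p : L) (t : Idx L S d → ZMod 2) (α : L → S) :
    ev (pull π p t) α = ev t (upd π p α) := by
  refine sum_congr rfl fun c _ => congrArg t (Prod.ext rfl ?_)
  funext j
  by_cases h : c j = p
  · simp [projIdx, upd, h]
  · simp [projIdx, upd, h]

theorem dot_pull (π : S → S) (p : L) (Φ t : Idx L S d → ZMod 2) :
    Φ ⬝ᵥ pull π p t = push π p Φ ⬝ᵥ t := by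
  simp only [dotProduct, push, pull, sum_mul, ite_mul, zero_mul]
  rw [sum_comm]
  exact sum_congr rfl fun i _ => by rw [sum_ite_eq, if_pos (mem_univ _)]

theorem chi_pull (π : S → S) (p : L) (Φ t : Idx L S d → ZMod 2) :
    chi Φ (pull π p t) = chi (push π p Φ) t := by
  rw [chi, chi, dot_pull]

omit [DecidableEq L] [DecidableEq S] in
theorem dot_mask {m : ℕ} (Λ : L → Fin (m + 1)) (Φ t : Idx L S d → ZMod 2) :
    Φ ⬝ᵥ mask Λ t = mask Λ Φ ⬝ᵥ t := by
  refine sum_congr rfl fun i _ => ?_
  simp only [mask]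
  split_ifs <;> simp

omit [DecidableEq L] [DecidableEq S] in
theorem chi_mask {m : ℕ} (Λ : L → Fin (m + 1)) (Φ t : Idx L S d → ZMod 2) :
    chi Φ (mask Λ t) = chi (mask Λ Φ) t := by
  rw [chi, chi, dot_mask]

omit [Fintype S] [DecidableEq S] in
theorem ev_mask_update {m : ℕ} {Λ : L → Fin (m + 1)} {p : L} (h : Λ p = 0)
    (t : Idx L S d → ZMod 2) (α : L → S) (s : S) :
    ev (mask Λ t) (Function.update α p s) = ev (mask Λ t) α := by
  refine sum_congr rfl fun c _ => ?_
  simp only [mask]
  split_ifs with h1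
  · rfl
  · congr 2
    funext j
    exact Function.update_of_ne (fun e => h1 ⟨j, by rw [e, h]⟩) _ _

omit [Fintype S] [DecidableEq S] in
theorem ev_plantM_update {l m : ℕ} {cs : Coins L S l d m} {p : L} (h : ∀ a, (cs a).1 p = 0)
    (α : L → S) (s : S) : ev (plantM cs) (Function.update α p s) = ev (plantM cs) α := by
  simp only [plantM, ev_sum, ev_tens, ev_mask_update (h _)]

/-- The planted table without the row of the direction `a`. -/
def restM {l m : ℕ} (a : Vec l) (cs : Coins L S l d m) : Idx L S d → Vec l :=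
  ∑ b ∈ univ.erase a, tens b (mask (cs b).1 (cs b).2)

omit [Fintype L] [DecidableEq L] [Fintype S] [DecidableEq S] in
theorem plantM_eq {l m : ℕ} (a : Vec l) (cs : Coins L S l d m) :
    plantM cs = restM a cs + tens a (mask (cs a).1 (cs a).2) :=
  (sum_erase_add _ _ (mem_univ a)).symm

omit [Fintype L] [DecidableEq L] [Fintype S] [DecidableEq S] in
theorem restM_update {l m : ℕ} (a : Vec l) (cs : Coins L S l d m)
    (c : (L → Fin (m + 1)) × (Idx L S d → ZMod 2)) :
    restM a (Function.update cs a c) = restM a cs :=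
  sum_congr rfl fun b hb => by rw [Function.update_of_ne (ne_of_mem_erase hb)]

omit [Fintype S] [DecidableEq S] in
theorem ev_restM_update {l m : ℕ} (a : Vec l) {cs : Coins L S l d m} {p : L}
    (h : ∀ a, (cs a).1 p = 0) (α : L → S) (s : S) :
    ev (restM a cs) (Function.update α p s) = ev (restM a cs) α := by
  simp only [restM, ev_sum, ev_tens, ev_mask_update (h _)]

end Junta

/-! ### Lines in the space of states -/

section Step

variable {S : Type} [Fintype S] [DecidableEq S] {X : Sys S} {k l d : ℕ}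

/-- A row which is supported on the child `j`. -/
def emb (j : Fin (k + 1)) (t : Idx X.L S d → ZMod 2) : Col X k d → ZMod 2
  | none => 0
  | some (j', i) => if j' = j then t i else 0

omit [Fintype S] [DecidableEq S] in
@[simp] theorem part_emb (j : Fin (k + 1)) (t : Idx X.L S d → ZMod 2) : part j (emb j t) = t := by
  funext i; simp [part, emb]

omit [Fintype S] [DecidableEq S] in
theorem part_emb_ne {j j' : Fin (k + 1)} (h : j' ≠ j) (t : Idx X.L S d → ZMod 2) :
    part j' (emb j t) = 0 := by
  funext i; simp [part, emb, h]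

omit [DecidableEq S] in
theorem dot_emb (z : Col X k d → ZMod 2) (j : Fin (k + 1)) (t : Idx X.L S d → ZMod 2) :
    z ⬝ᵥ emb j t = part j z ⬝ᵥ t := by
  simp only [dotProduct, Fintype.sum_option, Fintype.sum_prod_type (α₁ := Fin (k + 1)), emb,
    mul_zero, zero_add, part]
  rw [sum_eq_single j]
  · simp
  · intro b _ hb; simp [hb]
  · simp

omit [DecidableEq S] in
theorem chi_emb (z : Col X k d → ZMod 2) (j : Fin (k + 1)) (t : Idx X.L S d → ZMod 2) :
    chi z (emb j t) = chi (part j z) t := by
  rw [chi, chi, dot_emb]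

omit [Fintype S] [DecidableEq S] in
theorem emb_add (j : Fin (k + 1)) (t t' : Idx X.L S d → ZMod 2) :
    emb j (t + t') = emb j t + emb j t' := by
  funext i
  rcases i with _ | ⟨j', i⟩
  · simp [emb]
  · simp only [emb, Pi.add_apply]
    split_ifs <;> simp

omit [Fintype S] [DecidableEq S] in
theorem sh_fst (a : Vec l) (t : Col X k d → ZMod 2) (s : State X k l d) (j : Fin (k + 1)) :
    (sh a t s).1 j = ((s.1 j).1, (s.1 j).2 + tens a (part j t)) := rfl

omit [Fintype S] [DecidableEq S] in
theorem sh_sh (a : Vec l) (t t' : Col X k d → ZMod 2) (s : State X k l d) :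
    sh a t (sh a t' s) = sh a (t + t') s := by
  refine Prod.ext (funext fun j => Prod.ext rfl ?_) ?_
  · funext i
    simp only [sh, tens, Pi.add_apply, add_smul]
    abel
  · simp only [sh, Pi.add_apply, add_smul]
    abel

omit [Fintype S] [DecidableEq S] in
@[simp] theorem sh_zero (a : Vec l) (s : State X k l d) : sh a 0 s = s := by
  refine Prod.ext (funext fun j => Prod.ext rfl ?_) ?_
  · funext i; simp [sh, tens]
  · simp [sh]

omit [Fintype S] [DecidableEq S] in
theorem sh_sh_self (a : Vec l) (t : Col X k d → ZMod 2) (s : State X k l d) :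
    sh a t (sh a t s) = s := by
  rw [sh_sh, f2_vec_add_self, sh_zero]

theorem expect_sh (a : Vec l) (t : Col X k d → ZMod 2) (F : State X k l d → ℝ) :
    𝔼 s, F (sh a t s) = 𝔼 s, F s :=
  Fintype.expect_equiv (Function.Involutive.toPerm (sh a t) (sh_sh_self a t)) _ _ fun _ => rfl

theorem lineAv_sh (a : Vec l) (F : State X k l d → ℝ) (t : Col X k d → ZMod 2)
    (s : State X k l d) : lineAv a F (sh a t s) = lineAv a F s := by
  simp only [lineAv, sh_sh]
  exact expect_add_right (fun t => F (sh a t s)) t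

theorem expect_mul_lineAv (a : Vec l) (Φ F : State X k l d → ℝ)
    (hΦ : ∀ t s, Φ (sh a t s) = Φ s) : 𝔼 s, Φ s * lineAv a F s = 𝔼 s, Φ s * F s := by
  simp only [lineAv, mul_expect]
  rw [expect_comm]
  refine (expect_congr rfl fun t _ => ?_).trans (Fintype.expect_const _)
  rw [← expect_sh a t fun s => Φ s * F s]
  simp only [hΦ]

theorem expect_lineAv (a : Vec l) (F : State X k l d → ℝ) : 𝔼 s, lineAv a F s = 𝔼 s, F s := by
  simpa using expect_mul_lineAv a (fun _ => 1) F fun _ _ => rfl

omit [Fintype S] [DecidableEq S] in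
theorem top_sh (a : Vec l) (t : Col X k d → ZMod 2) (s : State X k l d) (α : Asg X k) :
    top (sh a t s) α = top s α + (t none + ∑ j, ev (part j t) (sub j α)) • a := by
  simp only [top, sh_fst, ev_add, ev_tens, sum_add_distrib, add_smul, sum_smul]
  simp only [sh]
  abel

omit [Fintype S] [DecidableEq S] in
theorem top_sh_emb (a : Vec l) (j : Fin (k + 1)) (t : Idx X.L S d → ZMod 2) (s : State X k l d)
    (α : Asg X k) : top (sh a (emb j t) s) α = top s α + ev t (sub j α) • a := by
  rw [top_sh, sum_eq_single j, part_emb]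
  · simp [emb]
  · intro b _ hb
    rw [part_emb_ne hb, ev_zero]
  · simp

omit [Fintype S] [DecidableEq S] in
theorem sh_emb_plant (a : Vec l) (j : Fin (k + 1)) (t : Idx X.L S d → ZMod 2) (s : State X k l d)
    (c : Cell X l d) : sh a (emb j t) (plant s j c) = plant s j (c.1, c.2 + tens a t) := by
  refine Prod.ext (funext fun j' => ?_) (by simp [sh, emb])
  rw [sh_fst]
  by_cases h : j' = j
  · subst h; simp
  · rw [plant_ne _ h, plant_ne _ h, part_emb_ne h]
    refine Prod.ext rfl ?_
    funext i; simp [tens]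

omit [Fintype S] [DecidableEq S] in
theorem sh_emb_plant_ne (a : Vec l) {j j' : Fin (k + 1)} (h : j ≠ j')
    (t : Idx X.L S d → ZMod 2) (s : State X k l d) (c : Cell X l d) :
    sh a (emb j t) (plant s j' c) = plant (sh a (emb j t) s) j' c := by
  refine Prod.ext (funext fun j'' => ?_) rfl
  by_cases h' : j'' = j'
  · subst h'
    rw [sh_fst, plant_self, plant_self, part_emb_ne h.symm]
    refine Prod.ext rfl ?_
    funext i; simp [tens]
  · rw [sh_fst, plant_ne _ h', plant_ne _ h', sh_fst]

omit [Fintype S] [DecidableEq S] in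
/-- Planting after a shift. -/
theorem plant_sh (a : Vec l) (t : Col X k d → ZMod 2) (j : Fin (k + 1)) (s : State X k l d)
    (c : Cell X l d) : plant (sh a t s) j c = sh a (t + emb j (part j t)) (plant s j c) := by
  refine Prod.ext (funext fun j' => ?_) (by simp [sh, emb])
  rw [sh_fst]
  by_cases h : j' = j
  · subst h
    rw [plant_self, plant_self]
    refine Prod.ext rfl ?_
    funext i; simp [tens, part, emb, f2_add_self]
  · rw [plant_ne _ h, plant_ne _ h, sh_fst]
    refine Prod.ext rfl ?_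
    funext i; simp [tens, part, emb, h]

omit [Fintype S] [DecidableEq S] in
theorem top_plant_fst (s : State X k l d) (j : Fin (k + 1)) (t t' : X.T)
    (M : Idx X.L S d → Vec l) : top (plant s j (t, M)) = top (plant s j (t', M)) := by
  funext α
  simp only [top, plant_snd]
  congr 1
  refine sum_congr rfl fun j' _ => ?_
  by_cases h : j' = j
  · subst h; simp
  · rw [plant_ne _ h, plant_ne _ h]

omit [Fintype S] [DecidableEq S] in
theorem relIn_plant_fst (s : State X k l d) (j : Fin (k + 1)) (r : Setoid (X.L → S)) (t t' : X.T)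
    (M : Idx X.L S d → Vec l) : relIn j r (plant s j (t, M)) = relIn j r (plant s j (t', M)) := by
  unfold relIn
  rw [top_plant_fst s j t t' M]
  congr 1
  funext j'
  by_cases h : j' = j
  · subst h; simp
  · rw [Function.update_of_ne h, Function.update_of_ne h, plant_ne _ h, plant_ne _ h]

omit [Fintype S] [DecidableEq S] in
theorem glue_iff {J L : Type} (r : J → Setoid (L → S)) (q : Setoid (J × L → S)) (α β) :
    glue r q α β ↔ (∀ j, r j (sub j α) (sub j β)) ∧ q α β := Iff.rfl

omit [Fintype S] [DecidableEq S] in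
theorem abs_hv_le {l' : ℕ} (Y : Inn X l') {m : ℕ} (B : Setoid (Asg X k) → Asg X k) (a y : Vec l)
    (j : Fin (k + 1)) (ω : Smp Y l d m) (s : State X k l d) : |hv Y B a y j ω s| ≤ 1 := by
  unfold hv
  rw [abs_le]
  constructor <;> linarith [ind_nonneg (top s (B (relP Y j ω s)) = y),
    ind_le_one (top s (B (relP Y j ω s)) = y), ind_nonneg (top s (B (relP Y j ω s)) = y + a),
    ind_le_one (top s (B (relP Y j ω s)) = y + a)]

omit [Fintype S] [DecidableEq S] in
theorem plant_gp {l' : ℕ} (Y : Inn X l') {m : ℕ} (a : Vec l) (j : Fin (k + 1)) (ω : Smp Y l d m)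
    (s : State X k l d) : plant s j (gp Y ω) =
      sh a (emb j (mask (ω.2.2.2 a).1 (ω.2.2.2 a).2))
        (plant s j (Y.build ω.1 ω.2.1, restM a ω.2.2.2)) := by
  rw [sh_emb_plant, gp, plantM_eq a]

end Step

end Vale.Agent.P339
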