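import Vale.Agent.P339.Core

/-!
Statements of the intermediate theorems.
-/

namespace Vale.Agent.P339

open Finset Vale.Agent.Lib.PCP Vale.Agent.Lib.PolyTime Vale.Agent.P325
open scoped BigOperators

/-- A form which is stable along rank one moves and for which all rows are isotropic has small
rank. -/
def RankThm : Prop :=
  ∀ (I T : Type) [Fintype I] [DecidableEq I] (l' q : ℕ)
    (Bf : T → (I → ZMod 2) →ₗ[ZMod 2] (I → ZMod 2) →ₗ[ZMod 2] ZMod 2),
    (∀ ψ f g, Bf ψ f g = Bf ψ g f) → ∀ (Ψ : (I → Vec l') → T) (P : (I → Vec l') → Prop),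
      (∀ z, P z → ∀ γ γ', Bf (Ψ z) (row γ z) (row γ' z) = 0) →
        (𝔼 z : I → Vec l', 𝔼 w : Vec l', 𝔼 x : I → ZMod 2, 𝔼 x' : I → ZMod 2, ind (P (z + tens w x) ∧ P (z + tens w x') ∧
            Ψ (z + tens w x) = Ψ (z + tens w x'))) ≤
          (𝔼 z, ind (P z ∧ Rk (Bf (Ψ z)) ≤ 4 ^ q)) + (6 / 2 ^ q + 4 * 2 ^ q / 2 ^ l')

/-- The bilinear form of a functional on sums of juntas. -/
def JuntaThm : Prop :=
  ∀ (L S : Type) [Fintype L] [DecidableEq L] [Nonempty L] [Fintype S] [DecidableEq S] [Nonempty S]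
    (d : ℕ), 1 ≤ d → ∃ dec : L → (Idx L S d → ZMod 2) → S,
      ∀ (I : Type) [Fintype I] [DecidableEq I] (mono : I → (L → S) → ZMod 2) (d' : ℕ),
        Juntas mono d' → 2 * d' ≤ d →
        ∃ Bf : (Idx L S d → ZMod 2) → (I → ZMod 2) →ₗ[ZMod 2] (I → ZMod 2) →ₗ[ZMod 2] ZMod 2,
          (∀ Φ f g, Bf Φ f g = Bf Φ g f) ∧
          (∀ (r : Setoid (L → S)) Φ, Good r Φ → ∀ f g : I → ZMod 2,
            (∀ α β, r α β → ∑ i, mono i α * f i = ∑ i, mono i β * f i) →
            (∀ α β, r α β → ∑ i, mono i α * g i = ∑ i, mono i β * g i) → Bf Φ f g = 0) ∧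
          ∀ (r : Setoid (L → S)) Φ, Good r Φ → ∀ p, Spans mono p → Small dec (Rk (Bf Φ)) p Φ

/-- If both tests accept often, the answers of the right prover correlate with a character. -/
def CharThm : Prop :=
  ∀ δ : ℝ, 0 < δ → ∃ (s₀ : ℕ) (κ : ℝ), 0 < κ ∧ ∀ l, s₀ ≤ l →
    ∀ (S : Type) [Fintype S] [DecidableEq S] (X : Sys S) (l' : ℕ) (Y : Inn X l') (k d m : ℕ)
      (Γ : Type) [Fintype Γ] [Nonempty Γ] (A : Γ → State X k l d → Asg X k)
      (B : Γ → Setoid (Asg X k) → Asg X k) (e : ℝ), 0 ≤ e →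
      (Fintype.card (Cell X l d) : ℝ) ≤ e ^ 2 * (k + 1) →
      δ + e ≤ (𝔼 γ, 𝔼 j, 𝔼 ω : Smp Y l d m, 𝔼 s, 𝔼 w,
        ind (relTop (plant s j (gp Y ω)) w (A γ (plant s j (gp Y ω)))
            (B γ (relTop (plant s j (gp Y ω)) w)) ∧
          relP Y j ω (plant s j (gp Y ω)) (A γ (plant s j (gp Y ω)))
            (B γ (relP Y j ω (plant s j (gp Y ω)))))) →
      ∃ (a y : Vec l) (z : Γ → State X k l d → Col X k d → ZMod 2) (Q : Γ → State X k l d → ℝ),
        (∀ γ, Equi a (z γ) (Q γ)) ∧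
          κ / 2 ^ l - 2 * e ≤ 𝔼 γ, 𝔼 s, Q γ s * numt Y m (B γ) a y s

/-- The character is a point evaluation on measurable functions of the planted child. -/
def GoodThm : Prop :=
  ∀ (S : Type) [Fintype S] [DecidableEq S] (X : Sys S) (l' : ℕ) (Y : Inn X l') (k l d m : ℕ)
    (B : Setoid (Asg X k) → Asg X k) (a y : Vec l) (z : State X k l d → Col X k d → ZMod 2)
    (Q : State X k l d → ℝ), Equi a z Q → ∀ E : State X k l d → Prop,
      (∀ t s, E (sh a t s) ↔ E s) →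
      (𝔼 s, ind (E s) * (Q s * numt Y m B a y s)) ≤
        (𝔼 j, 𝔼 ω : Smp Y l d m, 𝔼 s, ind (E (plant s j (gp Y ω)) ∧
            Good (X.rel (Y.build ω.1 ω.2.1)) (part j (z (plant s j (gp Y ω))))) *
          (Q (plant s j (gp Y ω)) * hv Y B a y j ω (plant s j (gp Y ω)))) +
        (Fintype.card (Cell X l d) : ℝ) / (k + 1)

/-- Stability of the character under the moves of the lower level gives short lists. -/
def StableThm : Prop :=
  ∀ (S : Type) [Fintype S] [DecidableEq S] [Nonempty S] (X : Sys S) (d : ℕ), 1 ≤ d →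
    ∃ dec : X.L → (Idx X.L S d → ZMod 2) → S,
      ∀ (l' : ℕ) (Y : Inn X l') (d' : ℕ), Y.Alg d' → 2 * d' ≤ d → ∀ (k l m q : ℕ)
        (B : Setoid (Asg X k) → Asg X k) (a y : Vec l) (z : State X k l d → Col X k d → ZMod 2)
        (Q : State X k l d → ℝ), Equi a z Q → ∀ E : State X k l d → Prop,
          (∀ t s, E (sh a t s) ↔ E s) →
          (𝔼 j, 𝔼 ω : Smp Y l d m, 𝔼 s, ind (E (plant s j (gp Y ω)) ∧
              Good (X.rel (Y.build ω.1 ω.2.1)) (part j (z (plant s j (gp Y ω))))) *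
            (Q (plant s j (gp Y ω)) * hv Y B a y j ω (plant s j (gp Y ω)))) ^ 2 ≤
          (𝔼 j, 𝔼 ω : Smp Y l d m, 𝔼 s, ind (E (plant s j (gp Y ω)) ∧ ∀ p, Spans (Y.mono ω.1) p →
              Small dec (4 ^ q) p (part j (z (plant s j (gp Y ω)))))) +
            ((d : ℝ) / (m + 1) + 6 / 2 ^ q + 4 * 2 ^ q / 2 ^ l')

/-- Decoding to the projection game. -/
def DecodeThm : Prop :=
  ∀ (S : Type) [Fintype S] [DecidableEq S] [Nonempty S] (X : Sys S) (l' : ℕ) (Y : Inn X l')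
    (k l d m : ℕ) (U W D : Type) [Fintype U] [Nonempty U] [Fintype D] [Nonempty D]
    (G : Star U W D S) (θ : ℝ), G.ValLE θ → ∀ (Free : Fin (k + 1) × X.L → Prop)
    (B : (Fin (k + 1) × X.L → U) → Setoid (Asg X k) → Asg X k), (∀ p, Free p → Loc G B p) →
    ∀ (a y : Vec l) (z : (Fin (k + 1) × X.L → U) → State X k l d → Col X k d → ZMod 2)
      (Q : (Fin (k + 1) × X.L → U) → State X k l d → ℝ), (∀ x, Equi a (z x) (Q x)) →
    ∀ E : (Fin (k + 1) × X.L → U) → State X k l d → Prop, (∀ x t s, E x (sh a t s) ↔ E x s) →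
    ∀ (dec : X.L → (Idx X.L S d → ZMod 2) → S) (R : ℕ) (sel : Fin (k + 1) → Smp Y l d m → X.L)
      (e : ℝ), 0 ≤ e → e ≤ 1 →
      ((Fintype.card (Cell X l d) : ℝ) * Fintype.card (Idx X.L S d → ZMod 2)) ^ 2 ≤
        e ^ 2 * (k + 1) →
      (𝔼 x, 𝔼 j, 𝔼 ω : Smp Y l d m, 𝔼 s, ind (Free (j, sel j ω) ∧
          Blind (X.rel (Y.build ω.1 ω.2.1)) (sel j ω) ∧ (∀ b, (ω.2.2.2 b).1 (sel j ω) = 0) ∧
          Small dec R (sel j ω) (part j (z x (plant s j (gp Y ω)))) ∧ E x (plant s j (gp Y ω))) *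
        lineAv a (fun s => Q x s * numt Y m (B x) a y s) (plant s j (gp Y ω))) ≤
        √(R * θ) + 4 * e

/-- The test of the new level and the test of an old level rarely accept together. -/
def MainThm : Prop :=
  ∀ δ : ℝ, 0 < δ → ∃ s₀ : ℕ, ∀ l, s₀ ≤ l → ∃ η₀ : ℝ, 0 < η₀ ∧ ∀ η : ℝ, 0 < η → η ≤ η₀ →
    ∀ (S : Type) [Fintype S] [DecidableEq S] [Nonempty S] (X : Sys S) (h : X.H)
      (l' d' d m N k : ℕ), X.Inner h l' d' (N * (m + 1) ^ 2 ^ l) η → 1 / 2 ^ l' ≤ η₀ →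
      2 * d' ≤ d → 1 ≤ d → (d : ℝ) ≤ η * (m + 1) →
      ((Fintype.card (Cell X l d) : ℝ) * Fintype.card (Idx X.L S d → ZMod 2)) ^ 2 ≤
        η ^ 2 * (k + 1) →
      (X.step k l d m).PairLE none (some h) N η δ

/-- The description of the new level. -/
def InnerTopThm : Prop :=
  ∀ (S : Type) [Fintype S] [DecidableEq S] (X : Sys S) (k l d m N : ℕ) (e : ℝ), X.Zero → 1 ≤ d →
    0 ≤ e → e ≤ 1 → (Fintype.card (Cell X l d) : ℝ) * (N + 1) ≤ e ^ 2 * (k + 1) →
    (X.step k l d m).Inner none l d N e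

/-- The description of an old level. -/
def InnerStepThm : Prop :=
  ∀ (S : Type) [Fintype S] [DecidableEq S] (X : Sys S) (h : X.H) (k l d m N l' d' : ℕ) (e : ℝ),
    X.Inner h l' d' (N * (m + 1) ^ 2 ^ l) e → (X.step k l d m).Inner (some h) l' d' N e

/-- Two old levels. -/
def PairStepThm : Prop :=
  ∀ (S : Type) [Fintype S] [DecidableEq S] (X : Sys S) (h h' : X.H) (k l d m N : ℕ) (θ δ : ℝ),
    X.PairLE h h' (N * (m + 1) ^ 2 ^ l) θ δ → (X.step k l d m).PairLE (some h) (some h') N θ δ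

/-! ### The reductions -/

/-- A vertex with its neighbours and projections. -/
abbrev StarData (D S : Type) : Type := ℕ × (D → ℕ × (S → S))

/-- The game of a list of stars. -/
def starOf {D S : Type} (l : List (StarData D S)) : Star (Fin l.length) ℕ D S where
  nbr u i := (l[u].2 i).1
  proj u i := (l[u].2 i).2

/-- All projections have the same range, and two different projections of a star generate the
total relation. -/
def Nice {D S : Type} (l : List (StarData D S)) : Prop :=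
  (∀ c ∈ l, ∀ c' ∈ l, ∀ i i', Set.range (c.2 i).2 = Set.range (c'.2 i').2) ∧
    ∀ c ∈ l, ∀ i i', i ≠ i' → ∃ t₀, ∀ s, ∃ t, (c.2 i).2 s = (c.2 i).2 t ∧ (c.2 i').2 t = (c.2 i').2 t₀

/-- Label cover in star form. -/
def StarP (D S : Type) [Fintype D] (θ : ℝ) : Promise (List (StarData D S)) where
  yes l := l ≠ [] ∧ Nice l ∧ ∃ f g : ℕ → S, ∀ c ∈ l, ∀ i, (c.2 i).2 (f c.1) = g (c.2 i).1
  no l := l ≠ [] ∧ Nice l ∧ (starOf l).ValLE θ

/-- Label cover in star form is hard. -/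
def StarThm : Prop :=
  ∀ θ : ℝ, 0 < θ → ∃ (D S : Type) (_ : Fintype D) (_ : Nonempty D) (_ : Fintype S)
    (_ : DecidableEq S) (_ : Nonempty S) (_ : Enc S) (_ : EncInj S), Hard (StarP D S θ)

/-- Constraints given by maps which may be undefined. -/
abbrev HEdge (V A B : Type) : Type := V × V × (A → Option B)

/-- Satisfaction. -/
def satH {V A B : Type} [DecidableEq B] (c : HEdge V A B) (l : (V → A) × (V → B)) : Bool :=
  decide (c.2.2 (l.1 c.1) = some (l.2 c.2.1))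

/-- At most two labels have the same image. -/
def AtMostTwo {A B : Type} (f : A → Option B) : Prop :=
  ∀ a a' a'' b, f a = some b → f a' = some b → f a'' = some b → a = a' ∨ a = a'' ∨ a' = a''

/-- Games with fibres of size at most two. -/
def HGap (V A B : Type) [DecidableEq B] (s : ℝ) : Promise (List (HEdge V A B)) where
  yes l := (∀ c ∈ l, AtMostTwo c.2.2) ∧ (Gap satH 1 s).yes l
  no l := (∀ c ∈ l, AtMostTwo c.2.2) ∧ (Gap satH 1 s).no l

/-- Constraints of 2-to-1 games. -/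
abbrev TEdge (V : Type) (q : ℕ) : Type := V × V × (Fin (2 * q) → Fin q)

/-- Satisfaction. -/
def satT {V : Type} {q : ℕ} (c : TEdge V q) (l : (V → Fin (2 * q)) × (V → Fin q)) : Bool :=
  decide (c.2.2 (l.1 c.1) = l.2 c.2.1)

/-- Every label has exactly two preimages. -/
def ExactTwo {q : ℕ} (f : Fin (2 * q) → Fin q) : Prop :=
  ∀ b, (univ.filter fun a => f a = b).card = 2

/-- The gap problem of 2-to-1 games with perfect completeness. -/
def TGap (V : Type) (q : ℕ) (s : ℝ) : Promise (List (TEdge V q)) where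
  yes l := (∀ c ∈ l, ExactTwo c.2.2) ∧ (Gap satT 1 s).yes l
  no l := (∀ c ∈ l, ExactTwo c.2.2) ∧ (Gap satT 1 s).no l

/-- Padding with dummy labels. -/
def PadThm : Prop :=
  ∀ (A B : Type) [Fintype A] [Nonempty A] [Fintype B] [DecidableEq B] [Nonempty B] [Enc B]
    [EncInj B] (ε : ℝ), 0 < ε → ∃ q : ℕ, 2 ≤ q ∧ ∀ (V : Type) [Enc V] (s : ℝ),
      Red (HGap V A B s) (TGap V q (s + ε))

/-- The reduction which belongs to a system of tables. -/
def KeyThm : Prop :=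
  ∀ (D S : Type) [Fintype D] [Nonempty D] [Fintype S] [DecidableEq S] [Nonempty S] [Enc S]
    [EncInj S] (X : Sys S) (θ δ : ℝ), Nonempty X.H → X.TwoOne → X.Sound θ δ →
      Red (StarP D S θ) (HGap ((X.L → ℕ) × ℕ) (X.L → S) (X.L → Option S) δ)

end Vale.Agent.P339
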