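import Vale.Agent.P339.Defs
import Vale.Agent.P339.Stmt
import Vale.Agent.Lib.PolyTime.TypedTM2

/-!
Bridge between the statement (`TwoToOne.GapNPHard`) and the promise problems of the PCP library,
and the assembly of the four main theorems.
-/

namespace Vale.Agent.P339.TwoToOne

open Vale.Agent.Lib.PolyTime Vale.Agent.Lib.PCP

theorem pair_eq_pr : pair = pr := by
  funext x y
  induction x with
  | nil => rfl
  | cons b x ih => simp [pair, pr, ih]

theorem codeList_eq {α : Type} [Enc α] (l : List α) : codeList (l.map enc) = enc l := by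
  induction l with
  | nil => rfl
  | cons a l ih => rw [List.map_cons, codeList, ih, pair_eq_pr, enc_cons]

theorem formula_code (φ : Formula) : φ.code = enc (show CNF from φ) := by
  rw [← codeList_eq, Formula.code]
  congr 1
  refine List.map_congr_left fun c _ => ?_
  simp only [Literal.code, pair_eq_pr]
  rfl

theorem satisfiable_iff (φ : Formula) : φ.Satisfiable ↔ Satisfiable φ := by
  simp only [Formula.Satisfiable, Satisfiable, satClause, satLit, Bool.or_eq_true, beq_iff_eq,
    or_assoc]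

section Conv

variable {V : Type} [DecidableEq V] {q : ℕ}

/-- The left vertices which occur. -/
def lefts (l : List (TEdge V q)) : List V := l.map fun c => c.1

/-- The right vertices which occur. -/
def rights (l : List (TEdge V q)) : List V := l.map fun c => c.2.1

theorem idx1_lt {l : List (TEdge V q)} {c : TEdge V q} (h : c ∈ l) :
    (lefts l).idxOf c.1 < (lefts l).length :=
  List.idxOf_lt_length_iff.2 (List.mem_map_of_mem h)

theorem idx2_lt {l : List (TEdge V q)} {c : TEdge V q} (h : c ∈ l) :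
    (rights l).idxOf c.2.1 < (rights l).length :=
  List.idxOf_lt_length_iff.2 (List.mem_map_of_mem h)

/-- Conversion to instances of the statement. -/
def toGame (l : List (TEdge V q)) (h0 : l ≠ []) (h1 : ∀ c ∈ l, ExactTwo c.2.2) : Game q where
  m := (lefts l).length
  n := (rights l).length
  cons := l.attach.map fun c => (⟨_, idx1_lt c.2⟩, ⟨_, idx2_lt c.2⟩, c.1.2.2)
  cons_ne := by simpa using h0
  two_to_one := by
    intro c hc
    obtain ⟨c', -, rfl⟩ := List.mem_map.1 hc
    exact h1 c'.1 c'.2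

theorem toGame_length (l : List (TEdge V q)) (h0 : l ≠ []) (h1 : ∀ c ∈ l, ExactTwo c.2.2) :
    (toGame l h0 h1).cons.length = l.length := by
  simp [toGame]

theorem toGame_count (l : List (TEdge V q)) (h0 : l ≠ []) (h1 : ∀ c ∈ l, ExactTwo c.2.2)
    (L : (Fin (toGame l h0 h1).m → Fin (2 * q)) × (Fin (toGame l h0 h1).n → Fin q))
    (b : (V → Fin (2 * q)) × (V → Fin q))
    (ha : ∀ (v : V) (h : (lefts l).idxOf v < (lefts l).length), L.1 ⟨_, h⟩ = b.1 v)
    (hb : ∀ (v : V) (h : (rights l).idxOf v < (rights l).length), L.2 ⟨_, h⟩ = b.2 v) :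
    ((toGame l h0 h1).cons.countP fun c => c.2.2 (L.1 c.1) = L.2 c.2.1) = cnt satT l b := by
  have h2 : cnt satT l b = l.attach.countP fun c => satT c.1 b := by
    rw [cnt]
    conv_lhs => rw [← List.attach_map_subtype_val l]
    rw [List.countP_map]
    rfl
  rw [h2]
  simp only [toGame]
  rw [List.countP_map]
  refine List.countP_congr fun c _ => ?_
  simp only [Function.comp_apply, satT, decide_eq_true_eq]
  have e1 := ha c.1.1 (idx1_lt c.2)
  have e2 := hb c.1.2.1 (idx2_lt c.2)
  exact Eq.congr (congrArg _ e1) e2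

theorem val_bdd (G : Game q) :
    BddAbove (Set.range fun L : (Fin G.m → Fin (2 * q)) × (Fin G.n → Fin q) =>
      (G.cons.countP fun c => c.2.2 (L.1 c.1) = L.2 c.2.1 : ℝ) / G.cons.length) :=
  (Set.finite_range _).bddAbove

theorem le_val_toGame (l : List (TEdge V q)) (h0 : l ≠ []) (h1 : ∀ c ∈ l, ExactTwo c.2.2) {c : ℝ}
    (b : (V → Fin (2 * q)) × (V → Fin q)) (hb : c * l.length ≤ (cnt satT l b : ℝ)) :
    c ≤ (toGame l h0 h1).val := by
  have hl : (0 : ℝ) < l.length := by exact_mod_cast List.length_pos_iff.2 h0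
  refine le_trans ?_ (le_ciSup (val_bdd _)
    (fun i : Fin (lefts l).length => b.1 ((lefts l)[i.1]'i.2),
      fun i : Fin (rights l).length => b.2 ((rights l)[i.1]'i.2)))
  have h3 := toGame_count l h0 h1 (fun i : Fin (lefts l).length => b.1 ((lefts l)[i.1]'i.2),
      fun i : Fin (rights l).length => b.2 ((rights l)[i.1]'i.2)) b
    (fun v h => by simp) (fun v h => by simp)
  rw [toGame_length, le_div_iff₀ hl]
  exact hb.trans (le_of_eq (congrArg _ h3.symm))

theorem val_toGame_le (hq : 0 < q) (l : List (TEdge V q)) (h0 : l ≠ [])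
    (h1 : ∀ c ∈ l, ExactTwo c.2.2) {s : ℝ}
    (hb : ∀ b : (V → Fin (2 * q)) × (V → Fin q), (cnt satT l b : ℝ) ≤ s * l.length) :
    (toGame l h0 h1).val ≤ s := by
  have hl : (0 : ℝ) < l.length := by exact_mod_cast List.length_pos_iff.2 h0
  have a₀ : Fin (2 * q) := ⟨0, by omega⟩
  have b₀ : Fin q := ⟨0, hq⟩
  have : Nonempty ((Fin (toGame l h0 h1).m → Fin (2 * q)) × (Fin (toGame l h0 h1).n → Fin q)) :=
    ⟨(fun _ => a₀, fun _ => b₀)⟩
  refine ciSup_le fun L => ?_
  rw [toGame_count l h0 h1 L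
    (fun v => if h : (lefts l).idxOf v < (lefts l).length then L.1 ⟨_, h⟩ else a₀,
      fun v => if h : (rights l).idxOf v < (rights l).length then L.2 ⟨_, h⟩ else b₀)
    (fun v h => by simp [h]) (fun v h => by simp [h]), toGame_length, div_le_iff₀ hl]
  exact hb _

/-- The data which is written down. -/
def data (l : List (TEdge V q)) : Un × Un × List (List Raw) :=
  (⟨(lefts l).length⟩, ⟨(rights l).length⟩, l.map fun c =>
    [⟨((lefts l).idxOf c.1).bits⟩, ⟨((rights l).idxOf c.2.1).bits⟩,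
      ⟨enc (List.ofFn fun a : Fin (2 * q) => (c.2.2 a).val)⟩])

theorem code_toGame (l : List (TEdge V q)) (h0 : l ≠ []) (h1 : ∀ c ∈ l, ExactTwo c.2.2) :
    (toGame l h0 h1).code = enc (data l) := by
  rw [data, enc_pair, enc_pair, enc_un, enc_un, ← codeList_eq, Game.code, pair_eq_pr]
  congr 3
  simp only [toGame, List.map_map]
  conv_rhs => rw [← List.attach_map_subtype_val l]
  rw [List.map_map]
  refine List.map_congr_left fun c _ => ?_
  simp only [Function.comp_apply]
  rw [← codeList_eq]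
  simp only [List.map_cons, List.map_nil, enc_raw]
  rw [← codeList_eq, List.map_ofFn]
  simp only [List.attach_map_subtype_val]
  rfl

theorem PT_data [Enc V] [EncInj V] : PT ∅ (data (V := V) (q := q)) := by
  have hl : PT ∅ (lefts (V := V) (q := q)) :=
    PT.map (f := fun _ (c : TEdge V q) => c.1) PT.id PT.snd'.fst
  have hr : PT ∅ (rights (V := V) (q := q)) :=
    PT.map (f := fun _ (c : TEdge V q) => c.2.1) PT.id PT.snd'.snd.fst
  refine PT.pair (PT.mkUn hl.length (PBd.length hl))
    (PT.pair (PT.mkUn hr.length (PBd.length hr)) (PT.map PT.id ?_))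
  refine PT.cons (PT.rawBits (PT.idxOf (hl.comp PT.fst') PT.snd'.fst))
    (PT.cons (PT.rawBits (PT.idxOf (hr.comp PT.fst') PT.snd'.snd.fst)) (PT.cons ?_ PT.nil))
  exact PT.finComp (fun π : Fin (2 * q) → Fin q =>
    Raw.mk (enc (List.ofFn fun a : Fin (2 * q) => (π a).val))) PT.snd'.snd.snd

end Conv

/-- Hardness of the gap problem in the library gives the statement. -/
theorem gapNPHard_of_hard {V : Type} [Enc V] [EncInj V] {q : ℕ} (hq : 0 < q) {s : ℝ}
    (h : Hard (TGap V q s)) : GapNPHard q 1 s := by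
  classical
  obtain ⟨f, hf, f1, f2⟩ := h
  have h0 : ∀ φ : Formula, f φ ≠ [] := fun φ => by
    by_cases hφ : Satisfiable φ
    · exact (f1 φ hφ).2.1
    · exact (f2 φ hφ).2.1
  have h1 : ∀ φ : Formula, ∀ c ∈ f φ, ExactTwo c.2.2 := fun φ => by
    by_cases hφ : Satisfiable φ
    · exact (f1 φ hφ).1
    · exact (f2 φ hφ).1
  refine ⟨fun φ => toGame (f φ) (h0 φ) (h1 φ), ?_, fun φ hφ => ?_, fun φ hφ => ?_⟩
  · obtain ⟨g, hg, hg'⟩ := PT_data.comp hf
    refine exists_tm2_of_polyTimeFun _ _ _ g (polyTimeFun_iff.2 hg) fun φ => ?_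
    rw [code_toGame, formula_code]
    exact hg' φ
  · obtain ⟨b, hb⟩ := (f1 φ ((satisfiable_iff φ).1 hφ)).2.2
    exact le_val_toGame _ _ _ b hb
  · exact val_toGame_le hq _ _ _ (f2 φ fun h => hφ ((satisfiable_iff φ).2 h)).2.2

/-- The four main theorems imply the conjecture. -/
theorem conjecture_of (hC : CoreThm) (hS : StarThm) (hK : KeyThm) (hP : PadThm) (δ : ℝ)
    (hδ : 0 < δ) : ∃ q : ℕ, 2 ≤ q ∧ GapNPHard q 1 δ := by
  obtain ⟨θ, hθ, hX⟩ := hC (δ / 2) (half_pos hδ)
  obtain ⟨D, S, _, _, _, _, _, _, _, hard⟩ := hS θ hθ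
  obtain ⟨X, h1, h2, h3⟩ := hX S
  have hK' := hK D S X θ (δ / 2) h1 h2 h3
  classical
  obtain ⟨q, hq, hR⟩ := hP (X.L → S) (X.L → Option S) (δ / 2) (half_pos hδ)
  have h4 := (hard.red hK').red (hR ((X.L → ℕ) × ℕ) (δ / 2))
  rw [add_halves] at h4
  exact ⟨q, hq, gapNPHard_of_hard (by omega) h4⟩

end Vale.Agent.P339.TwoToOne
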