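import Vale.Agent.P339.Basic

/-!
If both tests accept often, the answers of the right prover correlate with a character.
-/

namespace Vale.Agent.P339

open Finset Vale.Agent.Lib.PCP Vale.Agent.P325
open scoped BigOperators

namespace CharAux

section Abstract

variable {ι : Type} [Fintype ι] [DecidableEq ι] {l : ℕ}

theorem expect_tens (a : Vec l) (Φ : (ι → Vec l) → ℝ) :
    𝔼 M, Φ M = 𝔼 M, 𝔼 t : ι → ZMod 2, Φ (M + tens a t) := by
  rw [expect_comm]
  refine ((expect_congr rfl fun t _ => ?_).trans (Fintype.expect_const _)).symm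
  exact expect_shiftG Φ _

/-- The test along lines gives a lower bound for the quadratic form of the noise operator. -/
theorem quad_lower (o : ι → ZMod 2) (f : Vec l → (ι → Vec l) → ℝ)
    (hf : ∀ c w M, f (c + w) (M + tens w o) = f c M) (r : (ι → Vec l) → Vec l → Vec l)
    (hr : ∀ M w t, r (M + tens w t) w = r M w ∨ r (M + tens w t) w = r M w + w) :
    ((𝔼 M, 𝔼 w, (f (r M w) M + f (r M w + w) M)) / 2) ^ 2 ≤
      ∑ c, 𝔼 M, f c M * noiseOp (LinearMap.id : Vec l →ₗ[ZMod 2] Vec l) (f c) M := by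
  have hL : ∀ c w M, P325.lineAv w (f (c + w)) M = P325.lineAv w (f c) M := by
    intro c w M
    rw [← lineAv_inv w (f (c + w)) M o]
    refine expect_congr rfl fun b _ => ?_
    rw [add_right_comm, hf]
  have h1 : ∀ w, 𝔼 M, (f (r M w) M + f (r M w + w) M) =
      2 * 𝔼 M, P325.lineAv w (f (r M w)) M := by
    intro w
    rw [expect_tens w, mul_expect]
    refine expect_congr rfl fun M _ => ?_
    have h2 : ∀ t, f (r (M + tens w t) w) (M + tens w t) +
        f (r (M + tens w t) w + w) (M + tens w t) =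
        f (r M w) (M + tens w t) + f (r M w + w) (M + tens w t) := by
      intro t
      rcases hr M w t with h | h
      · rw [h]
      · rw [h, add_assoc, add_self_two, add_zero, add_comm]
    simp only [h2, expect_add_distrib]
    have h3 := hL (r M w) w M
    simp only [P325.lineAv] at h3 ⊢
    rw [h3]; ring
  have h4 : ∀ w c, 𝔼 M, P325.lineAv w (f c) M ^ 2 = 𝔼 M, f c M * P325.lineAv w (f c) M := by
    intro w c
    rw [expect_tens w (fun M => f c M * P325.lineAv w (f c) M)]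
    refine expect_congr rfl fun M _ => ?_
    simp only [lineAv_inv, ← expect_mul]
    rw [sq]; rfl
  rw [expect_comm]
  simp only [h1]
  rw [← mul_expect, mul_div_cancel_left₀ _ two_ne_zero]
  calc (𝔼 w, 𝔼 M, P325.lineAv w (f (r M w)) M) ^ 2
      ≤ 𝔼 w, (𝔼 M, P325.lineAv w (f (r M w)) M) ^ 2 := sq_expect_le _
    _ ≤ 𝔼 w, 𝔼 M, P325.lineAv w (f (r M w)) M ^ 2 := expect_le_expect fun w _ => sq_expect_le _
    _ ≤ 𝔼 w, 𝔼 M, ∑ c, P325.lineAv w (f c) M ^ 2 := expect_le_expect fun w _ =>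
        expect_le_expect fun M _ => single_le_sum (f := fun c => P325.lineAv w (f c) M ^ 2)
          (fun c _ => sq_nonneg _) (mem_univ _)
    _ = _ := by
        simp only [expect_sum_comm, h4]
        refine sum_congr rfl fun c _ => ?_
        rw [expect_comm]
        refine expect_congr rfl fun M _ => ?_
        rw [← mul_expect]; rfl

theorem le_add_pow {x α : ℝ} (hα : 0 < α) (hx : 0 ≤ x) : x ≤ α + 1 / α ^ 3 * x ^ 4 := by
  rcases le_total x α with h | h
  · have : 0 ≤ 1 / α ^ 3 * x ^ 4 := by positivity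
    linarith
  · have h1 : α ^ 3 ≤ x ^ 3 := pow_le_pow_left₀ hα.le h 3
    have h2 : x ≤ 1 / α ^ 3 * x ^ 4 := by
      rw [one_div, inv_mul_eq_div, le_div_iff₀ (by positivity)]
      nlinarith
    linarith

theorem quad_upper (f : Vec l → (ι → Vec l) → ℝ) (h0 : ∀ c M, 0 ≤ f c M)
    (h1 : ∀ M, ∑ c, f c M ≤ 1) {α : ℝ} (hα : 0 < α) :
    ∑ c, 𝔼 M, f c M * noiseOp (LinearMap.id : Vec l →ₗ[ZMod 2] Vec l) (f c) M ≤
      α + 1 / α ^ 3 * 𝔼 M, ∑ c, noiseOp (LinearMap.id : Vec l →ₗ[ZMod 2] Vec l)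
        (noiseOp (LinearMap.id : Vec l →ₗ[ZMod 2] Vec l) (f c)) M ^ 2 := by
  have f1 : ∀ c M, f c M ≤ 1 := fun c M =>
    (single_le_sum (f := fun c => f c M) (fun c _ => h0 c M) (mem_univ c)).trans (h1 M)
  refine (sum_le_sum fun c _ => spectral (α := α) (β := 1 / α ^ 3) _ _ (fun S => le_add_pow hα
    (expect_nonneg fun r _ => by split_ifs <;> norm_num)) (f c)).trans ?_
  rw [sum_add_distrib, ← mul_sum, ← mul_sum, expect_sum_comm, ← expect_sum_comm]
  have h2 : 𝔼 M, ∑ c, f c M ^ 2 ≤ 1 := expect_le univ_nonempty fun M _ =>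
    (sum_le_sum fun c _ => by nlinarith [h0 c M, f1 c M]).trans (h1 M)
  nlinarith

omit [DecidableEq ι] in
theorem exists_amax (o : ι → ZMod 2) (ho : ∃ z, z ⬝ᵥ o = 1) (h : (ι → ZMod 2) → ℝ) :
    ∃ z, z ⬝ᵥ o = 1 ∧ ∀ z', z' ⬝ᵥ o = 1 → h z' ≤ h z := by
  classical
  obtain ⟨z₀, hz₀⟩ := ho
  obtain ⟨z, hz, hz'⟩ := exists_max_image (univ.filter fun z : ι → ZMod 2 => z ⬝ᵥ o = 1) h
    ⟨z₀, by simpa using hz₀⟩
  exact ⟨z, by simpa using hz, fun z' h' => hz' z' (by simpa using h')⟩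

/-- The sign of a real number. -/
noncomputable def sgn (x : ℝ) : ℝ := ind (0 < x) - ind (x < 0)

theorem sgn_neg (x : ℝ) : sgn (-x) = -sgn x := by
  simp only [sgn, neg_pos, neg_neg_iff_pos, neg_sub]

omit [DecidableEq ι] in
theorem sign_mul_chi (x : ℝ) (z t : ι → ZMod 2) : sgn (x * chi z t) = sgn x * chi z t := by
  rw [chi]
  rcases f2_cases (z ⬝ᵥ t) with e | e <;> rw [e]
  · simp
  · simp [sgn_neg]

theorem abs_sign_le (x : ℝ) : |sgn x| ≤ 1 := by
  rw [sgn, abs_le]
  constructor <;> linarith [ind_nonneg (0 < x), ind_le_one (0 < x), ind_nonneg (x < 0),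
    ind_le_one (x < 0)]

theorem sign_mul_eq (x : ℝ) : sgn x * x = |x| := by
  rcases lt_trichotomy x 0 with h | h | h
  · rw [sgn, ind_of h, ind_of_not (not_lt.2 h.le), abs_of_neg h]; ring
  · simp [h]
  · rw [sgn, ind_of h, ind_of_not (not_lt.2 h.le), abs_of_pos h]; ring

/-- The best odd character on every line. -/
theorem exists_char (o : ι → ZMod 2) (ho : ∃ z, z ⬝ᵥ o = 1) (a : Vec l) (F : (ι → Vec l) → ℝ) :
    ∃ (z : (ι → Vec l) → ι → ZMod 2) (Q θ : (ι → Vec l) → ℝ), (∀ M, |Q M| ≤ 1) ∧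
      (∀ t M, z (M + tens a t) = z M) ∧ (∀ t M, Q (M + tens a t) = Q M * chi (z M) t) ∧
      (∀ M, z M ⬝ᵥ o = 1) ∧ (∀ M, 0 ≤ θ M) ∧
      (∀ M z', z' ⬝ᵥ o = 1 → |hat (fun t => F (M + tens a t)) z'| ≤ θ M) ∧
      𝔼 M, Q M * F M = 𝔼 M, θ M := by
  choose am ham using exists_amax o ho
  have ht : ∀ t M z', hat (fun b => F (M + tens a t + tens a b)) z' =
      hat (fun b => F (M + tens a b)) z' * chi z' t := by
    intro t M z'
    rw [← hat_translate (fun b => F (M + tens a b)) t z']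
    congr 1
    funext b
    rw [tens_add, add_assoc, add_comm (tens a t)]
  set z : (ι → Vec l) → ι → ZMod 2 := fun M => am fun z' => |hat (fun t => F (M + tens a t)) z'|
    with hz
  have zi : ∀ t M, z (M + tens a t) = z M := by
    intro t M
    simp only [hz, ht, abs_mul, abs_chi, mul_one]
  have Qi : ∀ t M, sgn (hat (fun b => F (M + tens a t + tens a b)) (z (M + tens a t))) =
      sgn (hat (fun b => F (M + tens a b)) (z M)) * chi (z M) t := by
    intro t M
    rw [zi, ht, sign_mul_chi]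
  refine ⟨z, fun M => sgn (hat (fun t => F (M + tens a t)) (z M)),
    fun M => |hat (fun t => F (M + tens a t)) (z M)|, fun M => abs_sign_le _, zi, Qi,
    fun M => (ham _).1, fun M => abs_nonneg _, fun M z' h =>
      (ham fun z' => |hat (fun t => F (M + tens a t)) z'|).2 z' h, ?_⟩
  rw [expect_tens a]
  refine expect_congr rfl fun M _ => ?_
  simp only [Qi]
  rw [← sign_mul_eq]
  conv_rhs => rw [hat, mul_expect]
  refine expect_congr rfl fun t _ => ?_
  simp only [hat]
  ring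

/-- The statement on matrices. -/
theorem char_abs {δ : ℝ} (hδ : 0 < δ) : ∃ (s₀ : ℕ) (κ : ℝ), 0 < κ ∧ ∀ l, s₀ ≤ l →
    ∀ (ι : Type) [Fintype ι] [DecidableEq ι] (o : ι → ZMod 2), (∃ z, z ⬝ᵥ o = 1) →
    ∀ (Γ : Type) [Fintype Γ] [Nonempty Γ] (f : Γ → Vec l → (ι → Vec l) → ℝ),
      (∀ γ c M, 0 ≤ f γ c M) → (∀ γ M, ∑ c, f γ c M ≤ 1) →
      (∀ γ c w M, f γ (c + w) (M + tens w o) = f γ c M) →
      ∀ r : Γ → (ι → Vec l) → Vec l → Vec l,
      (∀ γ M w t, r γ (M + tens w t) w = r γ M w ∨ r γ (M + tens w t) w = r γ M w + w) →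
      δ ≤ (𝔼 γ, 𝔼 M, 𝔼 w, (f γ (r γ M w) M + f γ (r γ M w + w) M)) →
      ∃ (a y : Vec l) (z : Γ → (ι → Vec l) → ι → ZMod 2) (Q : Γ → (ι → Vec l) → ℝ),
        (∀ γ M, |Q γ M| ≤ 1) ∧ (∀ γ t M, z γ (M + tens a t) = z γ M) ∧
        (∀ γ t M, Q γ (M + tens a t) = Q γ M * chi (z γ M) t) ∧
        κ / 2 ^ l ≤ 𝔼 γ, 𝔼 M, Q γ M * (f γ y M - f γ (y + a) M) := by
  set α : ℝ := δ ^ 2 / 8 with hα
  have α0 : 0 < α := by positivity
  set ν : ℝ := α ^ 4 / 6 with hν
  have ν0 : 0 < ν := by positivity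
  obtain ⟨s₀, hs₀⟩ := pow_unbounded_of_one_lt (4 / ν ^ 12) (one_lt_two (α := ℝ))
  refine ⟨s₀, ν ^ 4, by positivity, ?_⟩
  intro l hl ι _ _ o ho Γ _ _ f h0 h1 hf r hr hδ'
  choose z Q θ hQ hz hQ' hzo hθ0 hθ hE using fun γ a c => exists_char o ho a (f γ c)
  set N : Γ → ℝ := fun γ => 𝔼 M, ∑ c, noiseOp (LinearMap.id : Vec l →ₗ[ZMod 2] Vec l)
    (noiseOp (LinearMap.id : Vec l →ₗ[ZMod 2] Vec l) (f γ c)) M ^ 2 with hN
  have e1 : (δ / 2) ^ 2 ≤ α + 1 / α ^ 3 * 𝔼 γ, N γ := by
    calc (δ / 2) ^ 2 ≤ (𝔼 γ, (𝔼 M, 𝔼 w, (f γ (r γ M w) M + f γ (r γ M w + w) M)) / 2) ^ 2 := by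
          rw [← expect_div]
          gcongr
      _ ≤ 𝔼 γ, ((𝔼 M, 𝔼 w, (f γ (r γ M w) M + f γ (r γ M w + w) M)) / 2) ^ 2 := sq_expect_le _
      _ ≤ 𝔼 γ, (α + 1 / α ^ 3 * N γ) := expect_le_expect fun γ _ =>
          (quad_lower o (f γ) (hf γ) (r γ) (hr γ)).trans (quad_upper (f γ) (h0 γ) (h1 γ) α0)
      _ = _ := by rw [expect_add_distrib, Fintype.expect_const, ← mul_expect]
  have e2 : 6 * ν ≤ 𝔼 γ, N γ := by
    have h2 : α ≤ 1 / α ^ 3 * 𝔼 γ, N γ := by rw [hα] at e1 ⊢; nlinarith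
    rw [one_div, inv_mul_eq_div, le_div_iff₀ (by positivity)] at h2
    rw [hν]; nlinarith
  have hK : (Fintype.card (Vec l) : ℝ) = 2 ^ l := by simp
  have e3 : ν ^ 3 * ((𝔼 γ, N γ) - 3 * ν) ≤ 2 * (ν ^ 4 / 2) + 1 / ((ν ^ 4 / 2) ^ 2 * 2 ^ l) +
      2 * ∑ c, 𝔼 a, 𝔼 γ, 𝔼 M, θ γ a c M := by
    have h2 := expect_le_expect (s := univ) fun γ _ => inverse
      (LinearMap.id : Vec l →ₗ[ZMod 2] Vec l) o (f γ) (h0 γ) (h1 γ) (hf γ) (θ γ) (hθ0 γ) (hθ γ)
      ν0 (η := ν ^ 4 / 2) (by positivity)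
    rw [hK, expect_add_distrib, Fintype.expect_const, ← mul_expect, ← mul_expect,
      expect_sub_distrib, Fintype.expect_const, expect_sum_comm] at h2
    refine h2.trans (le_of_eq ?_)
    congr 2
    exact sum_congr rfl fun c _ => expect_comm _ _ _
  have e4 : 1 / ((ν ^ 4 / 2) ^ 2 * 2 ^ l) ≤ ν ^ 4 := by
    have h2 : (2 : ℝ) ^ s₀ ≤ 2 ^ l := pow_le_pow_right₀ one_le_two hl
    have h3 : 4 / ν ^ 12 ≤ 2 ^ l := hs₀.le.trans h2
    rw [div_le_iff₀ (by positivity)] at h3 ⊢
    nlinarith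
  have e5 : ν ^ 4 / 2 / 2 ^ l ≤ 𝔼 p : Vec l × Vec l, 𝔼 γ, 𝔼 M, θ γ p.2 p.1 M := by
    rw [expect_prod, Fintype.expect_eq_sum_div_card, hK]
    refine div_le_div_of_nonneg_right ?_ (by positivity)
    have h2 : ν ^ 3 * (3 * ν) ≤ ν ^ 3 * ((𝔼 γ, N γ) - 3 * ν) :=
      mul_le_mul_of_nonneg_left (by linarith) (by positivity)
    nlinarith
  obtain ⟨⟨y, a⟩, -, hp⟩ := exists_le_of_le_expect univ_nonempty e5
  refine ⟨a, y, fun γ => z γ a y, fun γ => Q γ a y, fun γ => hQ γ a y, fun γ => hz γ a y,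
    fun γ => hQ' γ a y, ?_⟩
  have e6 : ∀ γ, 𝔼 M, Q γ a y M * (f γ y M - f γ (y + a) M) = 2 * 𝔼 M, θ γ a y M := by
    intro γ
    have h2 : 𝔼 M, Q γ a y M * f γ (y + a) M = -𝔼 M, Q γ a y M * f γ y M := by
      rw [← expect_shiftG _ (tens a o), ← expect_neg_distrib]
      refine expect_congr rfl fun M _ => ?_
      rw [hf, hQ', chi, hzo, sg_one]; ring
    simp only [mul_sub, expect_sub_distrib]
    rw [h2, hE]; ring
  simp only [e6, ← mul_expect]
  simp only at hp
  have : ν ^ 4 / 2 ^ l = 2 * (ν ^ 4 / 2 / 2 ^ l) := by ring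
  linarith

end Abstract

section Concrete

variable {S : Type} [Fintype S] [DecidableEq S] {X : Sys S} {k l d : ℕ}

/-- States as pairs of the old tables and the new table. -/
def stE (X : Sys S) (k l d : ℕ) :
    (Fin (k + 1) → X.T) × (Col X k d → Vec l) ≃ State X k l d where
  toFun p := (fun j => (p.1 j, fun i => p.2 (some (j, i))), p.2 none)
  invFun s := (fun j => (s.1 j).1, fun c => c.elim s.2 fun q => (s.1 q.1).2 q.2)
  left_inv p := Prod.ext rfl (funext fun c => by cases c <;> rfl)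
  right_inv _ := rfl

omit [Fintype S] [DecidableEq S] in
theorem stE_add (ρ : Fin (k + 1) → X.T) (M : Col X k d → Vec l) (a : Vec l)
    (t : Col X k d → ZMod 2) : stE X k l d (ρ, M + tens a t) = sh a t (stE X k l d (ρ, M)) := rfl

omit [Fintype S] [DecidableEq S] in
theorem stE_symm_sh (a : Vec l) (t : Col X k d → ZMod 2) (s : State X k l d) :
    (stE X k l d).symm (sh a t s) =
      (((stE X k l d).symm s).1, ((stE X k l d).symm s).2 + tens a t) := by
  rw [Equiv.symm_apply_eq, stE_add, Prod.mk.eta, Equiv.apply_symm_apply]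

theorem expect_stE (F : State X k l d → ℝ) : 𝔼 s, F s = 𝔼 ρ, 𝔼 M, F (stE X k l d (ρ, M)) := by
  rw [← expect_prod fun p => F (stE X k l d p)]
  exact (Fintype.expect_equiv (stE X k l d) _ _ fun _ => rfl).symm

theorem modw_add {A : Type} (w : Vec l) (f : A → Vec l) (c : A → ZMod 2) :
    modw w (fun α => f α + c α • w) = modw w f := by
  refine Setoid.ext fun α β => ?_
  change (f α + c α • w = f β + c β • w ∨ f α + c α • w = f β + c β • w + w) ↔
    (f α = f β ∨ f α = f β + w)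
  have h1 : ∀ x y : Vec l, x + w = y ↔ x = y + w := fun x y =>
    ⟨fun h => by rw [← h, add_assoc, add_self_two, add_zero],
      fun h => by rw [h, add_assoc, add_self_two, add_zero]⟩
  have h2 : ∀ x : Vec l, x + w + w = x := fun x => by rw [add_assoc, add_self_two, add_zero]
  rcases f2_cases (c α) with e | e <;> rcases f2_cases (c β) with e' | e' <;>
    simp only [e, e', zero_smul, one_smul, add_zero, h1, h2] <;> tauto

omit [Fintype S] [DecidableEq S] in
theorem relTop_sh (w : Vec l) (t : Col X k d → ZMod 2) (s : State X k l d) :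
    relTop (sh w t s) w = relTop s w := by
  unfold relTop
  rw [show top (sh w t s) = fun α => top s α + (t none + ∑ j, ev (part j t) (sub j α)) • w from
    funext fun α => top_sh w t s α, modw_add]
  rfl

/-- The constant row. -/
def one (X : Sys S) (k d : ℕ) : Col X k d → ZMod 2 := fun c => c.elim 1 fun _ => 0

omit [Fintype S] [DecidableEq S] in
theorem sh_one_fst (w : Vec l) (s : State X k l d) : (sh w (one X k d) s).1 = s.1 := by
  funext j
  refine Prod.ext rfl ?_
  funext i; simp [sh, tens, one]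

omit [Fintype S] [DecidableEq S] in
theorem top_sh_one (w : Vec l) (s : State X k l d) (α : Asg X k) :
    top (sh w (one X k d) s) α = top s α + w := by
  simp only [top, sh_one_fst]
  simp only [sh, one, Option.elim, one_smul]
  abel

omit [Fintype S] [DecidableEq S] in
theorem relIn_sh_one (w : Vec l) (j : Fin (k + 1)) (r : Setoid (X.L → S)) (s : State X k l d) :
    relIn j r (sh w (one X k d) s) = relIn j r s := by
  unfold relIn
  rw [sh_one_fst]
  congr 1
  refine Setoid.ext fun α β => ?_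
  simp only [Setoid.ker_def, top_sh_one, add_left_inj]

theorem sum_ind_eq {A : Type} [Fintype A] (x : A) : ∑ y, ind (x = y) = 1 := by
  rw [sum_eq_single x, ind_of rfl]
  · intro b _ hb; exact ind_of_not (Ne.symm hb)
  · simp

theorem le_div_max {n D : ℝ} (h : n ≤ D) : n ≤ n / max D 1 + |D - 1| := by
  rcases le_total D 1 with c | c
  · rw [max_eq_right c, div_one]; linarith [abs_nonneg (D - 1)]
  · rw [max_eq_left c, abs_of_nonneg (by linarith)]
    have h1 : n = n / D + n / D * (D - 1) := by field_simp; ring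
    have h2 : n / D ≤ 1 := (div_le_one (by linarith)).2 h
    nlinarith

theorem div_max_le {n D : ℝ} (h : 0 ≤ n) : n / max D 1 ≤ n :=
  div_le_self h (le_max_right _ _)

end Concrete

end CharAux

open CharAux in
theorem char_thm : CharThm := by
  intro δ hδ
  obtain ⟨s₀, κ, hκ, H⟩ := char_abs hδ
  refine ⟨s₀, κ, hκ, ?_⟩
  intro l hl S _ _ X l' Y k d m Γ _ _ A B e he hc hacc
  set num : Γ → Vec l → State X k l d → ℝ := fun γ y =>
    Av (gp Y (m := m)) fun j ω s => ind (top s (B γ (relP Y j ω s)) = y) with hnum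
  set den : State X k l d → ℝ := Av (gp Y (m := m)) fun _ _ _ => 1 with hden
  have n0 : ∀ γ y s, 0 ≤ num γ y s := fun γ y s => Av_nonneg _ s fun _ _ => ind_nonneg _
  have n1 : ∀ γ y s, num γ y s ≤ den s := fun γ y s => Av_mono _ s fun _ _ => ind_le_one _
  have ns : ∀ γ s, ∑ y, num γ y s = den s := by
    intro γ s
    simp only [hnum, hden]
    rw [← Av_sum]
    simp only [sum_ind_eq]
  have m0 : ∀ s, 0 < max (den s) 1 := fun s => lt_of_lt_of_le one_pos (le_max_right _ _)
  have hd : 𝔼 s, |den s - 1| ≤ e := den_abs_le _ he (by simpa using hc)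
  have nf : ∀ γ y w s, num γ (y + w) (sh w (one X k d) s) = num γ y s := by
    intro γ y w s
    simp only [hnum, Av, relP, relIn_sh_one, top_sh_one, sh_one_fst, add_left_inj]
  have df : ∀ w s, den (sh w (one X k d) s) = den s := by
    intro w s
    simp only [hden, Av, sh_one_fst]
  set r : Γ → State X k l d → Vec l → Vec l := fun γ s w => top s (B γ (relTop s w)) with hr
  set φ : Γ → Vec l → State X k l d → ℝ := fun γ y s => num γ y s / max (den s) 1 with hφ
  have hacc2 : δ ≤ 𝔼 γ, 𝔼 s, 𝔼 w, (φ γ (r γ s w) s + φ γ (r γ s w + w) s) := by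
    set n : Γ → Vec l → State X k l d → ℝ := fun γ w => Av (gp Y (m := m)) fun j ω s =>
      ind (top s (B γ (relP Y j ω s)) = r γ s w ∨ top s (B γ (relP Y j ω s)) = r γ s w + w)
      with hn
    have h1 : δ + e ≤ 𝔼 γ, 𝔼 s, 𝔼 w, n γ w s := by
      refine hacc.trans (expect_le_expect fun γ _ => ?_)
      rw [expect_comm (s := univ) (t := univ) (f := fun s w => n γ w s)]
      simp only [hn, expect_Av]
      rw [expect_comm (s := (univ : Finset (Vec l)))]
      refine expect_le_expect fun j _ => ?_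
      rw [expect_comm (s := (univ : Finset (Vec l)))]
      refine expect_le_expect fun ω _ => ?_
      rw [expect_comm (s := (univ : Finset (Vec l)))]
      refine expect_le_expect fun s _ => expect_le_expect fun w _ => ind_mono fun h => ?_
      have h2 := h.1.2
      have h3 : top _ _ = top _ _ := h.2.2
      rw [← h3]
      exact h2
    have h2 : ∀ γ s w, n γ w s ≤ φ γ (r γ s w) s + φ γ (r γ s w + w) s + |den s - 1| := by
      intro γ s w
      have h3 : n γ w s ≤ den s := Av_mono _ s fun _ _ => ind_le_one _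
      have h4 : n γ w s - num γ (r γ s w) s ≤ num γ (r γ s w + w) s := by
        have h5 := Av_sub (gp Y (m := m)) (fun j ω s' => ind (top s' (B γ (relP Y j ω s')) =
          r γ s' w ∨ top s' (B γ (relP Y j ω s')) = r γ s' w + w))
          (fun j ω s' => ind (top s' (B γ (relP Y j ω s')) = r γ s w)) s
        simp only [hn, hnum]
        rw [← h5]
        refine Av_mono _ s fun j ω => ?_
        linarith [ind_or_le (top s (B γ (relP Y j ω s)) = r γ s w)
          (top s (B γ (relP Y j ω s)) = r γ s w + w)]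
      refine (le_div_max h3).trans ?_
      simp only [hφ]
      rw [← add_div]
      gcongr
      linarith
    have h3 : 𝔼 γ, 𝔼 s, 𝔼 w, n γ w s ≤
        𝔼 γ, 𝔼 s, 𝔼 w, (φ γ (r γ s w) s + φ γ (r γ s w + w) s + |den s - 1|) :=
      expect_le_expect fun γ _ => expect_le_expect fun s _ => expect_le_expect fun w _ => h2 γ s w
    have h4 : 𝔼 γ, 𝔼 s, 𝔼 w, (φ γ (r γ s w) s + φ γ (r γ s w + w) s + |den s - 1|) =
        (𝔼 γ, 𝔼 s, 𝔼 w, (φ γ (r γ s w) s + φ γ (r γ s w + w) s)) + 𝔼 s, |den s - 1| := by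
      simp only [expect_add_distrib, Fintype.expect_const]
    linarith
  obtain ⟨a, y, z, Q, hQ, hz, hQ', hE⟩ := H l hl (Col X k d) (one X k d)
    ⟨one X k d, by simp [dotProduct, one]⟩ (Γ × (Fin (k + 1) → X.T))
    (fun p c M => φ p.1 c (stE X k l d (p.2, M)))
    (fun p c M => div_nonneg (n0 _ _ _) (m0 _).le)
    (fun p M => by
      simp only [hφ]
      rw [← sum_div, ns, div_le_one (m0 _)]
      exact le_max_left _ _)
    (fun p c w M => by simp only [hφ, stE_add, nf, df])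
    (fun p M w => r p.1 (stE X k l d (p.2, M)) w)
    (fun p M w t => by
      simp only [hr, stE_add, relTop_sh, top_sh]
      rcases f2_cases (t none + ∑ j, ev (part j t)
        (sub j (B p.1 (relTop (stE X k l d (p.2, M)) w)))) with h | h <;> rw [h] <;> simp)
    (by
      rw [expect_prod]
      refine hacc2.trans (le_of_eq (expect_congr rfl fun γ _ => ?_))
      exact expect_stE _)
  refine ⟨a, y, fun γ s => z (γ, ((stE X k l d).symm s).1) ((stE X k l d).symm s).2,
    fun γ s => Q (γ, ((stE X k l d).symm s).1) ((stE X k l d).symm s).2, fun γ =>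
    ⟨fun s => hQ _ _, fun t s => by simp only [stE_symm_sh, hz],
      fun t s => by simp only [stE_symm_sh, hQ']⟩, ?_⟩
  rw [expect_prod] at hE
  have h1 : ∀ γ s (q : ℝ), |q| ≤ 1 → q * (φ γ y s - φ γ (y + a) s) ≤
      q * numt Y m (B γ) a y s + 2 * |den s - 1| := by
    intro γ s q hq
    have h2 : numt Y m (B γ) a y s = num γ y s - num γ (y + a) s := Av_sub _ _ _ s
    have h3 := le_div_max (n1 γ y s)
    have h4 := le_div_max (n1 γ (y + a) s)
    have h5 := div_max_le (D := den s) (n0 γ y s)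
    have h6 := div_max_le (D := den s) (n0 γ (y + a) s)
    rw [h2]
    simp only [hφ]
    obtain ⟨q1, q2⟩ := abs_le.1 hq
    nlinarith [abs_nonneg (den s - 1)]
  have h2 : κ / 2 ^ l ≤ 𝔼 γ, 𝔼 s, (Q (γ, ((stE X k l d).symm s).1) ((stE X k l d).symm s).2 *
      numt Y m (B γ) a y s + 2 * |den s - 1|) := by
    refine hE.trans (expect_le_expect fun γ _ => ?_)
    rw [expect_stE]
    refine expect_le_expect fun ρ _ => expect_le_expect fun M _ => ?_
    rw [Equiv.symm_apply_apply]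
    exact h1 γ _ _ (hQ _ _)
  simp only [expect_add_distrib, Fintype.expect_const, ← mul_expect] at h2
  linarith

end Vale.Agent.P339
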