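import Vale.Agent.P339.Tree1

/-!
From the acceptance of two tests to a character.
-/

namespace Vale.Agent.P339.CharB

open Finset Vale.Agent.Lib.PCP Vale.Agent.P325
open scoped BigOperators

theorem pow_four_le {x α : ℝ} (hα : 0 < α) (h0 : 0 ≤ x) : x ≤ α + 1 / α ^ 3 * x ^ 4 := by
  rcases le_total x α with h | h
  · have : 0 ≤ 1 / α ^ 3 * x ^ 4 := by positivity
    linarith
  · have h1 : α ^ 3 ≤ x ^ 3 := pow_le_pow_left₀ hα.le h 3
    have h2 : x ≤ 1 / α ^ 3 * x ^ 4 := by
      rw [one_div_mul_eq_div, le_div_iff₀ (by positivity)]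
      nlinarith
    linarith

theorem two_le {ι : Type} [Fintype ι] [DecidableEq ι] {l : ℕ} (f : Vec l → (ι → Vec l) → ℝ)
    (r : Vec l → (ι → Vec l) → Vec l)
    (hr : ∀ w M t, r w (M + tens w t) = r w M ∨ r w (M + tens w t) = r w M + w) :
    (𝔼 M, 𝔼 w, (f (r w M) M + f (r w M + w) M)) ^ 2 ≤
      4 * ∑ y, 𝔼 M, f y M * noiseOp (LinearMap.id (R := ZMod 2) (M := Vec l)) (f y) M := by
  set p : Vec l → Vec l → (ι → Vec l) → ℝ := fun w y M => 𝔼 t, f y (M + tens w t) with hp
  have pinv : ∀ w y M t, p w y (M + tens w t) = p w y M := fun w y M t => by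
    simp only [hp, add_assoc, ← tens_add]
    exact expect_add_left (fun b => f y (M + tens w b)) t
  have h1 : ∀ w, 𝔼 M, (f (r w M) M + f (r w M + w) M) = 𝔼 M, (p w (r w M) M + p w (r w M + w) M) := by
    intro w
    simp only [hp, ← expect_add_distrib]
    rw [expect_comm]
    refine ((expect_congr rfl fun t _ => ?_).trans (Fintype.expect_const _)).symm
    rw [← expect_shiftG (fun M => f (r w M) M + f (r w M + w) M) (tens w t)]
    refine expect_congr rfl fun M _ => ?_
    rcases hr w M t with e | e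
    · rw [e]
    · rw [e, add_assoc, add_self_two, add_zero, add_comm]
  have h2 : ∀ w y, 𝔼 M, p w y M ^ 2 = 𝔼 M, f y M * p w y M := fun w y => by
    have e : ∀ t, 𝔼 M, f y (M + tens w t) * p w y M = 𝔼 M, f y M * p w y M := fun t => by
      rw [← expect_shiftG (fun M => f y M * p w y M) (tens w t)]
      simp only [pinv]
    rw [← Fintype.expect_const (ι := ι → ZMod 2) (𝔼 M, f y M * p w y M)]
    conv_rhs => enter [2, t]; rw [← e t]
    rw [expect_comm]
    exact expect_congr rfl fun M _ => by rw [← expect_mul, sq]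
  have h3 : ∀ w M y, p w y M ^ 2 ≤ ∑ y, p w y M ^ 2 := fun w M y =>
    single_le_sum (f := fun y => p w y M ^ 2) (fun _ _ => sq_nonneg _) (mem_univ y)
  rw [expect_comm]
  simp only [h1]
  refine (sq_expect_le _).trans ((expect_le_expect fun w _ => (sq_expect_le _).trans
    (expect_le_expect (g := fun M => 4 * ∑ y, p w y M ^ 2) fun M _ => ?_)).trans (le_of_eq ?_))
  · nlinarith [h3 w M (r w M), h3 w M (r w M + w), sq_nonneg (p w (r w M) M - p w (r w M + w) M)]
  · simp only [← mul_expect, expect_sum_comm, h2]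
    congr 1
    refine sum_congr rfl fun y _ => ?_
    rw [expect_comm]
    exact expect_congr rfl fun M _ => by rw [← mul_expect]; rfl

theorem inv_char {δ : ℝ} (hδ : 0 < δ) : ∃ (s₀ : ℕ) (κ : ℝ), 0 < κ ∧ ∀ l, s₀ ≤ l →
    ∀ (Γ ι : Type) [Fintype Γ] [Nonempty Γ] [Fintype ι] [DecidableEq ι] (o : ι → ZMod 2)
      (f : Γ → Vec l → (ι → Vec l) → ℝ), (∀ γ c M, 0 ≤ f γ c M) → (∀ γ M, ∑ c, f γ c M ≤ 1) →
      (∀ γ c w M, f γ (c + w) (M + tens w o) = f γ c M) →
      ∀ r : Γ → Vec l → (ι → Vec l) → Vec l,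
      (∀ γ w M t, r γ w (M + tens w t) = r γ w M ∨ r γ w (M + tens w t) = r γ w M + w) →
      δ ≤ (𝔼 γ, 𝔼 M, 𝔼 w, (f γ (r γ w M) M + f γ (r γ w M + w) M)) →
      ∀ θ : Γ → Vec l → Vec l → (ι → Vec l) → ℝ, (∀ γ a c M, 0 ≤ θ γ a c M) →
      (∀ γ a c M z, z ⬝ᵥ o = 1 → |hat (fun t => f γ c (M + tens a t)) z| ≤ θ γ a c M) →
      ∃ a c, κ / 2 ^ l ≤ 𝔼 γ, 𝔼 M, θ γ a c M := by
  obtain ⟨α, hα⟩ : ∃ α : ℝ, α = δ ^ 2 / 8 := ⟨_, rfl⟩
  have hα0 : 0 < α := by rw [hα]; positivity
  obtain ⟨ν, hν⟩ : ∃ ν : ℝ, ν = α ^ 4 / 6 := ⟨_, rfl⟩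
  have hν0 : 0 < ν := by rw [hν]; positivity
  obtain ⟨η, hη⟩ : ∃ η : ℝ, η = ν ^ 3 * α ^ 4 / 16 := ⟨_, rfl⟩
  have hη0 : 0 < η := by rw [hη]; positivity
  obtain ⟨s₀, hs₀⟩ := pow_unbounded_of_one_lt (1 / (η ^ 2 * η)) (one_lt_two (α := ℝ))
  refine ⟨s₀, 2 * η, by positivity, fun l hl Γ ι _ _ _ _ o f h0 h1 hf r hr hd θ θ0 hθ => ?_⟩
  have hK : (Fintype.card (Vec l) : ℝ) = 2 ^ l := by simp [Vec]
  let q : Γ → ℝ := fun γ => 𝔼 M, ∑ c, noiseOp (LinearMap.id (R := ZMod 2) (M := Vec l))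
    (noiseOp (LinearMap.id (R := ZMod 2) (M := Vec l)) (f γ c)) M ^ 2
  have e1 : ∀ γ, (𝔼 M, 𝔼 w, (f γ (r γ w M) M + f γ (r γ w M + w) M)) ^ 2 ≤
      4 * (α + 1 / α ^ 3 * q γ) := fun γ => by
    refine (two_le (f γ) (r γ) (hr γ)).trans (mul_le_mul_of_nonneg_left ?_ (by norm_num))
    refine (sum_le_sum fun y _ => spectral _ (LinearMap.id (R := ZMod 2) (M := Vec l))
      (α := α) (β := 1 / α ^ 3) (fun S => pow_four_le hα0
        (expect_nonneg fun _ _ => by split_ifs <;> norm_num)) (f γ y)).trans ?_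
    rw [sum_add_distrib, ← mul_sum, ← mul_sum, ← expect_sum_comm, ← expect_sum_comm]
    refine add_le_add (mul_le_of_le_one_right hα0.le (expect_le univ_nonempty fun M _ => ?_)) le_rfl
    refine le_trans (sum_le_sum fun c _ => ?_) (h1 γ M)
    have := (single_le_sum (f := fun c => f γ c M) (fun c _ => h0 γ c M) (mem_univ c)).trans
      (h1 γ M)
    nlinarith [h0 γ c M]
  have e2 : α ^ 4 ≤ 𝔼 γ, q γ := by
    have h2 := (pow_le_pow_left₀ hδ.le hd 2).trans ((sq_expect_le _).trans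
      (expect_le_expect fun γ _ => e1 γ))
    rw [← mul_expect, expect_add_distrib, Fintype.expect_const, ← mul_expect,
      one_div_mul_eq_div] at h2
    have h3 : α ≤ (𝔼 γ, q γ) / α ^ 3 := by linarith
    rw [le_div_iff₀ (by positivity)] at h3
    linarith
  have e3 : ∀ γ, ν ^ 3 * (q γ - 3 * ν) ≤ 2 * η + 1 / (η ^ 2 * Fintype.card (Vec l)) +
      2 * ∑ c, 𝔼 a, 𝔼 M, θ γ a c M := fun γ =>
    inverse LinearMap.id o (f γ) (h0 γ) (h1 γ) (hf γ) (θ γ) (θ0 γ) (hθ γ) hν0 hη0
  have e4 := expect_le_expect (s := univ) fun γ _ => e3 γ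
  rw [← mul_expect, expect_sub_distrib, Fintype.expect_const, expect_add_distrib,
    Fintype.expect_const, ← mul_expect, hK] at e4
  have e5 : 1 / (η ^ 2 * 2 ^ l) ≤ η := by
    have h2 : (2 : ℝ) ^ s₀ ≤ 2 ^ l := pow_le_pow_right₀ one_le_two hl
    have h3 := hs₀.le.trans h2
    rw [div_le_iff₀ (by positivity)] at h3 ⊢
    linarith
  have e6 : 8 * η ≤ ν ^ 3 * ((𝔼 γ, q γ) - 3 * ν) := by
    have : ν ^ 3 * (α ^ 4 / 2) ≤ ν ^ 3 * ((𝔼 γ, q γ) - 3 * ν) :=
      mul_le_mul_of_nonneg_left (by linarith) (by positivity)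
    linarith
  by_contra hc
  simp only [not_exists, not_le] at hc
  have e7 : (𝔼 γ, ∑ c, 𝔼 a, 𝔼 M, θ γ a c M) ≤ 2 * η := by
    rw [expect_sum_comm]
    refine (sum_le_sum (g := fun _ => 2 * η / 2 ^ l) fun c _ => ?_).trans (le_of_eq ?_)
    · rw [expect_comm]
      exact expect_le univ_nonempty fun a _ => (hc a c).le
    · rw [sum_const, card_univ, nsmul_eq_mul, hK]
      field_simp
  linarith

section

variable {S : Type} [Fintype S] [DecidableEq S] {X : Sys S} {k l d : ℕ}

/-- The constant column. -/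
def one (X : Sys S) (k d : ℕ) : Col X k d → ZMod 2 := Pi.single none 1

omit [Fintype S] in
theorem top_one (w : Vec l) (s : State X k l d) (α : Asg X k) :
    top (sh w (one X k d) s) α = top s α + w := by
  have h : ∀ j, part j (one X k d) = 0 := fun j => by funext i; simp [part, one]
  rw [top_sh]
  simp only [h, ev_zero, sum_const_zero, add_zero]
  simp [one]

omit [Fintype S] in
theorem sh_one_fst (w : Vec l) (s : State X k l d) : (sh w (one X k d) s).1 = s.1 := by
  funext j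
  refine Prod.ext rfl ?_
  funext i
  simp [sh, one, tens]

omit [Fintype S] in
theorem relIn_one (w : Vec l) (s : State X k l d) (j : Fin (k + 1)) (r : Setoid (X.L → S)) :
    relIn j r (sh w (one X k d) s) = relIn j r s := by
  ext α β
  change ((∀ j'', _) ∧ top _ α = top _ β) ↔ ((∀ j'', _) ∧ top _ α = top _ β)
  rw [top_one, top_one, add_left_inj]
  rfl

/-- A maximiser among the characters which are odd. -/
noncomputable def best (F : (Col X k d → ZMod 2) → ℝ) : Col X k d → ZMod 2 :=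
  Classical.epsilon fun z => z ⬝ᵥ one X k d = 1 ∧ ∀ z', z' ⬝ᵥ one X k d = 1 → F z' ≤ F z

theorem best_spec (F : (Col X k d → ZMod 2) → ℝ) :
    best F ⬝ᵥ one X k d = 1 ∧ ∀ z', z' ⬝ᵥ one X k d = 1 → F z' ≤ F (best F) := by
  refine Classical.epsilon_spec (p := fun z => z ⬝ᵥ one X k d = 1 ∧
    ∀ z', z' ⬝ᵥ one X k d = 1 → F z' ≤ F z) ?_
  obtain ⟨z, hz, h⟩ := exists_max_image (univ.filter fun z => z ⬝ᵥ one X k d = 1) F
    ⟨one X k d, by simp [one]⟩
  exact ⟨z, (mem_filter.1 hz).2, fun z' hz' => h z' (mem_filter.2 ⟨mem_univ _, hz'⟩)⟩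

theorem hat_sh (F : State X k l d → ℝ) (a : Vec l) (t : Col X k d → ZMod 2) (s : State X k l d)
    (z : Col X k d → ZMod 2) :
    hat (fun t' => F (sh a t' (sh a t s))) z = hat (fun t' => F (sh a t' s)) z * chi z t := by
  simp only [sh_sh]
  exact hat_translate (fun t' => F (sh a t' s)) t z

end

theorem sign_mul_chi {ι : Type} [Fintype ι] (c : ℝ) (z t : ι → ZMod 2) :
    (SignType.sign (c * chi z t) : ℝ) = SignType.sign c * chi z t := by
  rw [chi]
  rcases f2_cases (z ⬝ᵥ t) with e | e <;> simp [e, Left.sign_neg]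

theorem trunc_le {n D : ℝ} (h0 : |n| ≤ D) : |n - n / max D 1| ≤ |D - 1| := by
  rcases le_total D 1 with h | h
  · rw [max_eq_right h, div_one, sub_self, abs_zero]; exact abs_nonneg _
  · have hD : 0 < D := by linarith
    rw [max_eq_left h, show n - n / D = n / D * (D - 1) by field_simp, abs_mul]
    refine mul_le_of_le_one_left (abs_nonneg _) ?_
    rw [abs_div, abs_of_pos hD, div_le_one hD]
    exact h0

theorem char_thm : CharThm := by
  intro δ hδ
  obtain ⟨s₀, κ, hκ, H⟩ := inv_char hδ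
  refine ⟨s₀, κ, hκ, fun l hl S _ _ X l' Y k d m Γ _ _ A B e he hk hacc => ?_⟩
  let num : Γ → Vec l → State X k l d → ℝ := fun γ y =>
    Av (gp Y (m := m)) fun j ω s => ind (top s (B γ (relP Y j ω s)) = y)
  let den : State X k l d → ℝ := Av (gp Y (m := m)) fun _ _ _ => 1
  have hden : 𝔼 s, |den s - 1| ≤ e := den_abs_le _ he (by simpa using hk)
  have n0 : ∀ γ y s, 0 ≤ num γ y s := fun γ y s => Av_nonneg _ _ fun _ _ => ind_nonneg _
  have n1 : ∀ γ s, ∑ y, num γ y s = den s := fun γ s => by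
    rw [← Av_sum]
    congr 1
    funext j ω s
    simp only [ind_eq_ite, sum_ite_eq, mem_univ, if_true]
  have n2 : ∀ γ y s, |num γ y s| ≤ den s := fun γ y s => abs_Av_le _ _ fun _ _ => abs_ind_le _
  have n3 : ∀ γ y w s, num γ (y + w) (sh w (one X k d) s) = num γ y s := fun γ y w s => by
    simp only [num, Av, sh_one_fst, relP, relIn_one, top_one, add_left_inj]
  have n4 : ∀ w s, den (sh w (one X k d) s) = den s := fun w s => by
    simp only [den, Av, sh_one_fst]
  let φ : Γ → Vec l → State X k l d → ℝ := fun γ y s => num γ y s / max (den s) 1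
  have hm : ∀ s, 0 < max (den s) 1 := fun s => lt_max_of_lt_right one_pos
  have φ0 : ∀ γ y s, 0 ≤ φ γ y s := fun γ y s => div_nonneg (n0 _ _ _) (hm s).le
  have φ3 : ∀ γ y w s, φ γ (y + w) (sh w (one X k d) s) = φ γ y s := fun γ y w s => by
    simp only [φ, n3, n4]
  let r : Γ → Vec l → State X k l d → Vec l := fun γ w s => top s (B γ (relTop s w))
  have hpk : ∀ Φ : Γ → State X k l d → ℝ, 𝔼 γ, 𝔼 s, Φ γ s =
      𝔼 q : Γ × (Fin (k + 1) → X.T), 𝔼 M, Φ q.1 (packE X k l d (q.2, M)) := fun Φ => by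
    rw [expect_prod]
    refine expect_congr rfl fun γ _ => ?_
    rw [← expect_prod fun q => Φ γ (packE X k l d q)]
    exact (Fintype.expect_equiv (packE X k l d) _ _ fun _ => rfl).symm
  let c : Γ → Vec l → Vec l → State X k l d → (Col X k d → ZMod 2) → ℝ := fun γ a y s z =>
    hat (fun t => φ γ y (sh a t s)) z
  let z : Γ → Vec l → Vec l → State X k l d → Col X k d → ZMod 2 := fun γ a y s =>
    best fun z => |c γ a y s z|
  have hacc' : δ ≤ 𝔼 γ, 𝔼 s, 𝔼 w, (φ γ (r γ w s) s + φ γ (r γ w s + w) s) := by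
    have h1 : ∀ γ, (𝔼 j, 𝔼 ω : Smp Y l d m, 𝔼 s, 𝔼 w,
        ind (relTop (plant s j (gp Y ω)) w (A γ (plant s j (gp Y ω)))
            (B γ (relTop (plant s j (gp Y ω)) w)) ∧
          relP Y j ω (plant s j (gp Y ω)) (A γ (plant s j (gp Y ω)))
            (B γ (relP Y j ω (plant s j (gp Y ω)))))) ≤
        𝔼 s, (𝔼 w, ind (relTop s w (A γ s) (B γ (relTop s w)))) * num γ (top s (A γ s)) s := by
      intro γ
      refine le_trans ?_ (expect_mul_Av (gp Y (m := m))
        (fun j ω s => ind (top s (B γ (relP Y j ω s)) = top s (A γ s))) _).ge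
      refine expect_le_expect fun j _ => expect_le_expect fun ω _ => expect_le_expect fun s _ => ?_
      rw [expect_mul]
      refine expect_le_expect fun w _ => ?_
      rw [← ind_and]
      exact ind_mono fun h => ⟨h.1, h.2.2.symm⟩
    have h2 : ∀ γ s, (𝔼 w, ind (relTop s w (A γ s) (B γ (relTop s w)))) *
        num γ (top s (A γ s)) s ≤
        (𝔼 w, (φ γ (r γ w s) s + φ γ (r γ w s + w) s)) + |den s - 1| := by
      intro γ s
      rw [expect_mul, ← Fintype.expect_const (ι := Vec l) |den s - 1|, ← expect_add_distrib]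
      refine expect_le_expect fun w _ => ?_
      have h3 := (abs_le.1 (trunc_le (n2 γ (top s (A γ s)) s))).2
      have h4 := φ0 γ (r γ w s) s
      have h5 := φ0 γ (r γ w s + w) s
      by_cases h : relTop s w (A γ s) (B γ (relTop s w))
      · rw [ind_of h, one_mul]
        rcases h.2 with h6 | h6
        · have : φ γ (r γ w s) s = num γ (top s (A γ s)) s / max (den s) 1 := by rw [h6]
          linarith
        · have : φ γ (r γ w s + w) s = num γ (top s (A γ s)) s / max (den s) 1 := by rw [h6]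
          linarith
      · rw [ind_of_not h, zero_mul]
        linarith [abs_nonneg (den s - 1)]
    have h3 := hacc.trans (expect_le_expect fun γ _ => (h1 γ).trans
      (expect_le_expect fun s _ => h2 γ s))
    have h4 : ∀ γ, 𝔼 s, ((𝔼 w, (φ γ (r γ w s) s + φ γ (r γ w s + w) s)) + |den s - 1|) ≤
        (𝔼 s, 𝔼 w, (φ γ (r γ w s) s + φ γ (r γ w s + w) s)) + e := fun γ => by
      rw [expect_add_distrib]; linarith
    have h5 := h3.trans (expect_le_expect fun γ _ => h4 γ)
    rw [expect_add_distrib, Fintype.expect_const] at h5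
    linarith
  obtain ⟨a, y, hay⟩ := H l hl (Γ × (Fin (k + 1) → X.T)) (Col X k d) (one X k d)
    (fun q y M => φ q.1 y (packE X k l d (q.2, M))) (fun _ _ _ => φ0 _ _ _)
    (fun q M => by
      simp only [φ]
      rw [← sum_div, n1, div_le_one (hm _)]
      exact le_max_left _ _)
    (fun q y w M => φ3 q.1 y w (packE X k l d (q.2, M)))
    (fun q w M => r q.1 w (packE X k l d (q.2, M)))
    (fun q w M t => by
      change r q.1 w (sh w t (packE X k l d (q.2, M))) = _ ∨
        r q.1 w (sh w t (packE X k l d (q.2, M))) = _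
      simp only [r, relTop_sh, top_sh]
      rcases f2_cases (t none + ∑ j, ev (part j t)
        (sub j (B q.1 (relTop (packE X k l d (q.2, M)) w)))) with e | e
      · left; rw [e, zero_smul, add_zero]
      · right; rw [e, one_smul])
    (hacc'.trans (hpk _).le)
    (fun q a y M => |c q.1 a y (packE X k l d (q.2, M)) (z q.1 a y (packE X k l d (q.2, M)))|)
    (fun _ _ _ _ => abs_nonneg _)
    (fun q a y M z' hz' => (best_spec fun z => |c q.1 a y (packE X k l d (q.2, M)) z|).2 z' hz')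
  rw [← hpk fun γ s => |c γ a y s (z γ a y s)|] at hay
  have hz : ∀ γ t s, z γ a y (sh a t s) = z γ a y s := fun γ t s => by
    simp only [z, c, hat_sh, abs_mul, abs_chi, mul_one]
  have hQ : ∀ γ, Equi a (z γ a y) fun s => (SignType.sign (c γ a y s (z γ a y s)) : ℝ) := fun γ =>
    ⟨fun s => by rcases lt_trichotomy (c γ a y s (z γ a y s)) 0 with h | h | h <;> simp [h],
      hz γ, fun t s => by simp only [hz, c, hat_sh, sign_mul_chi]⟩
  refine ⟨a, y, fun γ => z γ a y, _, hQ, ?_⟩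
  have h1 : ∀ γ, 𝔼 s, (SignType.sign (c γ a y s (z γ a y s)) : ℝ) * (φ γ y s - φ γ (y + a) s) =
      2 * 𝔼 s, |c γ a y s (z γ a y s)| := fun γ => by
    rw [← expect_lineAv a, mul_expect]
    refine expect_congr rfl fun s _ => ?_
    have h2 : ∀ t, φ γ (y + a) (sh a t s) = φ γ y (sh a t (sh a (one X k d) s)) := fun t => by
      rw [← φ3 γ y a, sh_sh, sh_sh, add_right_comm, f2_vec_add_self, zero_add]
    have h3 : lineAv a (fun s => (SignType.sign (c γ a y s (z γ a y s)) : ℝ) *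
        (φ γ y s - φ γ (y + a) s)) s = SignType.sign (c γ a y s (z γ a y s)) *
        (c γ a y s (z γ a y s) - c γ a y (sh a (one X k d) s) (z γ a y s)) := by
      simp only [lineAv, (hQ γ).chr, h2]
      simp only [c, hat, ← expect_sub_distrib, mul_expect]
      exact expect_congr rfl fun t _ => by ring
    have h4 : c γ a y (sh a (one X k d) s) (z γ a y s) = -c γ a y s (z γ a y s) := by
      simp only [c]
      rw [hat_sh, chi, (best_spec _).1, sg_one, mul_neg, mul_one]
    rw [h3, h4, sub_neg_eq_add, mul_add, sign_mul_self]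
    ring
  have h2 : ∀ γ s, (SignType.sign (c γ a y s (z γ a y s)) : ℝ) * (φ γ y s - φ γ (y + a) s) ≤
      SignType.sign (c γ a y s (z γ a y s)) * numt Y m (B γ) a y s + |den s - 1| := fun γ s => by
    have h3 : numt Y m (B γ) a y s = num γ y s - num γ (y + a) s := Av_sub _ _ _ _
    have h4 := trunc_le (n := numt Y m (B γ) a y s) (D := den s)
      (abs_Av_le _ _ fun j ω => abs_hv_le _ _ _ _ _ _ _)
    have h5 : φ γ y s - φ γ (y + a) s = numt Y m (B γ) a y s / max (den s) 1 := by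
      rw [h3, sub_div]
    rw [h5, ← sub_le_iff_le_add', ← mul_sub]
    refine (le_abs_self _).trans ?_
    rw [abs_mul, abs_sub_comm]
    exact (mul_le_of_le_one_left (abs_nonneg _) ((hQ γ).abs_le s)).trans h4
  have h3 : 2 * (𝔼 γ, 𝔼 s, |c γ a y s (z γ a y s)|) ≤ (𝔼 γ, 𝔼 s,
      (SignType.sign (c γ a y s (z γ a y s)) : ℝ) * numt Y m (B γ) a y s) + e := by
    rw [mul_expect, ← Fintype.expect_const (ι := Γ) e, ← expect_add_distrib]
    refine expect_le_expect fun γ _ => ?_
    rw [← h1]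
    refine (expect_le_expect fun s _ => h2 γ s).trans ?_
    rw [expect_add_distrib]
    linarith
  have h4 : 0 < κ / 2 ^ l := by positivity
  linarith

end Vale.Agent.P339.CharB
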