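import Vale.Agent.P325.Spectral
import Vale.Agent.P325.Cover

/-!
Definitions for the proof of the 2-to-1 conjecture with perfect completeness: trees of tables.
-/

namespace Vale.Agent.P339

open Finset Vale.Agent.Lib.PCP Vale.Agent.P325
open scoped BigOperators

/-! ### Indicators -/

open Classical in
/-- The indicator of a proposition. -/
noncomputable def ind (p : Prop) : ℝ := if p then 1 else 0

theorem ind_of {p : Prop} (h : p) : ind p = 1 := by simp [ind, h]
theorem ind_of_not {p : Prop} (h : ¬ p) : ind p = 0 := by simp [ind, h]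
theorem ind_eq_ite (p : Prop) [Decidable p] : ind p = if p then 1 else 0 := by
  by_cases h : p <;> simp [ind, h]
theorem ind_nonneg (p : Prop) : 0 ≤ ind p := by by_cases h : p <;> simp [ind, h]
theorem ind_le_one (p : Prop) : ind p ≤ 1 := by by_cases h : p <;> simp [ind, h]
theorem abs_ind_le (p : Prop) : |ind p| ≤ 1 := by
  rw [abs_of_nonneg (ind_nonneg p)]; exact ind_le_one p
theorem ind_and (p q : Prop) : ind (p ∧ q) = ind p * ind q := by
  by_cases h : p <;> by_cases h' : q <;> simp [ind, h, h']
theorem ind_mono {p q : Prop} (h : p → q) : ind p ≤ ind q := by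
  by_cases hp : p
  · rw [ind_of hp, ind_of (h hp)]
  · rw [ind_of_not hp]; exact ind_nonneg q
theorem ind_congr {p q : Prop} (h : p ↔ q) : ind p = ind q := by rw [propext h]
theorem ind_not (p : Prop) : ind (¬ p) = 1 - ind p := by by_cases h : p <;> simp [ind, h]
theorem ind_or_le (p q : Prop) : ind (p ∨ q) ≤ ind p + ind q := by
  by_cases h : p <;> by_cases h' : q <;> simp [ind, h, h']

/-! ### Projection games in star form -/

/-- Every `u` has neighbours `nbr u i` and projections `proj u i`. -/
structure Star (U W D S : Type) where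
  /-- the neighbours -/
  nbr : U → D → W
  /-- the projections -/
  proj : U → D → S → S

/-- The value is at most `θ`. -/
def Star.ValLE {U W D S : Type} [Fintype U] [Fintype D] (G : Star U W D S) (θ : ℝ) : Prop :=
  ∀ (f : U → S) (g : W → S), (𝔼 u, 𝔼 i, ind (G.proj u i (f u) = g (G.nbr u i))) ≤ θ

section Leaves

variable {L S : Type} [DecidableEq L]

/-- Apply `π` at the leaf `l`. -/
def upd (π : S → S) (l : L) (α : L → S) : L → S := Function.update α l (π (α l))

/-- The relation does not see the leaf `l`. -/
def Blind (r : Setoid (L → S)) (l : L) : Prop := ∀ α s, r α (Function.update α l s)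

/-- The answer of the right prover at a relation which factors through a projection at the leaf
`l` depends only on the neighbour. -/
def Loc {U W D : Type} (G : Star U W D S) (B : (L → U) → Setoid (L → S) → L → S) (l : L) : Prop :=
  ∀ (x : L → U) (u u' : U) (i i' : D) (r : Setoid (L → S)), G.nbr u i = G.nbr u' i' →
    r (upd (G.proj u i) l (B (Function.update x l u) (r.comap (upd (G.proj u i) l))))
      (upd (G.proj u' i') l (B (Function.update x l u') (r.comap (upd (G.proj u' i') l))))

end Leaves

/-! ### Sums of juntas -/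

/-- Indices of tables: a tuple of leaves and a pattern. -/
abbrev Idx (L S : Type) (d : ℕ) : Type := (Fin d → L) × (Fin d → S)

section Junta

variable {L S : Type} [Fintype L] [DecidableEq L] [Fintype S] [DecidableEq S] {d : ℕ}

/-- The function described by a table. -/
def ev {M : Type} [AddCommMonoid M] (t : Idx L S d → M) (α : L → S) : M :=
  ∑ c : Fin d → L, t (c, α ∘ c)

/-- Delete the indices which touch a leaf with coin zero. -/
def mask {m : ℕ} (Λ : L → Fin (m + 1)) (t : Idx L S d → ZMod 2) : Idx L S d → ZMod 2 :=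
  fun i => if ∃ j, Λ (i.1 j) = 0 then 0 else t i

/-- Coins and rows, one for each direction. -/
abbrev Coins (L S : Type) (l d m : ℕ) : Type :=
  Vec l → (L → Fin (m + 1)) × (Idx L S d → ZMod 2)

instance {l m : ℕ} : Fintype (Coins L S l d m) := inferInstance

/-- The planted table. -/
def plantM {l m : ℕ} (cs : Coins L S l d m) : Idx L S d → Vec l :=
  ∑ a, tens a (mask (cs a).1 (cs a).2)

/-- The action of `π` at the leaf `l` on indices. -/
def projIdx (π : S → S) (l : L) (i : Idx L S d) : Idx L S d :=
  (i.1, fun j => if i.1 j = l then π (i.2 j) else i.2 j)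

/-- The table of the composition with `upd π l`. -/
def pull (π : S → S) (l : L) (t : Idx L S d → ZMod 2) : Idx L S d → ZMod 2 :=
  fun i => t (projIdx π l i)

/-- The transpose of `pull`. -/
def push (π : S → S) (l : L) (Φ : Idx L S d → ZMod 2) : Idx L S d → ZMod 2 :=
  fun i' => ∑ i, if projIdx π l i = i' then Φ i else 0

/-- On functions which are constant on the classes of `r`, the functional is a point
evaluation. -/
def Good (r : Setoid (L → S)) (Φ : Idx L S d → ZMod 2) : Prop :=
  ∃ α₀, ∀ t : Idx L S d → ZMod 2, (∀ α β, r α β → ev t α = ev t β) → Φ ⬝ᵥ t = ev t α₀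

/-- The decoded label of every projection of the functional comes from a short list. -/
def Small (dec : L → (Idx L S d → ZMod 2) → S) (R : ℕ) (l : L) (Φ : Idx L S d → ZMod 2) : Prop :=
  ∃ A : Finset S, A.card ≤ R ∧ ∀ π : S → S, ∃ s ∈ A, π s = dec l (push π l Φ)

/-- The indicators of the labels of the leaf `l` are combinations of the monomials. -/
def Spans {I : Type} [Fintype I] (mono : I → (L → S) → ZMod 2) (l : L) : Prop :=
  ∀ s, ∃ e : I → ZMod 2, ∀ α, ∑ i, mono i α * e i = if α l = s then 1 else 0

/-- The monomials depend on at most `d'` leaves. -/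
def Juntas {I : Type} (mono : I → (L → S) → ZMod 2) (d' : ℕ) : Prop :=
  ∀ i, ∃ A : Finset L, A.card ≤ d' ∧ ∀ α β : L → S, (∀ p ∈ A, α p = β p) → mono i α = mono i β

end Junta

/-- A row of a matrix. -/
def row {I : Type} {l : ℕ} (γ : Vec l) (z : I → Vec l) : I → ZMod 2 := fun i => γ ⬝ᵥ z i

/-- The number of functionals `B x`. -/
noncomputable def Rk {I : Type}
    (B : (I → ZMod 2) →ₗ[ZMod 2] (I → ZMod 2) →ₗ[ZMod 2] ZMod 2) : ℕ :=
  Nat.card (LinearMap.range B)

/-! ### Planting -/

section Plant

variable {J B K Ω : Type} [Fintype J] [DecidableEq J] [Fintype B] [Fintype Ω]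

/-- Overwrite one cell of a state. -/
def plant (s : (J → B) × K) (j : J) (b : B) : (J → B) × K := (Function.update s.1 j b, s.2)

/-- The average of `F` over the ways in which the state could have been planted. -/
noncomputable def Av (g : Ω → B) (F : J → Ω → (J → B) × K → ℝ) (s : (J → B) × K) : ℝ :=
  𝔼 j, (Fintype.card B : ℝ) * 𝔼 ω, ind (g ω = s.1 j) * F j ω s

end Plant

/-! ### Systems of tables -/

/-- Leaves `L`, tables `T` with their partitions `rel`, samples `Ω` with a table and one coarser
partition for each level in `H`. -/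
structure Sys (S : Type) where
  /-- leaves -/
  L : Type
  /-- tables -/
  T : Type
  /-- samples -/
  Ω : Type
  /-- levels -/
  H : Type
  [fL : Fintype L]
  [dL : DecidableEq L]
  [nL : Nonempty L]
  [fT : Fintype T]
  [nT : Nonempty T]
  [fΩ : Fintype Ω]
  [nΩ : Nonempty Ω]
  [fH : Fintype H]
  /-- the partition of a table -/
  rel : T → Setoid (L → S)
  /-- the table of a sample -/
  tab : Ω → T
  /-- the partition with a hole at a level -/
  hole : H → Ω → Setoid (L → S)

attribute [instance] Sys.fL Sys.dL Sys.nL Sys.fT Sys.nT Sys.fΩ Sys.nΩ Sys.fH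

/-- The system with one leaf and no level. -/
def Sys.base (S : Type) : Sys S where
  L := Unit
  T := Unit
  Ω := Unit
  H := Empty
  rel _ := ⊤
  tab _ := ()
  hole h := h.elim

/-- The part of an assignment below a child. -/
def sub {J L S : Type} (j : J) (α : J × L → S) : L → S := fun p => α (j, p)

/-- The common refinement of relations on the children and a relation on the whole tree. -/
def glue {J L S : Type} (r : J → Setoid (L → S)) (q : Setoid (J × L → S)) :
    Setoid (J × L → S) where
  r α β := (∀ j, r j (sub j α) (sub j β)) ∧ q α β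
  iseqv := ⟨fun _ => ⟨fun j => (r j).refl _, q.refl _⟩,
    fun h => ⟨fun j => (r j).symm (h.1 j), q.symm h.2⟩,
    fun h h' => ⟨fun j => (r j).trans (h.1 j) (h'.1 j), q.trans h.2 h'.2⟩⟩

/-- Equality modulo `w`. -/
def modw {A : Type} {l : ℕ} (w : Vec l) (f : A → Vec l) : Setoid A where
  r α β := f α = f β ∨ f α = f β + w
  iseqv := ⟨fun _ => Or.inl rfl,
    fun h => h.elim (fun h => Or.inl h.symm) fun h => Or.inr (by
      rw [h, add_assoc, add_self_two, add_zero]),
    fun h h' => by
      rcases h with h | h <;> rcases h' with h' | h'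
      · exact Or.inl (h.trans h')
      · exact Or.inr (h.trans h')
      · exact Or.inr (by rw [h, h'])
      · exact Or.inl (by rw [h, h', add_assoc, add_self_two, add_zero])⟩

section Step

variable {S : Type} [Fintype S] [DecidableEq S] (X : Sys S)

/-- The data of one child: its tables and the part of the new table on it. -/
abbrev Cell (l d : ℕ) : Type := X.T × (Idx X.L S d → Vec l)

/-- Tables of the new system. -/
abbrev State (k l d : ℕ) : Type := (Fin (k + 1) → Cell X l d) × Vec l

instance {l d : ℕ} : Fintype (Cell X l d) := inferInstance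

instance {k l d : ℕ} : Fintype (State X k l d) := inferInstance

/-- Assignments of the new system. -/
abbrev Asg (k : ℕ) : Type := Fin (k + 1) × X.L → S

/-- Columns of the new table. -/
abbrev Col (k d : ℕ) : Type := Option (Fin (k + 1) × Idx X.L S d)

variable {X} {k l d : ℕ}

/-- The value of the new node. -/
def top (s : State X k l d) (α : Asg X k) : Vec l := s.2 + ∑ j, ev (s.1 j).2 (sub j α)

/-- The partition by all values. -/
def relS (s : State X k l d) : Setoid (Asg X k) :=
  glue (fun j => X.rel (s.1 j).1) (Setoid.ker (top s))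

/-- The partition in which the new value is known modulo `w`. -/
def relTop (s : State X k l d) (w : Vec l) : Setoid (Asg X k) :=
  glue (fun j => X.rel (s.1 j).1) (modw w (top s))

/-- The partition in which the relation below the child `j` is replaced by `r`. -/
def relIn (j : Fin (k + 1)) (r : Setoid (X.L → S)) (s : State X k l d) : Setoid (Asg X k) :=
  glue (Function.update (fun j => X.rel (s.1 j).1) j r) (Setoid.ker (top s))

/-- Add `a ⊗ t` to the new table. -/
def sh (a : Vec l) (t : Col X k d → ZMod 2) (s : State X k l d) : State X k l d :=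
  (fun j => ((s.1 j).1, (s.1 j).2 + tens a fun i => t (some (j, i))), s.2 + t none • a)

/-- The part of a row on a child. -/
def part (j : Fin (k + 1)) (t : Col X k d → ZMod 2) : Idx X.L S d → ZMod 2 :=
  fun i => t (some (j, i))

/-- One more level: `k + 1` children, values in `Vec l`, degree `d`, coins in `Fin (m + 1)`. -/
noncomputable def Sys.step (X : Sys S) (k l d m : ℕ) : Sys S where
  L := Fin (k + 1) × X.L
  T := State X k l d
  Ω := Fin (k + 1) × State X k l d × X.Ω × Coins X.L S l d m × Vec l
  H := Option X.H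
  rel := relS
  tab ω := plant ω.2.1 ω.1 (X.tab ω.2.2.1, plantM ω.2.2.2.1)
  hole h ω := match h with
    | none => relTop (plant ω.2.1 ω.1 (X.tab ω.2.2.1, plantM ω.2.2.2.1)) ω.2.2.2.2
    | some h => relIn ω.1 (X.hole h ω.2.2.1) (plant ω.2.1 ω.1 (X.tab ω.2.2.1, plantM ω.2.2.2.1))

end Step

section Props

variable {S : Type} [Fintype S] [DecidableEq S]

/-- A class of a partition with a hole is a union of at most two classes of the partition. -/
def Sys.TwoOne (X : Sys S) : Prop :=
  ∀ h ω, (∀ α β, X.rel (X.tab ω) α β → X.hole h ω α β) ∧ ∀ α β γ, X.hole h ω α β →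
    X.hole h ω α γ → X.rel (X.tab ω) α β ∨ X.rel (X.tab ω) α γ ∨ X.rel (X.tab ω) β γ

/-- Some table has the trivial partition. -/
def Sys.Zero (X : Sys S) : Prop := ∃ t, ∀ α β, X.rel t α β

/-- The test of the level `h` accepts. -/
def Sys.Pass (X : Sys S) (A : X.T → X.L → S) (B : Setoid (X.L → S) → X.L → S) (h : X.H)
    (ω : X.Ω) : Prop := X.hole h ω (A (X.tab ω)) (B (X.hole h ω))

/-- Two tests of different levels rarely accept together; the strategies may depend on
independent coins at the leaves, and locality is known only where the coin is `c₀`. -/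
def Sys.PairLE (X : Sys S) (h h' : X.H) (N : ℕ) (θ δ : ℝ) : Prop :=
  ∀ (U W D : Type) [Fintype U] [Nonempty U] [Fintype D] [Nonempty D] (G : Star U W D S),
    G.ValLE θ → ∀ (C : Type) [Fintype C] (c₀ : C), Fintype.card C ≤ N →
      ∀ (A : (X.L → C) → (X.L → U) → X.T → X.L → S)
        (B : (X.L → C) → (X.L → U) → Setoid (X.L → S) → X.L → S),
        (∀ κ p, κ p = c₀ → Loc G (B κ) p) →
          (𝔼 κ, 𝔼 x, 𝔼 ω, ind (X.Pass (A κ x) (B κ x) h ω ∧ X.Pass (A κ x) (B κ x) h' ω)) ≤ δ

/-- A description of the samples around the node of one level: the table `z` of the node is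
uniform and independent of the rest `ρ`. -/
structure Inn (X : Sys S) (l' : ℕ) where
  /-- the rest -/
  R : Type
  /-- the columns of the table of the node -/
  I : Type
  [fR : Fintype R]
  [nR : Nonempty R]
  [fI : Fintype I]
  [dI : DecidableEq I]
  /-- the tables -/
  build : R → (I → Vec l') → X.T
  /-- the partition with a hole -/
  hol : R → (I → Vec l') → Vec l' → Setoid (X.L → S)
  /-- the functions which belong to the columns -/
  mono : R → I → (X.L → S) → ZMod 2

attribute [instance] Inn.fR Inn.nR Inn.fI Inn.dI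

/-- The exact properties of the description. -/
structure Inn.Alg {X : Sys S} {l' : ℕ} (Y : Inn X l') (d' : ℕ) : Prop where
  inv : ∀ ρ z w x, Y.hol ρ (z + tens w x) w = Y.hol ρ z w
  meas : ∀ ρ z α β, X.rel (Y.build ρ z) α β →
    ∑ i, Y.mono ρ i α • z i = ∑ i, Y.mono ρ i β • z i
  junta : ∀ ρ, Juntas (Y.mono ρ) d'

/-- The description is close to the law of the samples. -/
def Inn.Close {X : Sys S} {l' : ℕ} (Y : Inn X l') (h : X.H) (e : ℝ) : Prop :=
  ∀ F : X.T → Setoid (X.L → S) → ℝ, (∀ t r, |F t r| ≤ 1) →
    (𝔼 ω, F (X.tab ω) (X.hole h ω)) ≤ (𝔼 ρ, 𝔼 z, 𝔼 w, F (Y.build ρ z) (Y.hol ρ z w)) + e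

/-- With high probability some leaf below the node has the coin `c₀` and is not seen. -/
def Inn.Leaf {X : Sys S} {l' : ℕ} (Y : Inn X l') (N : ℕ) (e : ℝ) : Prop :=
  ∀ (C : Type) [Fintype C] (c₀ : C), Fintype.card C ≤ N →
    (𝔼 κ : X.L → C, 𝔼 ρ, 𝔼 z, ind (¬ ∃ p, κ p = c₀ ∧ Blind (X.rel (Y.build ρ z)) p ∧
      Spans (Y.mono ρ) p)) ≤ e

/-- The level `h` has a good description. -/
def Sys.Inner (X : Sys S) (h : X.H) (l' d' N : ℕ) (e : ℝ) : Prop :=
  ∃ Y : Inn X l', Y.Alg d' ∧ Y.Close h e ∧ Y.Leaf N e

/-- The soundness of the test: the average over the levels. -/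
def Sys.Sound (X : Sys S) (θ δ : ℝ) : Prop :=
  ∀ (U W D : Type) [Fintype U] [Nonempty U] [Fintype D] [Nonempty D] (G : Star U W D S),
    G.ValLE θ → ∀ (A : (X.L → U) → X.T → X.L → S) (B : (X.L → U) → Setoid (X.L → S) → X.L → S),
      (∀ p, Loc G B p) → (𝔼 x, 𝔼 ω, 𝔼 h, ind (X.Pass (A x) (B x) h ω)) ≤ δ

end Props

/-- The main theorem on systems of tables. -/
def CoreThm : Prop :=
  ∀ δ : ℝ, 0 < δ → ∃ θ : ℝ, 0 < θ ∧ ∀ (S : Type) [Fintype S] [DecidableEq S] [Nonempty S],
    ∃ X : Sys S, Nonempty X.H ∧ X.TwoOne ∧ X.Sound θ δ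

/-! ### The main step -/

section Main

variable {S : Type} [Fintype S] [DecidableEq S] {X : Sys S} {l' : ℕ} (Y : Inn X l') {k l d m : ℕ}

/-- Samples for planting in a child. -/
abbrev Smp (l d m : ℕ) : Type := Y.R × (Y.I → Vec l') × Vec l' × Coins X.L S l d m

instance : Fintype (Smp Y l d m) := inferInstance

/-- The planted cell. -/
def gp (ω : Smp Y l d m) : Cell X l d := (Y.build ω.1 ω.2.1, plantM ω.2.2.2)

/-- The partition with a hole below the child `j`. -/
def relP (j : Fin (k + 1)) (ω : Smp Y l d m) (s : State X k l d) : Setoid (Asg X k) :=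
  relIn j (Y.hol ω.1 ω.2.1 ω.2.2.1) s

/-- The odd indicator of the value of the new node in the answer of the right prover. -/
noncomputable def hv (B : Setoid (Asg X k) → Asg X k) (a y : Vec l) (j : Fin (k + 1))
    (ω : Smp Y l d m) (s : State X k l d) : ℝ :=
  ind (top s (B (relP Y j ω s)) = y) - ind (top s (B (relP Y j ω s)) = y + a)

/-- Its average over all plantings. -/
noncomputable def numt (m : ℕ) (B : Setoid (Asg X k) → Asg X k) (a y : Vec l) :
    State X k l d → ℝ := Av (gp Y (m := m)) (hv Y B a y)

/-- `Q` is a character along the lines in the direction `a`. -/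
structure Equi (a : Vec l) (z : State X k l d → Col X k d → ZMod 2) (Q : State X k l d → ℝ) :
    Prop where
  abs_le : ∀ s, |Q s| ≤ 1
  inv : ∀ t s, z (sh a t s) = z s
  chr : ∀ t s, Q (sh a t s) = Q s * chi (z s) t

/-- The average along the line in the direction `a`. -/
noncomputable def lineAv (a : Vec l) (F : State X k l d → ℝ) (s : State X k l d) : ℝ :=
  𝔼 t, F (sh a t s)

end Main

end Vale.Agent.P339
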