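import Vale.Agent.P339.Basic
import Vale.Agent.P325.RepEdge

/-!
Decoding to the projection game.
-/

namespace Vale.Agent.P339

open Finset Vale.Agent.Lib.PCP Vale.Agent.P325
open scoped BigOperators

section Lists

variable {U W D S : Type} [Fintype U] [Nonempty U] [Fintype D] [Nonempty D] [Fintype S]
  [DecidableEq S] [Nonempty S] {G : Star U W D S} {θ : ℝ}

omit [Nonempty U] [Nonempty D] [Fintype S] [DecidableEq S] in
theorem Star.ValLE.nonneg (hG : G.ValLE θ) : 0 ≤ θ :=
  le_trans (expect_nonneg fun _ _ => expect_nonneg fun _ _ => ind_nonneg _)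
    (hG (fun _ => Classical.arbitrary S) fun _ => Classical.arbitrary S)

omit [Nonempty U] [Nonempty D] in
theorem Star.ValLE.frac (hG : G.ValLE θ) (w : W → S → ℝ) (w0 : ∀ v b, 0 ≤ w v b)
    (w1 : ∀ v, ∑ b, w v b ≤ 1) (f : U → S) :
    𝔼 u, 𝔼 i, w (G.nbr u i) (G.proj u i (f u)) ≤ θ := by
  obtain ⟨g, hg⟩ := exists_round_fin (fun p : U × D => G.nbr p.1 p.2)
    (fun p => G.proj p.1 p.2 (f p.1)) w w0 w1
  refine le_trans ?_ (hG f g)
  rw [← expect_prod fun p : U × D => w (G.nbr p.1 p.2) (G.proj p.1 p.2 (f p.1)),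
    ← expect_prod fun p : U × D => ind (G.proj p.1 p.2 (f p.1) = g (G.nbr p.1 p.2)),
    Fintype.expect_eq_sum_div_card, Fintype.expect_eq_sum_div_card]
  refine div_le_div_of_nonneg_right (hg.trans (le_of_eq ?_)) (Nat.cast_nonneg _)
  exact sum_congr rfl fun p _ => (ind_eq_ite _).symm

omit [Fintype S] [DecidableEq S] in
theorem exists_enum (A : Finset S) {R : ℕ} (h : A.card ≤ R) :
    ∃ f : Fin R → S, ∀ s ∈ A, ∃ r, f r = s := by
  classical
  refine ⟨fun r => A.toList.getD r (Classical.arbitrary S), fun s hs => ?_⟩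
  obtain ⟨n, hn, e⟩ := List.getElem_of_mem (mem_toList.2 hs)
  refine ⟨⟨n, lt_of_lt_of_le (by simpa using hn) h⟩, ?_⟩
  simp only
  rw [List.getD_eq_getElem _ _ hn, e]

omit [Nonempty U] [Nonempty D] in
/-- Short lists against Fourier weights. -/
theorem list_decode (hG : G.ValLE θ) {ι : Type} [Fintype ι] [DecidableEq ι]
    (g : U → D → (ι → ZMod 2) → ℝ) (hg : ∀ u i t, |g u i t| ≤ 1)
    (hloc : ∀ u i u' i', G.nbr u i = G.nbr u' i' → g u i = g u' i') (dec : (ι → ZMod 2) → S)
    (χ : U → D → ι → ZMod 2) (c : U → ℝ) (hc : ∀ u, |c u| ≤ 1) {R : ℕ}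
    (hs : ∀ u, c u ≠ 0 → ∃ A : Finset S, A.card ≤ R ∧
      ∀ i, ∃ s ∈ A, G.proj u i s = dec (χ u i)) :
    𝔼 u, 𝔼 i, c u * hat (g u i) (χ u i) ≤ √(R * θ) := by
  classical
  let gv : W → (ι → ZMod 2) → ℝ := fun v =>
    if h : ∃ p : U × D, G.nbr p.1 p.2 = v then g h.choose.1 h.choose.2 else 0
  have hgv : ∀ u i, gv (G.nbr u i) = g u i := fun u i => by
    have h : ∃ p : U × D, G.nbr p.1 p.2 = G.nbr u i := ⟨(u, i), rfl⟩
    simp only [gv, dif_pos h]
    exact hloc _ _ _ _ h.choose_spec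
  have hgv1 : ∀ v t, |gv v t| ≤ 1 := fun v t => by
    simp only [gv]
    split_ifs
    · exact hg _ _ _
    · simp
  let w : W → S → ℝ := fun v b => ∑ z, if dec z = b then hat (gv v) z ^ 2 else 0
  have w0 : ∀ v b, 0 ≤ w v b := fun v b => sum_nonneg fun z _ => by
    split_ifs
    · exact sq_nonneg _
    · exact le_rfl
  have w1 : ∀ v, ∑ b, w v b ≤ 1 := fun v => by
    simp only [w]
    rw [sum_comm]
    simp only [sum_ite_eq, mem_univ, if_true]
    exact parseval_le_one (hgv1 v)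
  have hf : ∀ u, ∃ f : Fin R → S, c u ≠ 0 → ∀ i, ∃ r, G.proj u i (f r) = dec (χ u i) := by
    intro u
    by_cases h : c u = 0
    · exact ⟨fun _ => Classical.arbitrary S, fun h' => absurd h h'⟩
    · obtain ⟨A, hA, hA'⟩ := hs u h
      obtain ⟨f, hf⟩ := exists_enum A hA
      refine ⟨f, fun _ i => ?_⟩
      obtain ⟨s, hs, e⟩ := hA' i
      obtain ⟨r, rfl⟩ := hf s hs
      exact ⟨r, e⟩
  choose f hf using hf
  have key : ∀ u i, (c u * hat (g u i) (χ u i)) ^ 2 ≤
      ∑ r, w (G.nbr u i) (G.proj u i (f u r)) := by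
    intro u i
    by_cases h : c u = 0
    · rw [h, zero_mul, sq, zero_mul]
      exact sum_nonneg fun r _ => w0 _ _
    · obtain ⟨r, hr⟩ := hf u h i
      refine le_trans ?_ (single_le_sum (f := fun r => w (G.nbr u i) (G.proj u i (f u r)))
        (fun r _ => w0 _ _) (mem_univ r))
      rw [hr, mul_pow]
      refine (mul_le_of_le_one_left (sq_nonneg _) ((sq_le_one_iff_abs_le_one _).2 (hc u))).trans ?_
      refine le_trans (le_of_eq ?_) (single_le_sum
        (f := fun z => if dec z = dec (χ u i) then hat (gv (G.nbr u i)) z ^ 2 else 0)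
        (fun z _ => by split_ifs; exacts [sq_nonneg _, le_rfl]) (mem_univ (χ u i)))
      simp only [if_true, hgv]
  refine Real.le_sqrt_of_sq_le ?_
  refine (sq_expect_le _).trans ((expect_le_expect fun u _ => (sq_expect_le _).trans
    (expect_le_expect fun i _ => key u i)).trans ?_)
  simp only [expect_sum_comm]
  refine (sum_le_sum fun r _ => hG.frac w w0 w1 fun u => f u r).trans (le_of_eq ?_)
  simp

end Lists

section Rel

variable {S : Type} {X : Sys S} {k l d : ℕ}

theorem top_upd {s : State X k l d} {j : Fin (k + 1)} {p : X.L}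
    (hM : ∀ α b, ev (s.1 j).2 (Function.update α p b) = ev (s.1 j).2 α) (π : S → S)
    (α : Asg X k) : top s (upd π (j, p) α) = top s α := by
  simp only [top]
  congr 1
  refine sum_congr rfl fun j' _ => ?_
  by_cases h : j' = j
  · subst h
    rw [sub_upd_self, upd, hM]
  · rw [sub_upd_ne _ _ h]

theorem top_pull {s : State X k l d} {j : Fin (k + 1)} {p : X.L}
    (hM : ∀ α b, ev (s.1 j).2 (Function.update α p b) = ev (s.1 j).2 α) (a : Vec l) (π : S → S)
    (t : Idx X.L S d → ZMod 2) (α : Asg X k) :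
    top (sh a (emb j (pull π p t)) s) α = top (sh a (emb j t) s) (upd π (j, p) α) := by
  rw [top_sh_emb, top_sh_emb, top_upd hM, ev_pull, sub_upd_self]

theorem relIn_pull {s : State X k l d} {j j' : Fin (k + 1)} (hj : j ≠ j') {p : X.L}
    (hB : Blind (X.rel (s.1 j).1) p)
    (hM : ∀ α b, ev (s.1 j).2 (Function.update α p b) = ev (s.1 j).2 α) (a : Vec l) (π : S → S)
    (t : Idx X.L S d → ZMod 2) (r : Setoid (X.L → S)) :
    relIn j' r (sh a (emb j (pull π p t)) s) =
      (relIn j' r (sh a (emb j t) s)).comap (upd π (j, p)) := by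
  ext α β
  change ((∀ j'', _) ∧ top _ α = top _ β) ↔
    ((∀ j'', _) ∧ top _ (upd π (j, p) α) = top _ (upd π (j, p) β))
  rw [top_pull hM, top_pull hM]
  refine and_congr_left fun _ => forall_congr' fun j'' => ?_
  by_cases h : j'' = j
  · subst h
    rw [Function.update_of_ne hj, Function.update_of_ne hj, sub_upd_self, sub_upd_self]
    exact ⟨fun h => (X.rel _).trans ((X.rel _).symm (hB _ _)) ((X.rel _).trans h (hB _ _)),
      fun h => (X.rel _).trans (hB _ _) ((X.rel _).trans h ((X.rel _).symm (hB _ _)))⟩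
  · rw [sub_upd_ne _ _ h, sub_upd_ne _ _ h]
    rfl

end Rel

section Swap

variable {S : Type} [Fintype S] [DecidableEq S] {X : Sys S} {k l d : ℕ}

/-- Rows as families of rows on the children. -/
def colE (X : Sys S) (k d : ℕ) :
    (Fin (k + 1) → Idx X.L S d → ZMod 2) × ZMod 2 ≃ (Col X k d → ZMod 2) where
  toFun u i := match i with
    | none => u.2
    | some (j, i) => u.1 j i
  invFun t := (fun j => part j t, t none)
  left_inv _ := rfl
  right_inv t := by
    funext i
    rcases i with _ | ⟨j, i⟩ <;> rfl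

omit [Fintype S] [DecidableEq S] in
theorem colE_none (u : (Fin (k + 1) → Idx X.L S d → ZMod 2) × ZMod 2) :
    colE X k d u none = u.2 := rfl

omit [Fintype S] [DecidableEq S] in
theorem colE_some (u : (Fin (k + 1) → Idx X.L S d → ZMod 2) × ZMod 2) (j : Fin (k + 1))
    (i : Idx X.L S d) : colE X k d u (some (j, i)) = u.1 j i := rfl

omit [Fintype S] [DecidableEq S] in
theorem sh_colE_plant (a : Vec l) (u : (Fin (k + 1) → Idx X.L S d → ZMod 2) × ZMod 2)
    (j : Fin (k + 1)) (r : Idx X.L S d → ZMod 2) (s : State X k l d) (c : Cell X l d) :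
    sh a (colE X k d (plant u j r)) (plant s j c) =
      sh a (emb j r) (plant (sh a (colE X k d u) s) j c) := by
  rw [plant_sh, sh_sh]
  congr 1
  funext i
  rcases i with _ | ⟨j', i⟩
  · simp [colE_none, emb]
  · by_cases h : j' = j
    · subst h
      simp [colE_some, emb, part, f2_add_self]
    · simp [colE_some, emb, h, plant_ne _ h]

/-- One coordinate of a uniform variable can be replaced by a variable with another law. -/
theorem swap_gen {J B K T K' Ω P : Type} [Fintype J] [DecidableEq J] [Nonempty J] [Fintype B]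
    [Nonempty B] [Fintype K] [Nonempty K] [Fintype T] [Nonempty T] [Fintype K'] [Nonempty K']
    [Fintype Ω] [Fintype P] [Nonempty P] (g : Ω → B) (F : J → Ω → (J → B) × K → ℝ)
    (hJ : ∀ j ω s, |F j ω s| ≤ 1) (H : (J → B) × K → (J → T) × K' → ℝ)
    (hH : 𝔼 s, 𝔼 v, H s v ^ 2 ≤ 2 ^ 2) (ρ : J → Ω → P → T) {e : ℝ} (he : 0 ≤ e)
    (hk : ((Fintype.card B : ℝ) * Fintype.card T) ^ 2 ≤ e ^ 2 * Fintype.card J) :
    (𝔼 j, 𝔼 ω, 𝔼 s, F j ω (plant s j (g ω)) * 𝔼 v, H (plant s j (g ω)) v) ≤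
      (𝔼 j, 𝔼 ω, 𝔼 s, F j ω (plant s j (g ω)) *
        𝔼 v, 𝔼 p, H (plant s j (g ω)) (plant v j (ρ j ω p))) + 2 * e := by
  set N : ℝ := (Fintype.card B : ℝ) with hN
  set N' : ℝ := (Fintype.card T : ℝ) with hN'
  have hN'1 : 1 ≤ N' := by rw [hN']; exact_mod_cast Fintype.card_pos
  let den : J → Ω → T → ℝ := fun j ω b => N' * 𝔼 p, ind (ρ j ω p = b) * 1
  have den1 : ∀ j ω, 𝔼 b, den j ω b = 1 := fun j ω => by
    simp only [den]
    rw [← mul_expect, expect_comm, mul_expect]
    exact (expect_congr rfl fun p _ => expect_ind_eq (ρ j ω p) fun _ => 1).trans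
      (Fintype.expect_const _)
  have den0 : ∀ j ω b, 0 ≤ den j ω b := fun j ω b => mul_nonneg (Nat.cast_nonneg _)
    (expect_nonneg fun p _ => mul_nonneg (ind_nonneg _) zero_le_one)
  have den2 : ∀ j ω b, den j ω b ≤ N' := fun j ω b =>
    (le_abs_self _).trans (abs_term_le (ρ j ω) b (F := fun _ => 1) fun _ => by simp)
  let u : (J → B) × K → J → T → ℝ := fun s j b =>
    N * 𝔼 ω, ind (g ω = s.1 j) * (F j ω s * (1 - den j ω b))
  have u0 : ∀ s j, 𝔼 b, u s j b = 0 := fun s j => by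
    simp only [u]
    rw [← mul_expect, expect_comm]
    simp only [← mul_expect, expect_sub_distrib, den1, Fintype.expect_const, sub_self, mul_zero,
      expect_const_zero]
  have u1 : ∀ s j b, u s j b ^ 2 ≤ (N * N') ^ 2 := fun s j b => by
    have h1 := abs_term_le g (s.1 j) (F := fun ω => F j ω s * (1 - den j ω b) / N') fun ω => by
      rw [abs_div, abs_of_pos (show 0 < N' by linarith), div_le_one (by linarith), abs_mul]
      refine (mul_le_of_le_one_left (abs_nonneg _) (hJ _ _ _)).trans (abs_le.2 ⟨?_, ?_⟩)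
      · linarith [den2 j ω b]
      · linarith [den0 j ω b]
    have h2 : u s j b = (N * 𝔼 ω, ind (g ω = s.1 j) * (F j ω s * (1 - den j ω b) / N')) * N' := by
      simp only [u]
      rw [mul_assoc, expect_mul]
      congr 1
      refine expect_congr rfl fun ω _ => ?_
      field_simp
    rw [h2]
    refine sq_le_sq' ?_ ?_
    · nlinarith [(abs_le.1 h1).1]
    · nlinarith [(abs_le.1 h1).2]
  have hA : (𝔼 j, 𝔼 ω, 𝔼 s, F j ω (plant s j (g ω)) * 𝔼 v, H (plant s j (g ω)) v) =
      𝔼 j, 𝔼 s : (J → B) × K, N * 𝔼 ω, ind (g ω = s.1 j) * (F j ω s * 𝔼 v, H s v) :=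
    expect_congr rfl fun j _ => (expect_mul_plant g j fun ω s => F j ω s * 𝔼 v, H s v).symm
  have hB : (𝔼 j, 𝔼 ω, 𝔼 s, F j ω (plant s j (g ω)) *
      𝔼 v, 𝔼 p, H (plant s j (g ω)) (plant v j (ρ j ω p))) =
      𝔼 j, 𝔼 s : (J → B) × K, N * 𝔼 ω, ind (g ω = s.1 j) *
        (F j ω s * 𝔼 v, den j ω (v.1 j) * H s v) := by
    refine expect_congr rfl fun j _ => ?_
    rw [expect_mul_plant g j fun ω s => F j ω s * 𝔼 v, den j ω (v.1 j) * H s v]
    refine expect_congr rfl fun ω _ => expect_congr rfl fun s _ => ?_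
    congr 1
    rw [expect_comm, ← expect_mul_plant (ρ j ω) j fun _ v => H (plant s j (g ω)) v]
    refine expect_congr rfl fun v _ => ?_
    simp only [den, mul_one]
    rw [mul_assoc, expect_mul]
  have hC : (𝔼 j, 𝔼 s : (J → B) × K, N * 𝔼 ω, ind (g ω = s.1 j) * (F j ω s * 𝔼 v, H s v)) -
      (𝔼 j, 𝔼 s : (J → B) × K, N * 𝔼 ω, ind (g ω = s.1 j) *
        (F j ω s * 𝔼 v, den j ω (v.1 j) * H s v)) =
      𝔼 q : ((J → B) × K) × ((J → T) × K'), H q.1 q.2 * 𝔼 j, u q.1 j (q.2.1 j) := by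
    rw [expect_prod, ← expect_sub_distrib]
    simp only [← expect_sub_distrib, mul_expect (s := (univ : Finset J))]
    rw [expect_comm]
    refine expect_congr rfl fun s _ => ?_
    rw [expect_comm (s := univ) (t := (univ : Finset J))]
    refine expect_congr rfl fun j _ => ?_
    simp only [u, mul_expect, ← expect_sub_distrib]
    rw [expect_comm]
    exact expect_congr rfl fun v _ => expect_congr rfl fun ω _ => by ring
  have hD := expect_mul_sq_le_sq_mul_sq univ
    (fun q : ((J → B) × K) × ((J → T) × K') => H q.1 q.2) fun q => 𝔼 j, u q.1 j (q.2.1 j)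
  have hE : 𝔼 q : ((J → B) × K) × ((J → T) × K'), H q.1 q.2 ^ 2 ≤ 2 ^ 2 := by
    rw [expect_prod]; exact hH
  have hF : 𝔼 q : ((J → B) × K) × ((J → T) × K'), (𝔼 j, u q.1 j (q.2.1 j)) ^ 2 ≤ e ^ 2 := by
    rw [expect_prod]
    refine expect_le univ_nonempty fun s _ => ?_
    rw [expect_prod]
    simp only [Fintype.expect_const]
    refine (expect_sq_avg_le (u s) (u0 s) fun j =>
      expect_le univ_nonempty fun b _ => u1 s j b).trans ?_
    rw [div_le_iff₀ (by exact_mod_cast Fintype.card_pos)]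
    exact hk
  have hG := hD.trans (mul_le_mul hE hF (expect_nonneg fun _ _ => sq_nonneg _) (by norm_num))
  rw [← mul_pow] at hG
  have hH := (abs_le_of_sq_le_sq' hG (by linarith)).2
  rw [hA, hB]
  linarith

/-- The uniform row on the planted child can be replaced by a row with another law. -/
theorem swap_row {Ω P : Type} [Fintype Ω] [Fintype P] [Nonempty P] (a : Vec l)
    (g : Ω → Cell X l d) (J : Fin (k + 1) → Ω → State X k l d → ℝ) (hJ : ∀ j ω s, |J j ω s| ≤ 1)
    (hJi : ∀ j ω t s, J j ω (sh a t s) = J j ω s) (Ψ : State X k l d → ℝ)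
    (hΨ : 𝔼 s, Ψ s ^ 2 ≤ 2 ^ 2) (ρ : Fin (k + 1) → Ω → P → Idx X.L S d → ZMod 2) {e : ℝ}
    (he : 0 ≤ e)
    (hk : ((Fintype.card (Cell X l d) : ℝ) * Fintype.card (Idx X.L S d → ZMod 2)) ^ 2 ≤
      e ^ 2 * (k + 1)) :
    (𝔼 j, 𝔼 ω, 𝔼 s, J j ω (plant s j (g ω)) * lineAv a Ψ (plant s j (g ω))) ≤
      (𝔼 j, 𝔼 ω, 𝔼 s, 𝔼 p, J j ω (plant s j (g ω)) *
        Ψ (sh a (emb j (ρ j ω p)) (plant s j (g ω)))) + 2 * e := by
  have h := swap_gen g J hJ (fun s v => Ψ (sh a (colE X k d v) s)) (by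
    rw [expect_comm]
    exact expect_le univ_nonempty fun v _ => (expect_sh a _ fun s => Ψ s ^ 2).trans_le hΨ)
    ρ he (by simpa using hk)
  have h1 : ∀ s, lineAv a Ψ s = 𝔼 v, Ψ (sh a (colE X k d v) s) := fun s =>
    (Fintype.expect_equiv (colE X k d) _ _ fun _ => rfl).symm
  simp only [h1]
  refine h.trans (le_of_eq ?_)
  congr 1
  refine expect_congr rfl fun j _ => expect_congr rfl fun ω _ => ?_
  simp only [sh_colE_plant, mul_expect]
  rw [expect_comm]
  refine (expect_congr rfl fun v _ => ?_).trans (Fintype.expect_const _)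
  rw [← expect_sh a (colE X k d v) fun s => 𝔼 p, J j ω (plant s j (g ω)) *
    Ψ (sh a (emb j (ρ j ω p)) (plant s j (g ω)))]
  refine expect_congr rfl fun s _ => expect_congr rfl fun p _ => ?_
  rw [plant_sh a _ j s, hJi]

end Swap

section Final

variable {S : Type} [Fintype S] [DecidableEq S] {X : Sys S} {l' : ℕ} {Y : Inn X l'}
  {k l d m : ℕ}

theorem numt_sq (B : Setoid (Asg X k) → Asg X k) (a y : Vec l) (Q : State X k l d → ℝ)
    (hQ : ∀ s, |Q s| ≤ 1) (h : (Fintype.card (Cell X l d) : ℝ) ≤ 1 ^ 2 * (k + 1)) :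
    𝔼 s, (Q s * numt Y m B a y s) ^ 2 ≤ 2 ^ 2 := by
  have h1 := den_sq_le (J := Fin (k + 1)) (K := Vec l) (gp Y (l := l) (d := d) (m := m))
    (e := 1) (by simpa using h)
  have h2 : ∀ s, (Q s * numt Y m B a y s) ^ 2 ≤
      2 * (Av (gp Y (l := l) (d := d) (m := m)) (fun _ _ _ => 1) s - 1) ^ 2 + 2 := fun s => by
    have h3 := abs_Av_le (gp Y (m := m)) s fun j ω => abs_hv_le Y B a y j ω s
    have h4 : (numt Y m B a y s) ^ 2 ≤ Av (gp Y (m := m)) (fun _ _ _ => 1) s ^ 2 :=
      sq_le_sq' (abs_le.1 h3).1 (abs_le.1 h3).2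
    have h5 : Q s ^ 2 ≤ 1 := (sq_le_one_iff_abs_le_one _).2 (hQ s)
    rw [mul_pow]
    nlinarith [sq_nonneg (numt Y m B a y s),
      sq_nonneg (Av (gp Y (m := m)) (fun _ _ _ => 1) s - 2)]
  refine (expect_le_expect fun s _ => h2 s).trans ?_
  rw [expect_add_distrib, ← mul_expect, Fintype.expect_const]
  linarith

variable [Nonempty S] {U W D : Type} [Fintype U] [Nonempty U] [Fintype D] [Nonempty D]
  {G : Star U W D S} {θ : ℝ}

omit [Nonempty D] in
/-- The game at one leaf. -/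
theorem leaf_game (hG : G.ValLE θ) {B : (Fin (k + 1) × X.L → U) → Setoid (Asg X k) → Asg X k}
    {j j' : Fin (k + 1)} (hj : j ≠ j') {p : X.L} (hL : Loc G B (j, p)) {s : State X k l d}
    (hB : Blind (X.rel (s.1 j).1) p)
    (hM : ∀ α b, ev (s.1 j).2 (Function.update α p b) = ev (s.1 j).2 α) (a y : Vec l)
    (ω : Smp Y l d m) (z : (Fin (k + 1) × X.L → U) → State X k l d → Col X k d → ZMod 2)
    (Q : (Fin (k + 1) × X.L → U) → State X k l d → ℝ) (hE : ∀ x, Equi a (z x) (Q x))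
    (dec : X.L → (Idx X.L S d → ZMod 2) → S) (R : ℕ) (P : (Fin (k + 1) × X.L → U) → Prop)
    (hP : ∀ x, P x → Small dec R p (part j (z x s))) :
    𝔼 x, 𝔼 q : D × (Idx X.L S d → ZMod 2), ind (P x) *
      (Q x (sh a (emb j (pull (G.proj (x (j, p)) q.1) p q.2)) s) *
        hv Y (B x) a y j' ω (sh a (emb j (pull (G.proj (x (j, p)) q.1) p q.2)) s)) ≤
      √(R * θ) := by
  rw [← expect_update _ (j, p)]
  refine expect_le univ_nonempty fun x _ => ?_
  refine le_trans (le_of_eq ?_) (list_decode hG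
    (fun u i t => hv Y (B (Function.update x (j, p) u)) a y j' ω
      (sh a (emb j (pull (G.proj u i) p t)) s))
    (fun u i t => abs_hv_le _ _ _ _ _ _ _) (fun u i u' i' h => ?_) (dec p)
    (fun u i => push (G.proj u i) p (part j (z (Function.update x (j, p) u) s)))
    (fun u => ind (P (Function.update x (j, p) u)) * Q (Function.update x (j, p) u) s)
    (fun u => ?_) (R := R) fun u hu => ?_)
  · refine expect_congr rfl fun u _ => ?_
    rw [expect_prod]
    refine expect_congr rfl fun i _ => ?_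
    rw [hat, mul_expect]
    refine expect_congr rfl fun t _ => ?_
    rw [Function.update_self, (hE _).chr, chi_emb, chi_pull]
    ring
  · funext t
    have h1 := (hL x u u' i i' (relIn j' (Y.hol ω.1 ω.2.1 ω.2.2.1) (sh a (emb j t) s)) h).2
    simp only [hv, relP, relIn_pull hj hB hM, top_pull hM]
    rw [show top (sh a (emb j t) s) _ = top (sh a (emb j t) s) _ from h1]
  · rw [abs_mul]
    exact mul_le_one₀ (abs_ind_le _) (abs_nonneg _) ((hE _).abs_le _)
  · have h1 : P (Function.update x (j, p) u) := by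
      by_contra h
      exact hu (by rw [ind_of_not h, zero_mul])
    obtain ⟨A, hA, hA'⟩ := hP _ h1
    exact ⟨A, hA, fun i => hA' _⟩

end Final

theorem decode_thm : DecodeThm := by
  intro S _ _ _ X l' Y k l d m U W D _ _ _ _ G θ hG Free B hL a y z Q hE E hEi dec R sel e he he1 hk
  set N : ℝ := (Fintype.card (Cell X l d) : ℝ) with hN
  have hN1 : 1 ≤ N := by rw [hN]; exact_mod_cast Fintype.card_pos
  have hN2 : (1 : ℝ) ≤ Fintype.card (Idx X.L S d → ZMod 2) := by exact_mod_cast Fintype.card_pos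
  have hk0 : (0 : ℝ) < k + 1 := by positivity
  have hNe : N ≤ e * (k + 1) := by
    have h1 : N ≤ N * Fintype.card (Idx X.L S d → ZMod 2) := le_mul_of_one_le_right (by linarith) hN2
    have h2 : e ^ 2 * (k + 1) ≤ e * (k + 1) := mul_le_mul_of_nonneg_right (by nlinarith) hk0.le
    nlinarith
  let g₀ : Smp Y l d m → Cell X l d := fun ω => (Y.build ω.1 ω.2.1, restM a ω.2.2.2)
  let P : (Fin (k + 1) × X.L → U) → Fin (k + 1) → Smp Y l d m → State X k l d → Prop :=
    fun x j ω s => Free (j, sel j ω) ∧ Blind (X.rel (Y.build ω.1 ω.2.1)) (sel j ω) ∧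
      (∀ b, (ω.2.2.2 b).1 (sel j ω) = 0) ∧ Small dec R (sel j ω) (part j (z x s)) ∧ E x s
  have hP : ∀ x j ω t s, ind (P x j ω (sh a t s)) = ind (P x j ω s) := fun x j ω t s => by
    simp only [P, (hE x).inv, hEi]
  let ρ : (Fin (k + 1) × X.L → U) → Fin (k + 1) → Smp Y l d m → D × (Idx X.L S d → ZMod 2) →
      Idx X.L S d → ZMod 2 := fun x j ω q => pull (G.proj (x (j, sel j ω)) q.1) (sel j ω) q.2
  have h1 : ∀ x, (𝔼 j, 𝔼 ω : Smp Y l d m, 𝔼 s, ind (P x j ω (plant s j (gp Y ω))) *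
      lineAv a (fun s => Q x s * numt Y m (B x) a y s) (plant s j (gp Y ω))) ≤
      (𝔼 j, 𝔼 ω, 𝔼 s, 𝔼 q, ind (P x j ω (plant s j (g₀ ω))) *
        (Q x (sh a (emb j (ρ x j ω q)) (plant s j (g₀ ω))) *
          numt Y m (B x) a y (sh a (emb j (ρ x j ω q)) (plant s j (g₀ ω))))) + 2 * e := by
    intro x
    simp only [plant_gp Y a, hP, lineAv_sh]
    exact swap_row a g₀ (fun j ω s => ind (P x j ω s)) (fun _ _ _ => abs_ind_le _) (hP x) _
      (numt_sq (B x) a y (Q x) (hE x).abs_le (by nlinarith)) (ρ x) he hk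
  let F : Fin (k + 1) → Fin (k + 1) → (Fin (k + 1) × X.L → U) → Smp Y l d m →
      D × (Idx X.L S d → ZMod 2) → Smp Y l d m → State X k l d → ℝ := fun j j' x ω q ω' s =>
    ind (P x j ω (plant s j (g₀ ω))) * (Q x (sh a (emb j (ρ x j ω q)) (plant s j (g₀ ω))) *
      hv Y (B x) a y j' ω' (sh a (emb j (ρ x j ω q)) (plant s j (g₀ ω))))
  have hF : ∀ j j' x ω q ω' s, |F j j' x ω q ω' s| ≤ 1 := fun j j' x ω q ω' s => by
    simp only [F, abs_mul]
    exact mul_le_one₀ (abs_ind_le _) (by positivity)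
      (mul_le_one₀ ((hE x).abs_le _) (abs_nonneg _) (abs_hv_le _ _ _ _ _ _ _))
  have h2 : ∀ j j', (𝔼 x, 𝔼 ω, 𝔼 s, 𝔼 q, N * 𝔼 ω', ind (gp Y ω' =
      (sh a (emb j (ρ x j ω q)) (plant s j (g₀ ω))).1 j') * F j j' x ω q ω' s) ≤
      √(R * θ) + if j = j' then N else 0 := by
    intro j j'
    split_ifs with hj
    · refine le_add_of_nonneg_of_le (Real.sqrt_nonneg _) ?_
      exact expect_le univ_nonempty fun x _ => expect_le univ_nonempty fun ω _ =>
        expect_le univ_nonempty fun s _ => expect_le univ_nonempty fun q _ =>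
          (le_abs_self _).trans (abs_term_le (gp Y) _ fun ω' => hF _ _ _ _ _ _ _)
    have h3 : ∀ x ω q (s : State X k l d),
        (sh a (emb j (ρ x j ω q)) (plant s j (g₀ ω))).1 j' = s.1 j' := fun x ω q s => by
      rw [sh_emb_plant, plant_ne _ (Ne.symm hj)]
    have h4 : ∀ x ω, (𝔼 s, 𝔼 q, N * 𝔼 ω', ind (gp Y ω' =
        (sh a (emb j (ρ x j ω q)) (plant s j (g₀ ω))).1 j') * F j j' x ω q ω' s) =
        𝔼 ω', 𝔼 s, 𝔼 q, F j j' x ω q ω' (plant s j' (gp Y ω')) := fun x ω => by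
      rw [← expect_mul_plant (gp Y) j' fun ω' s => 𝔼 q, F j j' x ω q ω' s]
      refine expect_congr rfl fun s _ => ?_
      simp only [h3]
      rw [← mul_expect, expect_comm]
      simp only [← mul_expect]
      rfl
    simp only [h4]
    rw [add_zero, expect_comm]
    refine expect_le univ_nonempty fun ω _ => ?_
    rw [expect_comm]
    refine expect_le univ_nonempty fun ω' _ => ?_
    rw [expect_comm]
    refine expect_le univ_nonempty fun s _ => ?_
    by_cases h5 : Free (j, sel j ω) ∧ Blind (X.rel (Y.build ω.1 ω.2.1)) (sel j ω) ∧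
        ∀ b, (ω.2.2.2 b).1 (sel j ω) = 0
    · exact leaf_game hG hj (hL _ h5.1) (s := plant (plant s j' (gp Y ω')) j (g₀ ω))
        (by rw [plant_self]; exact h5.2.1)
        (fun α b => by rw [plant_self]; exact ev_restM_update a h5.2.2 α b) a y ω' z Q hE dec R
        (fun x => P x j ω (plant (plant s j' (gp Y ω')) j (g₀ ω))) fun x hx => hx.2.2.2.1
    · refine expect_le univ_nonempty fun x _ => expect_le univ_nonempty fun q _ => ?_
      simp only [F]
      rw [ind_of_not fun h : P x j ω _ => h5 ⟨h.1, h.2.1, h.2.2.1⟩, zero_mul]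
      exact Real.sqrt_nonneg _
  have h6 : (𝔼 x, 𝔼 j, 𝔼 ω, 𝔼 s, 𝔼 q, ind (P x j ω (plant s j (g₀ ω))) *
      (Q x (sh a (emb j (ρ x j ω q)) (plant s j (g₀ ω))) *
        numt Y m (B x) a y (sh a (emb j (ρ x j ω q)) (plant s j (g₀ ω))))) ≤ √(R * θ) + e := by
    rw [expect_comm]
    refine expect_le univ_nonempty fun j _ => ?_
    have h7 : ∀ x ω s q, ind (P x j ω (plant s j (g₀ ω))) *
        (Q x (sh a (emb j (ρ x j ω q)) (plant s j (g₀ ω))) *
          numt Y m (B x) a y (sh a (emb j (ρ x j ω q)) (plant s j (g₀ ω)))) =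
        𝔼 j', N * 𝔼 ω', ind (gp Y ω' = (sh a (emb j (ρ x j ω q)) (plant s j (g₀ ω))).1 j') *
          F j j' x ω q ω' s := fun x ω s q => by
      simp only [numt, Av, F, mul_expect]
      exact expect_congr rfl fun j' _ => expect_congr rfl fun ω' _ => by ring
    simp only [h7]
    have h8 : ∀ Φ : (Fin (k + 1) × X.L → U) → Smp Y l d m → State X k l d →
        D × (Idx X.L S d → ZMod 2) → Fin (k + 1) → ℝ,
        (𝔼 x, 𝔼 ω, 𝔼 s, 𝔼 q, 𝔼 j', Φ x ω s q j') = 𝔼 j', 𝔼 x, 𝔼 ω, 𝔼 s, 𝔼 q, Φ x ω s q j' := by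
      intro Φ
      symm
      rw [expect_comm]
      refine expect_congr rfl fun x _ => ?_
      rw [expect_comm]
      refine expect_congr rfl fun ω _ => ?_
      rw [expect_comm]
      refine expect_congr rfl fun s _ => ?_
      rw [expect_comm]
    rw [h8]
    refine (expect_le_expect fun j' _ => h2 j j').trans ?_
    rw [expect_add_distrib, Fintype.expect_const, Fintype.expect_eq_sum_div_card, sum_ite_eq,
      if_pos (mem_univ _), Fintype.card_fin]
    push_cast
    have := (div_le_iff₀ hk0).2 hNe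
    linarith
  refine (expect_le_expect fun x _ => h1 x).trans ?_
  rw [expect_add_distrib, Fintype.expect_const]
  linarith

end Vale.Agent.P339
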