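import Mathlib.Computability.TuringMachine.Computable
import Mathlib.Algebra.Order.Archimedean.Real.Basic

/-!
3-CNF formulas, 2-to-1 games, their value and their binary codes, and NP-hardness of the gap
problem `Gap_q(c, s)`.
-/

namespace Vale.Agent.P339.TwoToOne

/-- The word `x` in self-delimiting form (each bit is preceded by `true`, the end is marked by
`false`), followed by the word `y`. -/
def pair : List Bool → List Bool → List Bool
  | [], y => false :: y
  | c :: x, y => true :: c :: pair x y

/-- A list of words, each of them in self-delimiting form. -/
def codeList : List (List Bool) → List Bool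
  | [] => []
  | x :: l => pair x (codeList l)

/-- A literal `(n, b)`: the variable `n` if `b = true` and its negation if `b = false`. -/
abbrev Literal : Type := ℕ × Bool

/-- A 3-CNF formula: a list of clauses, each with three literals. -/
abbrev Formula : Type := List (Literal × Literal × Literal)

/-- Some assignment makes a literal of every clause true. -/
def Formula.Satisfiable (φ : Formula) : Prop :=
  ∃ σ : ℕ → Bool, ∀ c ∈ φ, σ c.1.1 = c.1.2 ∨ σ c.2.1.1 = c.2.1.2 ∨ σ c.2.2.1 = c.2.2.2

/-- The code of a literal: the variable in binary, then the sign. -/
def Literal.code (l : Literal) : List Bool := pair l.1.bits [l.2]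

/-- The code of a formula: the list of its clauses, each given by its three literals. -/
def Formula.code (φ : Formula) : List Bool :=
  codeList (φ.map fun c => pair c.1.code (pair c.2.1.code c.2.2.code))

/-- A 2-to-1 game with alphabets `Fin (2 * q)` and `Fin q`: vertex sets `U = Fin m` and
`V = Fin n`, and a nonempty list of constraints `(u, v, π)` in which every label of the right
alphabet has exactly two preimages under `π`. The distribution on the list is uniform. -/
structure Game (q : ℕ) where
  m : ℕ
  n : ℕ
  cons : List (Fin m × Fin n × (Fin (2 * q) → Fin q))
  cons_ne : cons ≠ []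
  two_to_one : ∀ c ∈ cons, ∀ b : Fin q, (Finset.univ.filter fun a => c.2.2 a = b).card = 2

/-- The value: the largest fraction of constraints `(u, v, π)` with `π (A u) = B v`, over all
labelings `(A, B)`. -/
noncomputable def Game.val {q : ℕ} (G : Game q) : ℝ :=
  ⨆ L : (Fin G.m → Fin (2 * q)) × (Fin G.n → Fin q),
    (G.cons.countP fun c => c.2.2 (L.1 c.1) = L.2 c.2.1 : ℝ) / G.cons.length

/-- The code of a game: the numbers of vertices in unary, then for each constraint its two
vertices and the list of the values of its map, in binary. -/
def Game.code {q : ℕ} (G : Game q) : List Bool :=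
  pair (List.replicate G.m true) (pair (List.replicate G.n true) (codeList (G.cons.map fun c =>
    codeList [c.1.val.bits, c.2.1.val.bits, codeList (List.ofFn fun a => (c.2.2 a).val.bits)])))

/-- `Gap_q(c, s)` is NP-hard: a deterministic polynomial time Turing machine (the multi-stack
machines of Mathlib, with finite alphabets) maps the code of each 3-CNF formula to the code of a
game, of value at least `c` if the formula is satisfiable and at most `s` if it is not. -/
def GapNPHard (q : ℕ) (c s : ℝ) : Prop :=
  ∃ G : Formula → Game q,
    (∃ M : Turing.TM2ComputableInPolyTime Formula.code Game.code G, ∀ k, Finite (M.tm.Γ k)) ∧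
    (∀ φ : Formula, φ.Satisfiable → c ≤ (G φ).val) ∧
    (∀ φ : Formula, ¬ φ.Satisfiable → (G φ).val ≤ s)

end Vale.Agent.P339.TwoToOne
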