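import Vale.Agent.P339.Basic

/-!
The character is a point evaluation on measurable functions.
-/

namespace Vale.Agent.P339

open Finset Vale.Agent.Lib.PCP Vale.Agent.P325
open scoped BigOperators

section

variable {S : Type} [Fintype S] [DecidableEq S] {X : Sys S} {k l d : ℕ}

/-- Tables whose function is constant on the classes of `r`. -/
def fold (r : Setoid (X.L → S)) (d : ℕ) : AddSubgroup (Idx X.L S d → ZMod 2) where
  carrier := {t | ∀ α β, r α β → ev t α = ev t β}
  add_mem' ha hb α β h := by rw [ev_add, ev_add, ha α β h, hb α β h]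
  zero_mem' α β _ := by rw [ev_zero, ev_zero]
  neg_mem' {t} ha := by
    rwa [neg_eq_of_add_eq_zero_left (f2_vec_add_self t)]

open Classical in
theorem expect_fold {r : Setoid (X.L → S)} {Φ : Idx X.L S d → ZMod 2} (h : ¬ Good r Φ)
    (β : X.L → S) : 𝔼 t : fold r d, chi Φ t * sg (ev t.1 β) = 0 := by
  simp only [Good, not_exists, not_forall] at h
  obtain ⟨t₁, h1, h2⟩ := h β
  have h3 := expect_shiftG (fun t : fold r d => chi Φ t * sg (ev t.1 β)) ⟨t₁, h1⟩
  have h4 : chi Φ t₁ * sg (ev t₁ β) = -1 := by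
    rw [chi, sg_mul_sg, if_neg h2]; norm_num
  have h5 : ∀ t : fold r d, chi Φ (t + ⟨t₁, h1⟩ : fold r d) * sg (ev (t + ⟨t₁, h1⟩ : fold r d).1 β) =
      -(chi Φ t * sg (ev t.1 β)) := fun t => by
    simp only [AddSubgroup.coe_add, chi_add, ev_add, sg_add]
    linear_combination (chi Φ t * sg (ev t.1 β)) * h4
  simp only [h5, expect_neg_distrib] at h3
  linarith

omit [Fintype S] [DecidableEq S] in
theorem relIn_fold {s : State X k l d} {j j₀ : Fin (k + 1)} (hj : j₀ ≠ j) (a : Vec l)
    {t : Idx X.L S d → ZMod 2} (ht : t ∈ fold (X.rel (s.1 j₀).1) d) (r : Setoid (X.L → S)) :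
    relIn j r (sh a (emb j₀ t) s) = relIn j r s := by
  ext α β
  change ((∀ j'', _) ∧ top _ α = top _ β) ↔ ((∀ j'', _) ∧ top _ α = top _ β)
  refine and_congr_right fun h => ?_
  have h1 := h j₀
  rw [Function.update_of_ne hj] at h1
  rw [top_sh_emb, top_sh_emb, ht _ _ h1, add_left_inj]

omit [Fintype S] [DecidableEq S] in
theorem hv_fold {l' m : ℕ} (Y : Inn X l') (B : Setoid (Asg X k) → Asg X k) (a y : Vec l)
    {s : State X k l d} {j j₀ : Fin (k + 1)} (hj : j₀ ≠ j) {t : Idx X.L S d → ZMod 2}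
    (ht : t ∈ fold (X.rel (s.1 j₀).1) d) (ω : Smp Y l d m) :
    hv Y B a y j ω (sh a (emb j₀ t) s) =
      hv Y B a y j ω s * sg (ev t (sub j₀ (B (relP Y j ω s)))) := by
  simp only [hv, relP, relIn_fold hj a ht, top_sh_emb]
  rcases f2_cases (ev t (sub j₀ (B (relIn j (Y.hol ω.1 ω.2.1 ω.2.2.1) s)))) with e | e
  · rw [e, zero_smul, add_zero, sg_zero, mul_one]
  · rw [e, one_smul, sg_one, mul_neg, mul_one, neg_sub, add_left_inj]
    congr 1
    refine ind_congr ⟨fun h => ?_, fun h => ?_⟩
    · rw [← h, add_assoc, add_self_two, add_zero]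
    · rw [h, add_assoc, add_self_two, add_zero]

end

theorem good_thm : GoodThm := by
  classical
  intro S _ _ X l' Y k l d m B a y z Q hE E hEi
  set N : ℝ := (Fintype.card (Cell X l d) : ℝ) with hN
  let T : Fin (k + 1) → State X k l d → ℝ := fun j s =>
    Q s * (N * 𝔼 ω : Smp Y l d m, ind (gp Y ω = s.1 j) * hv Y B a y j ω s)
  let Gd : Fin (k + 1) → State X k l d → Prop := fun j s => Good (X.rel (s.1 j).1) (part j (z s))
  have hT : ∀ j s, |T j s| ≤ N := fun j s => by
    rw [abs_mul]
    exact (mul_le_of_le_one_left (abs_nonneg _) (hE.abs_le s)).trans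
      (abs_term_le (gp Y) _ fun ω => abs_hv_le _ _ _ _ _ _ _)
  have h0 : ∀ j j₀ s, j₀ ≠ j → ¬ Gd j₀ s → lineAv a (T j) s = 0 := by
    intro j j₀ s hj hG
    have h1 : lineAv a (T j) s =
        𝔼 t, 𝔼 t₀ : fold (X.rel (s.1 j₀).1) d, T j (sh a (emb j₀ t₀) (sh a t s)) := by
      rw [expect_comm]
      refine ((expect_congr rfl fun t₀ _ => ?_).trans (Fintype.expect_const _)).symm
      simp only [sh_sh]
      exact expect_add_left (fun t => T j (sh a t s)) _
    rw [h1]
    refine expect_eq_zero fun t _ => ?_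
    have h2 : ∀ t₀ : fold (X.rel (s.1 j₀).1) d, T j (sh a (emb j₀ t₀) (sh a t s)) =
        Q (sh a t s) * N * 𝔼 ω : Smp Y l d m, ind (gp Y ω = (sh a t s).1 j) *
          hv Y B a y j ω (sh a t s) * (chi (part j₀ (z s)) t₀ *
            sg (ev t₀.1 (sub j₀ (B (relP Y j ω (sh a t s)))))) := fun t₀ => by
      have h3 : (sh a (emb j₀ t₀.1) (sh a t s)).1 j = (sh a t s).1 j := by
        rw [sh_fst a (emb j₀ t₀.1), part_emb_ne hj.symm]
        refine Prod.ext rfl ?_
        funext i; simp [tens]
      simp only [T, h3]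
      rw [hE.chr (emb j₀ t₀.1), hE.inv, chi_emb]
      simp only [mul_expect]
      refine expect_congr rfl fun ω _ => ?_
      rw [hv_fold Y B a y (s := sh a t s) hj t₀.2]
      ring
    simp only [h2]
    rw [← mul_expect, expect_comm]
    simp only [← mul_expect, expect_fold hG, mul_zero, expect_const_zero]
  have h1 : ∀ s, (𝔼 j, lineAv a (T j) s) ≤
      (𝔼 j, ind (Gd j s) * lineAv a (T j) s) + N / (k + 1) := by
    intro s
    by_cases h : ∀ j, Gd j s
    · simp only [fun j => ind_of (h j), one_mul]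
      exact le_add_of_nonneg_right (by positivity)
    · obtain ⟨j₀, hj₀⟩ := not_forall.1 h
      have h2 : ∀ j, ind (Gd j s) * lineAv a (T j) s = 0 := fun j => by
        by_cases e : j₀ = j
        · rw [← e, ind_of_not hj₀, zero_mul]
        · rw [h0 j j₀ s e hj₀, mul_zero]
      simp only [h2, expect_const_zero, zero_add]
      rw [Fintype.expect_eq_sum_div_card, sum_eq_single j₀ (fun j _ e => h0 j j₀ s e.symm hj₀)
        (by simp), Fintype.card_fin]
      push_cast
      exact div_le_div_of_nonneg_right (expect_le univ_nonempty fun t _ =>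
        (le_abs_self _).trans (hT _ _)) (by positivity)
  have h2 : (𝔼 s, ind (E s) * (Q s * numt Y m B a y s)) =
      𝔼 s, ind (E s) * 𝔼 j, lineAv a (T j) s := by
    simp only [mul_expect (s := (univ : Finset (Fin (k + 1)))), numt, Av]
    rw [expect_comm]
    symm
    rw [expect_comm]
    exact expect_congr rfl fun j _ => expect_mul_lineAv a _ _ fun t s => ind_congr (hEi t s)
  have h3 : (𝔼 j, 𝔼 ω : Smp Y l d m, 𝔼 s, ind (E (plant s j (gp Y ω)) ∧
      Good (X.rel (Y.build ω.1 ω.2.1)) (part j (z (plant s j (gp Y ω))))) *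
        (Q (plant s j (gp Y ω)) * hv Y B a y j ω (plant s j (gp Y ω)))) =
      𝔼 s, ind (E s) * 𝔼 j, ind (Gd j s) * lineAv a (T j) s := by
    simp only [mul_expect (s := (univ : Finset (Fin (k + 1))))]
    symm
    rw [expect_comm]
    refine expect_congr rfl fun j _ => ?_
    simp only [← mul_assoc, ← ind_and]
    rw [expect_mul_lineAv a (fun s => ind (E s ∧ Gd j s)) _ fun t s => by
      simp only [Gd, hEi, hE.inv, sh_fst]]
    have h4 := expect_mul_plant (gp Y) j fun (ω : Smp Y l d m) (s : State X k l d) =>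
      ind (E s ∧ Gd j s) * Q s * hv Y B a y j ω s
    simp only [Gd, plant_self] at h4
    refine Eq.trans (expect_congr rfl fun s _ => ?_) h4
    simp only [T, Gd, mul_expect]
    exact expect_congr rfl fun ω _ => by ring
  rw [h2, h3, ← Fintype.expect_const (ι := State X k l d) (N / (k + 1)), ← expect_add_distrib]
  refine expect_le_expect fun s _ => ?_
  by_cases h : E s
  · rw [ind_of h, one_mul, one_mul]; exact h1 s
  · rw [ind_of_not h, zero_mul, zero_mul, zero_add]; positivity

end Vale.Agent.P339
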