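import Vale.Agent.P339.Basic

/-!
The bilinear form of a functional on sums of juntas.
-/

namespace Vale.Agent.P339

open Finset Vale.Agent.Lib.PCP
open scoped BigOperators

namespace JuntaAux

/-- The form which measures how far the functional `D` is from being multiplicative. -/
def form {Ω : Type} (D : (Ω → ZMod 2) →ₗ[ZMod 2] ZMod 2) :
    (Ω → ZMod 2) →ₗ[ZMod 2] (Ω → ZMod 2) →ₗ[ZMod 2] ZMod 2 :=
  LinearMap.mk₂ (ZMod 2) (fun f g => D (f * g) + D f * D g)
    (fun f f' g => by rw [add_mul, map_add, map_add]; ring)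
    (fun c f g => by simp only [smul_mul_assoc, map_smul, smul_eq_mul]; ring)
    (fun f g g' => by rw [mul_add, map_add, map_add]; ring)
    (fun c f g => by simp only [mul_smul_comm, map_smul, smul_eq_mul]; ring)

theorem form_apply {Ω : Type} (D : (Ω → ZMod 2) →ₗ[ZMod 2] ZMod 2) (f g : Ω → ZMod 2) :
    form D f g = D (f * g) + D f * D g := rfl

/-- Combinations of monomials. -/
def comb {Ω I : Type} [Fintype I] (mono : I → Ω → ZMod 2) :
    (I → ZMod 2) →ₗ[ZMod 2] Ω → ZMod 2 where
  toFun f α := ∑ i, mono i α * f i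
  map_add' f g := funext fun α => by simp [mul_add, sum_add_distrib]
  map_smul' c f := funext fun α => by simp [mul_sum, mul_left_comm]

theorem comb_eq {Ω I : Type} [Fintype I] (mono : I → Ω → ZMod 2) (f : I → ZMod 2) :
    comb mono f = ∑ i, f i • mono i := funext fun α => by
  simp [comb, mul_comm]

variable {L S : Type} [Fintype L] [DecidableEq L] [Fintype S] [DecidableEq S] (d : ℕ)

/-- The evaluation of tables as a linear map. -/
def evL : (Idx L S d → ZMod 2) →ₗ[ZMod 2] (L → S) → ZMod 2 where
  toFun t := ev t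
  map_add' t t' := funext (ev_add t t')
  map_smul' c t := funext (ev_smul c t)

variable {d}

omit [Fintype S] [DecidableEq S] in
theorem mem_range [Nonempty L] [Nonempty S] {F : (L → S) → ZMod 2} {A : Finset L} (hA : A.card ≤ d)
    (hF : ∀ α β : L → S, (∀ p ∈ A, α p = β p) → F α = F β) : F ∈ LinearMap.range (evL d) := by
  classical
  obtain ⟨p₀⟩ := ‹Nonempty L›
  obtain ⟨s₀⟩ := ‹Nonempty S›
  set c₀ : Fin d → L := fun j => A.toList.getD j p₀ with hc
  refine ⟨fun i => if i.1 = c₀ then F (Function.extend c₀ i.2 fun _ => s₀) else 0, funext fun α => ?_⟩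
  change ∑ c : Fin d → L, (if c = c₀ then F (Function.extend c₀ (α ∘ c) fun _ => s₀) else 0) = _
  rw [sum_ite_eq', if_pos (mem_univ _)]
  refine hF _ _ fun p hp => ?_
  obtain ⟨j, hj, e⟩ := List.getElem_of_mem (mem_toList.2 hp)
  have hex : ∃ j, c₀ j = p := ⟨⟨j, by rw [length_toList] at hj; omega⟩, by
    rw [hc]; exact (List.getD_eq_getElem _ _ hj).trans e⟩
  rw [Function.extend_def, dif_pos hex]
  exact congrArg α (Classical.choose_spec hex)

open Classical in
/-- A functional on all functions which induces `Φ`. -/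
noncomputable def ext (Φ : Idx L S d → ZMod 2) : ((L → S) → ZMod 2) →ₗ[ZMod 2] ZMod 2 :=
  if h : ∃ D : ((L → S) → ZMod 2) →ₗ[ZMod 2] ZMod 2, ∀ t, D (ev t) = Φ ⬝ᵥ t then h.choose else 0

theorem ext_ev {r : Setoid (L → S)} {Φ : Idx L S d → ZMod 2} (h : Good r Φ)
    (t : Idx L S d → ZMod 2) : ext Φ (ev t) = Φ ⬝ᵥ t := by
  have hex : ∃ D : ((L → S) → ZMod 2) →ₗ[ZMod 2] ZMod 2, ∀ t, D (ev t) = Φ ⬝ᵥ t := by
    obtain ⟨α₀, h⟩ := h
    let φ : Module.Dual (ZMod 2) (Idx L S d → ZMod 2) :=
      { toFun := fun t => Φ ⬝ᵥ t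
        map_add' := dotProduct_add Φ
        map_smul' := fun c t => dotProduct_smul c Φ t }
    have h1 : φ ∈ LinearMap.range (evL d).dualMap := by
      rw [LinearMap.range_dualMap_eq_dualAnnihilator_ker, Submodule.mem_dualAnnihilator]
      intro t ht
      have h2 : ∀ α, ev t α = 0 := congrFun ht
      exact (h t fun α β _ => by rw [h2, h2]).trans (h2 _)
    obtain ⟨D, hD⟩ := h1
    exact ⟨D, fun t => LinearMap.congr_fun hD t⟩
  unfold ext
  rw [dif_pos hex]
  exact hex.choose_spec t

theorem ext_good {r : Setoid (L → S)} {Φ : Idx L S d → ZMod 2} (h : Good r Φ) :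
    ∃ α₀, ∀ F ∈ LinearMap.range (evL (L := L) (S := S) d), (∀ α β, r α β → F α = F β) →
      ext Φ F = F α₀ := by
  obtain ⟨α₀, h'⟩ := id h
  refine ⟨α₀, ?_⟩
  rintro _ ⟨t, rfl⟩ ht
  exact (ext_ev h t).trans (h' t ht)

end JuntaAux

open JuntaAux in
/-- The junta theorem. -/
theorem junta_thm : JuntaThm := by
  intro L S _ _ _ _ _ _ d hd
  have h1 : ∀ (p : L) (b : S), ∃ t : Idx L S d → ZMod 2,
      ev t = fun α => if α p = b then 1 else 0 := fun p b =>
    mem_range (A := {p}) (by simpa using hd) fun α β h => by rw [h p (mem_singleton_self p)]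
  choose tb htb using h1
  refine ⟨fun p Ψ => Classical.epsilon fun b => Ψ ⬝ᵥ tb p b = 1, fun I _ _ mono d' hJ hd' =>
    ⟨fun Φ => (form (ext Φ)).compl₁₂ (comb mono) (comb mono), fun Φ f g => ?_,
      fun r Φ hG f g hf hg => ?_, fun r Φ hG p hp => ?_⟩⟩
  · simp only [LinearMap.compl₁₂_apply, form_apply, mul_comm]
  · obtain ⟨α₀, h⟩ := ext_good hG
    choose A hA hA' using hJ
    have m1 : ∀ f, comb mono f ∈ LinearMap.range (evL (L := L) (S := S) d) := fun f => by
      rw [comb_eq]
      exact Submodule.sum_mem _ fun i _ => Submodule.smul_mem _ _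
        (mem_range (le_trans (hA i) (by omega)) (hA' i))
    have m2 : comb mono f * comb mono g ∈ LinearMap.range (evL (L := L) (S := S) d) := by
      rw [comb_eq, comb_eq, sum_mul_sum]
      refine Submodule.sum_mem _ fun i _ => Submodule.sum_mem _ fun j _ => ?_
      rw [smul_mul_smul_comm]
      refine Submodule.smul_mem _ _ (mem_range (A := A i ∪ A j)
        ((card_union_le _ _).trans (by have := hA i; have := hA j; omega)) fun α β e => ?_)
      rw [Pi.mul_apply, Pi.mul_apply, hA' i α β fun p hp => e p (mem_union_left _ hp),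
        hA' j α β fun p hp => e p (mem_union_right _ hp)]
    rw [LinearMap.compl₁₂_apply, form_apply, h _ (m1 f) hf, h _ (m1 g) hg,
      h _ m2 fun α β e => congrArg₂ (· * ·) (hf α β e) (hg α β e)]
    exact f2_add_self _
  · choose e he using hp
    have he' : ∀ s, comb mono (e s) = fun α => if α p = s then 1 else 0 := fun s => funext (he s)
    refine ⟨univ.filter fun s => ext Φ (fun α => if α p = s then 1 else 0) = 1, ?_, fun π => ?_⟩
    · set B := (form (ext Φ)).compl₁₂ (comb mono) (comb mono) with hB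
      have : Finite (LinearMap.range B) := Finite.of_surjective _ B.surjective_rangeRestrict
      have := Fintype.ofFinite (LinearMap.range B)
      rw [Rk, Nat.card_eq_fintype_card, ← card_univ]
      refine card_le_card_of_injOn (fun s => B.rangeRestrict (e s)) (fun _ _ => mem_univ _)
        fun a ha b hb hab => ?_
      by_contra hne
      have h1 := LinearMap.congr_fun (congrArg Subtype.val hab) (e a)
      change B (e a) (e a) = B (e b) (e a) at h1
      simp only [hB, LinearMap.compl₁₂_apply, form_apply, he'] at h1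
      have e1 : ((fun α => if α p = a then 1 else 0) * fun α => if α p = a then 1 else 0 :
          (L → S) → ZMod 2) = fun α => if α p = a then 1 else 0 := funext fun _ => f2_mul_self _
      have e2 : ((fun α => if α p = b then 1 else 0) * fun α => if α p = a then 1 else 0 :
          (L → S) → ZMod 2) = 0 := funext fun α => by
        by_cases h2 : α p = a
        · simp [h2, hne]
        · simp [h2]
      rw [e1, e2, map_zero, (mem_filter.1 ha).2, (mem_filter.1 hb).2] at h1
      revert h1
      decide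
    · have h2 : ∀ b, push π p Φ ⬝ᵥ tb p b = ∑ s, if π s = b then
          ext Φ (fun α => if α p = s then 1 else 0) else 0 := by
        intro b
        rw [← dot_pull, ← ext_ev hG, ← sum_filter, ← map_sum]
        congr 1
        funext α
        rw [ev_pull, htb, Finset.sum_apply, sum_ite_eq]
        simp [upd]
      have h3 : ∑ b, push π p Φ ⬝ᵥ tb p b = 1 := by
        obtain ⟨α₀, h⟩ := ext_good hG
        simp only [h2]
        rw [sum_comm]
        simp only [sum_ite_eq, mem_univ, if_true]
        rw [← map_sum]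
        have e3 : (∑ s : S, fun α : L → S => if α p = s then (1 : ZMod 2) else 0) = fun _ => 1 :=
          funext fun α => by rw [Finset.sum_apply, sum_ite_eq, if_pos (mem_univ _)]
        rw [e3]
        exact h _ (mem_range (A := ∅) (Nat.zero_le _) fun _ _ _ => rfl) fun _ _ _ => rfl
      obtain ⟨b, -, hb⟩ := exists_ne_zero_of_sum_ne_zero (h3.trans_ne one_ne_zero)
      have h4 := Classical.epsilon_spec (p := fun b => push π p Φ ⬝ᵥ tb p b = 1)
        ⟨b, f2_ne_zero.1 hb⟩
      rw [h2] at h4
      obtain ⟨s, -, hs⟩ := exists_ne_zero_of_sum_ne_zero (h4.trans_ne one_ne_zero)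
      split_ifs at hs with h5
      · exact ⟨s, mem_filter.2 ⟨mem_univ _, f2_ne_zero.1 hs⟩, h5⟩
      · exact absurd rfl hs

end Vale.Agent.P339
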