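import Vale.Agent.P339.Basic
import Vale.Agent.P325.Reduce

/-!
The reduction which belongs to a system of tables: right vertices are named by the part of the
partition which is visible.
-/

namespace Vale.Agent.P339

open Finset Vale.Agent.Lib.PCP Vale.Agent.Lib.PolyTime
open scoped BigOperators

namespace Key

section Red

variable {L S D : Type}

/-- The relation does not see the leaf `q`. -/
def Bl (r : Setoid (L → S)) (q : L) : Prop := ∀ α β : L → S, (∀ p, p ≠ q → α p = β p) → r α β

/-- The relation sees the leaf `q` only through `σ`. -/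
def Fac (r : Setoid (L → S)) (q : L) (σ : S → S) : Prop :=
  ∀ α β : L → S, (∀ p, p ≠ q → α p = β p) → σ (α q) = σ (β q) → r α β

open Classical in
/-- The status of a leaf: not seen, seen through a projection, or fully seen. -/
noncomputable def stOf (b : Prop) (F : D → Prop) : Option (Option D) :=
  if b then none else if h : ∃ i, F i then some (some h.choose) else some none

/-- The status of the leaf `q`. -/
noncomputable def st (P : D → S → S) (r : Setoid (L → S)) (q : L) : Option (Option D) :=
  stOf (Bl r q) fun i => Fac r q (P i)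

/-- The visible part of a label. -/
def lr (P : D → S → S) : Option (Option D) → S → Option S
  | none, _ => none
  | some none, s => some s
  | some (some i), s => some (P i s)

/-- The visible part of an assignment. -/
noncomputable def red (P : L → D → S → S) (r : Setoid (L → S)) (α : L → S) : L → Option S :=
  fun q => lr (P q) (st (P q) r q) (α q)

theorem rel_of_lr {P : D → S → S} {r : Setoid (L → S)} {q : L} {α β : L → S}
    (h : ∀ p, p ≠ q → α p = β p) (h' : lr P (st P r q) (α q) = lr P (st P r q) (β q)) :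
    r α β := by
  unfold st stOf at h'
  split_ifs at h' with h1 h2
  · exact h1 α β h
  · exact h2.choose_spec α β h (Option.some.inj h')
  · have : α = β := funext fun p => by
      by_cases e : p = q
      · subst e; exact Option.some.inj h'
      · exact h p e
    rw [this]

theorem rel_of_red [Fintype L] [DecidableEq L] {P : L → D → S → S} {r : Setoid (L → S)}
    {α β : L → S} (h : red P r α = red P r β) : r α β := by
  have key : ∀ A : Finset L, r α fun p => if p ∈ A then β p else α p := by
    intro A
    induction A using Finset.induction_on with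
    | empty => simp
    | insert q A hq ih =>
      refine r.trans ih (rel_of_lr (P := P q) (q := q) (fun p hp => by simp [hp]) ?_)
      rw [if_neg hq, if_pos (mem_insert_self q A)]
      exact congrFun h q
  simpa using key univ

/-- The visible relation. -/
def vis (P : L → D → S → S) (r : Setoid (L → S)) (a b : L → Option S) : Prop :=
  ∃ α β, red P r α = a ∧ red P r β = b ∧ r α β

/-- The label of the class of `α`. -/
noncomputable def rep (P : L → D → S → S) (r : Setoid (L → S)) (α : L → S) : L → Option S :=
  Classical.epsilon (vis P r (red P r α))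

theorem rep_spec [Fintype L] [DecidableEq L] (P : L → D → S → S) (r : Setoid (L → S))
    (α : L → S) : ∃ β, red P r β = rep P r α ∧ r α β := by
  obtain ⟨α', β, h1, h2, h3⟩ : vis P r (red P r α) (rep P r α) :=
    Classical.epsilon_spec ⟨_, α, α, rfl, rfl, r.refl α⟩
  exact ⟨β, h2, r.trans (rel_of_red h1.symm) h3⟩

theorem rel_of_rep [Fintype L] [DecidableEq L] {P : L → D → S → S} {r : Setoid (L → S)}
    {α β : L → S} (h : rep P r α = rep P r β) : r α β := by
  obtain ⟨γ, h1, h2⟩ := rep_spec P r α
  obtain ⟨γ', h3, h4⟩ := rep_spec P r β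
  exact r.trans h2 (r.trans (rel_of_red (h1.trans (h.trans h3.symm))) (r.symm h4))

theorem rep_congr [Fintype L] [DecidableEq L] (P : L → D → S → S) {r : Setoid (L → S)}
    {α β : L → S} (h : r α β) : rep P r α = rep P r β := by
  have key : ∀ {α β : L → S}, r α β → ∀ b, vis P r (red P r α) b → vis P r (red P r β) b := by
    rintro α β h b ⟨α', γ, h1, h2, h3⟩
    exact ⟨β, γ, rfl, h2, r.trans (r.symm h) (r.trans (rel_of_red h1.symm) h3)⟩
  unfold rep
  congr 1
  exact funext fun b => propext ⟨key h b, key (r.symm h) b⟩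

/-- An assignment in the class with the label `b`, if there is one. -/
noncomputable def dec [Nonempty S] (P : L → D → S → S) (r : Setoid (L → S)) (b : L → Option S) :
    L → S :=
  Classical.epsilon fun α => red P r α =
    Classical.epsilon fun a => vis P r a a ∧ (vis P r b b → a = b)

theorem dec_aux [Nonempty S] (P : L → D → S → S) (r : Setoid (L → S)) (b : L → Option S) :
    (fun a => vis P r a a ∧ (vis P r b b → a = b))
      (Classical.epsilon fun a => vis P r a a ∧ (vis P r b b → a = b)) := by
  refine Classical.epsilon_spec (p := fun a => vis P r a a ∧ (vis P r b b → a = b)) ?_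
  by_cases h : vis P r b b
  · exact ⟨b, h, fun _ => rfl⟩
  · obtain ⟨α⟩ : Nonempty (L → S) := inferInstance
    exact ⟨_, ⟨α, α, rfl, rfl, r.refl α⟩, fun h' => absurd h' h⟩

theorem red_dec [Nonempty S] (P : L → D → S → S) (r : Setoid (L → S)) (b : L → Option S) :
    red P r (dec P r b) = Classical.epsilon fun a => vis P r a a ∧ (vis P r b b → a = b) := by
  obtain ⟨α, -, h, -⟩ := (dec_aux P r b).1
  exact Classical.epsilon_spec (p := fun α => red P r α =
    Classical.epsilon fun a => vis P r a a ∧ (vis P r b b → a = b)) ⟨α, h⟩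

theorem rel_dec [Nonempty S] [Fintype L] [DecidableEq L] (P : L → D → S → S) (r : Setoid (L → S))
    (α : L → S) : r α (dec P r (rep P r α)) := by
  obtain ⟨β, h1, h2⟩ := rep_spec P r α
  refine r.trans h2 (rel_of_red (P := P) ?_)
  rw [red_dec, (dec_aux P r _).2 ⟨β, β, h1, h1, r.refl β⟩, h1]

/-! ### Locality -/

variable [DecidableEq L]

theorem upd_ne (π : S → S) {p q : L} (h : q ≠ p) (α : L → S) : upd π p α q = α q :=
  Function.update_of_ne h _ _

theorem upd_self (π : S → S) (p : L) (α : L → S) : upd π p α p = π (α p) :=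
  Function.update_self _ _ _

theorem upd_upd (π τ : S → S) (p : L) (α : L → S) :
    upd π p (upd τ p α) = upd (π ∘ τ) p α := by
  simp [upd]

theorem upd_off (τ : S → S) (p : L) {q : L} {α β : L → S} (h : ∀ p', p' ≠ q → α p' = β p') :
    ∀ p', p' ≠ q → upd τ p α p' = upd τ p β p' := fun p' hp' => by
  by_cases e : p' = p
  · subst e; rw [upd_self, upd_self, h _ hp']
  · rw [upd_ne _ e, upd_ne _ e, h _ hp']

theorem Bl.transfer {r : Setoid (L → S)} {π π' τ : S → S} (hτ : π ∘ τ = π') {p q : L}
    (h : Bl (r.comap (upd π p)) q) : Bl (r.comap (upd π' p)) q := fun α β hαβ => by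
  have := h _ _ (upd_off τ p hαβ)
  rwa [Setoid.comap_rel, upd_upd, upd_upd, hτ] at this

theorem Fac.transfer {r : Setoid (L → S)} {π π' τ σ : S → S} (hτ : π ∘ τ = π') {p q : L}
    (hq : q ≠ p) (h : Fac (r.comap (upd π p)) q σ) : Fac (r.comap (upd π' p)) q σ :=
  fun α β hαβ hσ => by
    have := h _ _ (upd_off τ p hαβ) (by rwa [upd_ne _ hq, upd_ne _ hq])
    rwa [Setoid.comap_rel, upd_upd, upd_upd, hτ] at this

theorem fac_comap (r : Setoid (L → S)) (π : S → S) (p : L) : Fac (r.comap (upd π p)) p π :=
  fun α β h h' => by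
    have : upd π p α = upd π p β := funext fun q => by
      by_cases e : q = p
      · subst e; rw [upd_self, upd_self, h']
      · rw [upd_ne _ e, upd_ne _ e, h _ e]
    rw [Setoid.comap_rel, this]

/-- Two different projections generate the total relation. -/
def Gen (P : D → S → S) : Prop :=
  ∀ i i', i ≠ i' → ∃ t₀, ∀ s, ∃ t, P i s = P i t ∧ P i' t = P i' t₀

theorem st_eq {P : D → S → S} (hP : Gen P) {r : Setoid (L → S)} {q : L} {i : D}
    (h : Fac r q (P i)) (hb : ¬ Bl r q) : st P r q = some (some i) := by
  have hex : ∃ i, Fac r q (P i) := ⟨i, h⟩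
  unfold st stOf
  rw [if_neg hb, dif_pos hex]
  congr 2
  by_contra hne
  obtain ⟨t₀, ht⟩ := hP _ _ hne
  have key : ∀ α : L → S, r α (Function.update α q t₀) := fun α => by
    obtain ⟨t, h1, h2⟩ := ht (α q)
    exact r.trans (hex.choose_spec α (Function.update α q t) (fun p hp => by simp [hp])
      (by simpa using h1)) (h _ _ (fun p hp => by simp [hp]) (by simpa using h2))
  refine hb fun α β hαβ => r.trans (key α) ?_
  have : Function.update α q t₀ = Function.update β q t₀ := funext fun p => by
    by_cases e : p = q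
    · subst e; simp
    · simp [e, hαβ p e]
  rw [this]
  exact r.symm (key β)

omit [DecidableEq L] in
theorem st_none (P : D → S → S) {r : Setoid (L → S)} {q : L} (h : Bl r q) : st P r q = none :=
  if_pos h

/-- The data of the locality lemma. -/
structure Pair (P P' : L → D → S → S) (p : L) (i i' : D) : Prop where
  off : ∀ q, q ≠ p → P q = P' q
  gen : Gen (P p)
  gen' : Gen (P' p)
  rng : Set.range (P p i) = Set.range (P' p i')

variable {P P' : L → D → S → S} {p : L} {i i' : D}

omit [DecidableEq L] in
theorem Pair.symm (h : Pair P P' p i i') : Pair P' P p i' i :=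
  ⟨fun q hq => (h.off q hq).symm, h.gen', h.gen, h.rng.symm⟩

omit [DecidableEq L] in
theorem Pair.lift (h : Pair P P' p i i') : ∃ τ, P p i ∘ τ = P' p i' := by
  have : ∀ s, ∃ t, P p i t = P' p i' s := fun s => by
    have : P' p i' s ∈ Set.range (P p i) := h.rng ▸ ⟨s, rfl⟩
    exact this
  choose τ hτ using this
  exact ⟨τ, funext hτ⟩

theorem Pair.bl (h : Pair P P' p i i') (r : Setoid (L → S)) (q : L) :
    Bl (r.comap (upd (P p i) p)) q ↔ Bl (r.comap (upd (P' p i') p)) q := by
  obtain ⟨τ, hτ⟩ := h.lift
  obtain ⟨τ', hτ'⟩ := h.symm.lift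
  exact ⟨Bl.transfer hτ, Bl.transfer hτ'⟩

theorem Pair.st_ne (h : Pair P P' p i i') (r : Setoid (L → S)) {q : L} (hq : q ≠ p) :
    st (P q) (r.comap (upd (P p i) p)) q = st (P' q) (r.comap (upd (P' p i') p)) q := by
  obtain ⟨τ, hτ⟩ := h.lift
  obtain ⟨τ', hτ'⟩ := h.symm.lift
  unfold st
  rw [← h.off q hq, propext (h.bl r q)]
  congr 1
  exact funext fun j => propext ⟨Fac.transfer hτ hq, Fac.transfer hτ' hq⟩

theorem Pair.st_self (h : Pair P P' p i i') (r : Setoid (L → S)) :
    (st (P p) (r.comap (upd (P p i) p)) p = none ∧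
      st (P' p) (r.comap (upd (P' p i') p)) p = none) ∨
    (st (P p) (r.comap (upd (P p i) p)) p = some (some i) ∧
      st (P' p) (r.comap (upd (P' p i') p)) p = some (some i')) := by
  by_cases hb : Bl (r.comap (upd (P p i) p)) p
  · exact Or.inl ⟨st_none _ hb, st_none _ ((h.bl r p).1 hb)⟩
  · exact Or.inr ⟨st_eq h.gen (fac_comap _ _ _) hb,
      st_eq h.gen' (fac_comap _ _ _) fun hb' => hb ((h.bl r p).2 hb')⟩

theorem Pair.red_eq (h : Pair P P' p i i') (r : Setoid (L → S)) {α β : L → S}
    (e : upd (P p i) p α = upd (P' p i') p β) :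
    red P (r.comap (upd (P p i) p)) α = red P' (r.comap (upd (P' p i') p)) β := by
  funext q
  have e1 := congrFun e q
  unfold red
  by_cases hq : q = p
  · subst hq
    rw [upd_self, upd_self] at e1
    rcases h.st_self r with ⟨a, b⟩ | ⟨a, b⟩
    · rw [a, b]; rfl
    · rw [a, b]; exact congrArg some e1
  · rw [upd_ne _ hq, upd_ne _ hq] at e1
    rw [h.st_ne r hq, e1, h.off q hq]

theorem Pair.vis_imp (h : Pair P P' p i i') (r : Setoid (L → S)) {a b : L → Option S}
    (hv : vis P' (r.comap (upd (P' p i') p)) a b) : vis P (r.comap (upd (P p i) p)) a b := by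
  obtain ⟨τ, hτ⟩ := h.lift
  obtain ⟨α, β, h1, h2, h3⟩ := hv
  refine ⟨upd τ p α, upd τ p β, ?_, ?_, ?_⟩
  · rw [← h1]; exact h.red_eq r (by rw [upd_upd, hτ])
  · rw [← h2]; exact h.red_eq r (by rw [upd_upd, hτ])
  · rw [Setoid.comap_rel, upd_upd, upd_upd, hτ]; exact h3

theorem Pair.vis_eq (h : Pair P P' p i i') (r : Setoid (L → S)) :
    vis P (r.comap (upd (P p i) p)) = vis P' (r.comap (upd (P' p i') p)) :=
  funext fun _ => funext fun _ => propext ⟨h.symm.vis_imp r, h.vis_imp r⟩

theorem Pair.dec [Nonempty S] [Fintype L] (h : Pair P P' p i i') (r : Setoid (L → S))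
    (b : L → Option S) : r (upd (P p i) p (dec P (r.comap (upd (P p i) p)) b))
      (upd (P' p i') p (dec P' (r.comap (upd (P' p i') p)) b)) := by
  obtain ⟨τ, hτ⟩ := h.lift
  have e : upd (P p i) p (upd τ p (Key.dec P' (r.comap (upd (P' p i') p)) b)) =
      upd (P' p i') p (Key.dec P' (r.comap (upd (P' p i') p)) b) := by rw [upd_upd, hτ]
  rw [← e]
  refine rel_of_red (P := P) (r := r.comap (upd (P p i) p)) ?_
  rw [h.red_eq r e, red_dec, red_dec, h.vis_eq r]

end Red

/-! ### The game -/

section Game

variable {D S : Type} [Fintype S] (X : Sys S)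

/-- The name of the vertex which is seen at a leaf. -/
def nameOf (c : StarData D S) : Option (Option D) → Option (ℕ ⊕ ℕ)
  | none => none
  | some none => some (Sum.inr c.1)
  | some (some i) => some (Sum.inl (c.2 i).1)

/-- The projections of a tuple of stars. -/
def prj {L : Type} (T : L → StarData D S) : L → D → S → S := fun p i => ((T p).2 i).2

/-- The number of an element of a finite type. -/
noncomputable def code {A : Type} [Finite A] (a : A) : ℕ := (Finite.equivFin A a : ℕ)

theorem code_injective {A : Type} [Finite A] : Function.Injective (code : A → ℕ) :=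
  fun _ _ h => (Finite.equivFin A).injective (Fin.ext h)

/-- The left vertex. -/
noncomputable def left (T : X.L → StarData D S) (t : X.T) : (X.L → ℕ) × ℕ :=
  (fun p => (T p).1, code t)

/-- The right vertex. -/
noncomputable def key (T : X.L → StarData D S) (r : Setoid (X.L → S)) : (X.L → ℕ) × ℕ :=
  (fun p => name (nameOf (T p) (st (prj T p) r p)), code (vis (prj T) r))

open Classical in
/-- The constraint map. -/
noncomputable def emap (P : X.L → D → S → S) (r₀ r : Setoid (X.L → S)) [Nonempty S]
    (α : X.L → S) : Option (X.L → Option S) :=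
  if α = Classical.epsilon (r₀ α) then some (rep P r α) else none

variable [Nonempty S]

/-- The constraint of a tuple of stars, a sample and a level. -/
noncomputable def edge (T : X.L → StarData D S) (w : X.Ω × X.H) :
    HEdge ((X.L → ℕ) × ℕ) (X.L → S) (X.L → Option S) :=
  (left X T (X.tab w.1), key X T (X.hole w.2 w.1),
    emap X (prj T) (X.rel (X.tab w.1)) (X.hole w.2 w.1))

/-- The game. -/
noncomputable def game (l : List (StarData D S)) :
    List (HEdge ((X.L → ℕ) × ℕ) (X.L → S) (X.L → Option S)) :=
  (P325.tuples X.L (0, fun _ => (0, id)) l).flatMap fun T =>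
    (univ : Finset (X.Ω × X.H)).toList.map (edge X T)

theorem length_game (l : List (StarData D S)) :
    (game X l).length = Fintype.card (X.Ω × X.H) * l.length ^ Fintype.card X.L := by
  rw [game, length_flatMap_const _ _ (Fintype.card (X.Ω × X.H)) fun T _ => by
    rw [List.length_map, length_univ_toList], P325.length_tuples]

theorem game_ne_nil [Nonempty X.H] {l : List (StarData D S)} (h : l ≠ []) : game X l ≠ [] := by
  rw [← List.length_pos_iff, length_game]
  exact Nat.mul_pos Fintype.card_pos (Nat.pow_pos (List.length_pos_iff.2 h))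

theorem mem_game {l : List (StarData D S)} (h : l ≠ []) {c} (hc : c ∈ game X l) :
    ∃ T w, (∀ p, T p ∈ l) ∧ c = edge X T w := by
  simp only [game, P325.tuples, List.mem_flatMap, List.mem_map] at hc
  obtain ⟨_, ⟨u, -, rfl⟩, w, -, rfl⟩ := hc
  refine ⟨_, w, fun p => ?_, rfl⟩
  rw [List.getD_eq_getElem _ _ (dig_lt (List.length_pos_iff.2 h) _ _)]
  exact List.getElem_mem _

theorem PT_game [Fintype D] [Enc S] [EncInj S] : PT ∅ (game (D := D) X) := by
  have hP : PT ∅ (prj : (X.L → StarData D S) → X.L → D → S → S) :=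
    PT.funMk fun p => PT.funMk fun i => (PT.funAt (PT.funAt PT.id p).snd i).snd
  refine PT.flatMap (f := fun _ T => (univ : Finset (X.Ω × X.H)).toList.map (edge X T))
    (P325.PT_tuples _) (PT.comp (g := fun T : X.L → StarData D S =>
      (univ : Finset (X.Ω × X.H)).toList.map fun w => edge X T w)
      (PT.mapConst _ fun w _ => ?_) PT.snd')
  refine ((PT.funMk fun p => (PT.funAt PT.id p).fst).pair (PT.const _)).pair
    (((PT.funMk fun p => PT.name ?_).pair
      (PT.finComp (fun P => code (vis P (X.hole w.2 w.1))) hP)).pair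
      (PT.finComp (fun P => emap X P (X.rel (X.tab w.1)) (X.hole w.2 w.1)) hP))
  refine PT.finCase (f := fun P (T : X.L → StarData D S) =>
    nameOf (T p) (st (P p) (X.hole w.2 w.1) p)) hP fun P => ?_
  rcases st (P p) (X.hole w.2 w.1) p with _ | _ | i
  · exact PT.const none
  · exact PT.some (PT.inr (PT.funAt PT.id p).fst)
  · exact PT.some (PT.inl (PT.funAt (PT.funAt PT.id p).snd i).fst)

omit [Fintype S] in
theorem eps_congr {A : Type} [Nonempty A] {r : Setoid A} {α β : A} (h : r α β) :
    Classical.epsilon (r α) = Classical.epsilon (r β) := by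
  congr 1
  exact funext fun γ => propext ⟨fun h' => r.trans (r.symm h) h', fun h' => r.trans h h'⟩

omit [Fintype S] in
theorem emap_some {P : X.L → D → S → S} {r₀ r : Setoid (X.L → S)} {α b}
    (h : emap X P r₀ r α = some b) : α = Classical.epsilon (r₀ α) ∧ rep P r α = b := by
  unfold emap at h
  split_ifs at h with h1
  exact ⟨h1, Option.some.inj h⟩

theorem atMostTwo (hX : X.TwoOne) (T : X.L → StarData D S) (w : X.Ω × X.H) :
    AtMostTwo (edge X T w).2.2 := by
  intro a a' a'' b h1 h2 h3
  obtain ⟨a1, b1⟩ := emap_some X h1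
  obtain ⟨a2, b2⟩ := emap_some X h2
  obtain ⟨a3, b3⟩ := emap_some X h3
  rcases (hX w.2 w.1).2 a a' a'' (rel_of_rep (b1.trans b2.symm)) (rel_of_rep (b1.trans b3.symm))
    with h | h | h
  · exact Or.inl (a1.trans ((eps_congr h).trans a2.symm))
  · exact Or.inr (Or.inl (a1.trans ((eps_congr h).trans a3.symm)))
  · exact Or.inr (Or.inr (a2.trans ((eps_congr h).trans a3.symm)))

theorem complete [DecidableEq S] (hX : X.TwoOne) (f g : ℕ → S) :
    ∃ lab, ∀ (T : X.L → StarData D S) (w : X.Ω × X.H),
      (∀ p i, ((T p).2 i).2 (f (T p).1) = g ((T p).2 i).1) → satH (edge X T w) lab = true := by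
  refine ⟨(fun v => Classical.epsilon (X.rel (Function.invFun code v.2) fun p => f (v.1 p)),
    fun v => Classical.epsilon ((Function.invFun code v.2 :
      (X.L → Option S) → (X.L → Option S) → Prop)
      fun p => (Function.invFun name (v.1 p) : Option (ℕ ⊕ ℕ)).map (Sum.elim g f))),
    fun T w h => ?_⟩
  have h1 : X.rel (X.tab w.1) (fun p => f (T p).1)
      (Classical.epsilon (X.rel (X.tab w.1) fun p => f (T p).1)) :=
    Classical.epsilon_spec ⟨_, (X.rel (X.tab w.1)).refl _⟩
  have e1 : Function.invFun code (code (X.tab w.1)) = X.tab w.1 :=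
    Function.leftInverse_invFun code_injective _
  refine decide_eq_true ?_
  change emap X (prj T) (X.rel (X.tab w.1)) (X.hole w.2 w.1)
    (Classical.epsilon (X.rel (Function.invFun code (code (X.tab w.1))) fun p => f (T p).1)) =
    some (Classical.epsilon ((Function.invFun code (code (vis (prj T) (X.hole w.2 w.1))) :
      (X.L → Option S) → (X.L → Option S) → Prop) fun p => (Function.invFun name
        (name (nameOf (T p) (st (prj T p) (X.hole w.2 w.1) p))) : Option (ℕ ⊕ ℕ)).map
          (Sum.elim g f)))
  simp only [Function.leftInverse_invFun name_injective _]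
  rw [e1, Function.leftInverse_invFun code_injective _]
  rw [emap, if_pos (eps_congr h1), ← rep_congr _ ((hX w.2 w.1).1 _ _ h1), rep]
  congr 3
  funext p
  unfold red
  rcases st (prj T p) (X.hole w.2 w.1) p with _ | _ | i
  · rfl
  · rfl
  · exact congrArg some (h p i)

theorem loc {l : List (StarData D S)} (hl : Nice l) (g : (X.L → ℕ) × ℕ → X.L → Option S)
    (p : X.L) : Loc (starOf l) (fun x r => dec (prj fun q => l[x q]) r
      (g (key X (fun q => l[x q]) r))) p := by
  intro x u u' i i' r hn
  set T : X.L → StarData D S := fun q => l[Function.update x p u q] with hT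
  set T' : X.L → StarData D S := fun q => l[Function.update x p u' q] with hT'
  have e1 : T p = l[u] := by simp [hT]
  have e2 : T' p = l[u'] := by simp [hT']
  have e3 : ∀ q, q ≠ p → T q = T' q := fun q hq => by simp [hT, hT', hq]
  have hp : Pair (prj T) (prj T') p i i' :=
    ⟨fun q hq => by unfold prj; rw [e3 q hq], hl.2 _ (List.getElem_mem _),
      hl.2 _ (List.getElem_mem _), hl.1 _ (List.getElem_mem _) _ (List.getElem_mem _) _ _⟩
  have e4 : (starOf l).proj u i = prj T p i := by unfold prj; rw [e1]; rfl
  have e5 : (starOf l).proj u' i' = prj T' p i' := by unfold prj; rw [e2]; rfl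
  have e6 : key X T (r.comap (upd (prj T p i) p)) = key X T' (r.comap (upd (prj T' p i') p)) := by
    refine Prod.ext (funext fun q => congrArg name ?_) (congrArg code (hp.vis_eq r))
    by_cases hq : q = p
    · subst hq
      rcases hp.st_self r with ⟨a, b⟩ | ⟨a, b⟩
      · rw [a, b]; rfl
      · rw [a, b, e1, e2]; exact congrArg (fun n => some (Sum.inl n)) hn
    · rw [hp.st_ne r hq, e3 q hq]
  rw [e4, e5]
  change r (upd _ p (dec (prj T) _ (g (key X T _)))) (upd _ p (dec (prj T') _ (g (key X T' _))))
  rw [e6]
  exact hp.dec r _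

theorem sound [DecidableEq S] [Fintype D] [Nonempty D] [Nonempty X.H] {θ δ : ℝ}
    (hX : X.Sound θ δ) {l : List (StarData D S)} (h : (StarP D S θ).no l) (lab) :
    (cnt satH (game X l) lab : ℝ) ≤ δ * (game X l).length := by
  have : Nonempty (Fin l.length) := ⟨⟨0, List.length_pos_iff.2 h.1⟩⟩
  have h1 := hX _ _ _ (starOf l) h.2.2 (fun x t => lab.1 (left X (fun q => l[x q]) t))
    _ (loc X h.2.1 lab.2)
  refine le_trans ?_ (mul_le_mul_of_nonneg_right h1 (Nat.cast_nonneg _))
  rw [cnt_eq_sum, length_game, game, sum_map_flatMap, P325.sum_tuples,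
    ← Fintype.card_mul_expect, Fintype.card_fun, Fintype.card_fin]
  push_cast
  rw [mul_comm (Fintype.card (X.Ω × X.H) : ℝ), mul_comm (𝔼 x, _), mul_assoc]
  refine mul_le_mul_of_nonneg_left ?_ (by positivity)
  rw [mul_expect]
  refine expect_le_expect fun x _ => ?_
  rw [List.map_map, sum_map_univ, ← Fintype.card_mul_expect, expect_prod]
  refine mul_le_mul_of_nonneg_left (expect_le_expect fun ω _ => expect_le_expect fun h _ => ?_)
    (Nat.cast_nonneg _)
  rw [Function.comp_apply, ← ind_eq_ite]
  refine ind_mono fun hs => ?_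
  have h2 : rep (prj fun q => l[x q]) (X.hole h ω) (lab.1 (left X (fun q => l[x q]) (X.tab ω))) =
      lab.2 (key X (fun q => l[x q]) (X.hole h ω)) := (emap_some X (of_decide_eq_true hs)).2
  have h3 := rel_dec (prj fun q => l[x q]) (X.hole h ω) (lab.1 (left X (fun q => l[x q]) (X.tab ω)))
  rw [h2] at h3
  exact h3

end Game

end Key

open Key in
/-- The reduction from label cover in star form. -/
theorem key_thm : KeyThm := by
  intro D S _ _ _ _ _ _ _ X θ δ hH h1 h2
  refine ⟨game X, PT_game X, fun l hl => ⟨fun c hc => ?_, ?_⟩,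
    fun l hl => ⟨fun c hc => ?_, game_ne_nil X hl.1, sound X h2 hl⟩⟩
  · obtain ⟨T, w, -, rfl⟩ := mem_game X hl.1 hc
    exact atMostTwo X h1 T w
  · obtain ⟨f, g, hfg⟩ := hl.2.2
    obtain ⟨lab, hlab⟩ := complete (D := D) X h1 f g
    refine gap_yes_one.2 ⟨game_ne_nil X hl.1, lab, fun c hc => ?_⟩
    obtain ⟨T, w, hT, rfl⟩ := mem_game X hl.1 hc
    exact hlab T w fun p i => hfg _ (hT p) i
  · obtain ⟨T, w, -, rfl⟩ := mem_game X hl.1 hc
    exact atMostTwo X h1 T w

end Vale.Agent.P339
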