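import Vale.Agent.P339.Basic

/-!
The test of the new level and the test of an old level rarely accept together.
-/

namespace Vale.Agent.P339

open Finset Vale.Agent.Lib.PCP Vale.Agent.P325
open scoped BigOperators

namespace MainAux

variable {S : Type} [Fintype S] [DecidableEq S] {X : Sys S} {l' : ℕ} (Y : Inn X l') {k l d m : ℕ}

/-- Both tests accept at the state with the planted cell `(t, M)`. -/
def Both (A : State X k l d → Asg X k) (B : Setoid (Asg X k) → Asg X k) (j : Fin (k + 1))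
    (s : State X k l d) (w : Vec l) (r : Setoid (X.L → S)) : Prop :=
  relTop s w (A s) (B (relTop s w)) ∧ relIn j r s (A s) (B (relIn j r s))

theorem abs_expect_le_one {A : Type} [Fintype A] {F : A → ℝ} (h : ∀ a, |F a| ≤ 1) :
    |𝔼 a, F a| ≤ 1 := by
  rcases isEmpty_or_nonempty A with h0 | h0
  · simp
  · exact (abs_expect_le _ _).trans (expect_le univ_nonempty fun a _ => h a)

theorem close_step {h : X.H} {e : ℝ} (hY : Y.Close h e) (A : State X k l d → Asg X k)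
    (B : Setoid (Asg X k) → Asg X k) :
    (𝔼 ω : (X.step k l d m).Ω, ind ((X.step k l d m).Pass A B none ω ∧
        (X.step k l d m).Pass A B (some h) ω)) ≤
      (𝔼 j, 𝔼 ω : Smp Y l d m, 𝔼 s, 𝔼 w,
        ind (Both A B j (plant s j (gp Y ω)) w (Y.hol ω.1 ω.2.1 ω.2.2.1))) + e := by
  let F : Fin (k + 1) → X.T → Setoid (X.L → S) → ℝ := fun j t r =>
    𝔼 cs : Coins X.L S l d m, 𝔼 s, 𝔼 w, ind (Both A B j (plant s j (t, plantM cs)) w r)
  have h1 : (𝔼 ω : (X.step k l d m).Ω, ind ((X.step k l d m).Pass A B none ω ∧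
      (X.step k l d m).Pass A B (some h) ω)) = 𝔼 j, 𝔼 ω, F j (X.tab ω) (X.hole h ω) := by
    have e1 : (𝔼 ω : (X.step k l d m).Ω, ind ((X.step k l d m).Pass A B none ω ∧
        (X.step k l d m).Pass A B (some h) ω)) =
        𝔼 ω : Fin (k + 1) × State X k l d × X.Ω × Coins X.L S l d m × Vec l,
          ind (Both A B ω.1 (plant ω.2.1 ω.1 (X.tab ω.2.2.1, plantM ω.2.2.2.1)) ω.2.2.2.2
            (X.hole h ω.2.2.1)) := rfl
    rw [e1, expect_prod]
    refine expect_congr rfl fun j _ => ?_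
    rw [expect_prod (A := State X k l d)]
    simp only [expect_prod (A := X.Ω), expect_prod (A := Coins X.L S l d m)]
    rw [expect_comm (ι := State X k l d) (κ := X.Ω)]
    refine expect_congr rfl fun ω _ => ?_
    rw [expect_comm (ι := State X k l d) (κ := Coins X.L S l d m)]
  have h2 : ∀ j, (𝔼 ω : Smp Y l d m, 𝔼 s, 𝔼 w,
      ind (Both A B j (plant s j (gp Y ω)) w (Y.hol ω.1 ω.2.1 ω.2.2.1))) =
      𝔼 ρ, 𝔼 z, 𝔼 w, F j (Y.build ρ z) (Y.hol ρ z w) := by
    intro j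
    rw [expect_prod (A := Y.R)]
    refine expect_congr rfl fun ρ _ => ?_
    rw [expect_prod (A := Y.I → Vec l')]
    refine expect_congr rfl fun z _ => ?_
    rw [expect_prod (A := Vec l')]
    rfl
  rw [h1]
  simp only [h2]
  have h3 : ∀ j, (𝔼 ω, F j (X.tab ω) (X.hole h ω)) ≤
      (𝔼 ρ, 𝔼 z, 𝔼 w, F j (Y.build ρ z) (Y.hol ρ z w)) + e := fun j =>
    hY (F j) fun t r => abs_expect_le_one fun _ => abs_expect_le_one fun _ =>
      abs_expect_le_one fun _ => abs_ind_le _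
  refine (expect_le_expect fun j _ => h3 j).trans (le_of_eq ?_)
  rw [expect_add_distrib, Fintype.expect_const]

/-- A leaf below the child `j` which is free, not seen, and masked. -/
def Lucky {C : Type} (c₀ : C) (κ : X.L → C) (ω : Smp Y l d m) (p : X.L) : Prop :=
  κ p = c₀ ∧ Blind (X.rel (Y.build ω.1 ω.2.1)) p ∧ Spans (Y.mono ω.1) p ∧
    ∀ b, (ω.2.2.2 b).1 p = 0

/-- Regrouping of the coins. -/
def coinEquiv (L I C V M : Type) :
    (L → C) × (V → (L → M) × I) ≃ (L → C × (V → M)) × (V → I) where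
  toFun x := (fun p => (x.1 p, fun b => (x.2 b).1 p), fun b => (x.2 b).2)
  invFun y := (fun p => (y.1 p).1, fun b => (fun p => (y.1 p).2 b, y.2 b))
  left_inv _ := rfl
  right_inv _ := rfl

theorem leaf_step {N : ℕ} {e : ℝ} (hY : Y.Leaf (N * (m + 1) ^ 2 ^ l) e) {C : Type} [Fintype C]
    (c₀ : C) (hC : Fintype.card C ≤ N) :
    (𝔼 κ : Fin (k + 1) × X.L → C, 𝔼 j, 𝔼 ω : Smp Y l d m,
      ind (¬ ∃ p, Lucky Y c₀ (sub j κ) ω p)) ≤ e := by
  have : Nonempty C := ⟨c₀⟩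
  have hc : Fintype.card (C × (Vec l → Fin (m + 1))) ≤ N * (m + 1) ^ 2 ^ l := by
    rw [Fintype.card_prod]
    refine Nat.mul_le_mul hC (le_of_eq ?_)
    simp
  have h1 := hY (C × (Vec l → Fin (m + 1))) (c₀, 0) hc
  let g : (X.L → C × (Vec l → Fin (m + 1))) → ℝ := fun κ => 𝔼 ρ, 𝔼 z,
    ind (¬ ∃ p, κ p = (c₀, 0) ∧ Blind (X.rel (Y.build ρ z)) p ∧ Spans (Y.mono ρ) p)
  have h2 : ∀ y : X.L → C, (𝔼 ω : Smp Y l d m, ind (¬ ∃ p, Lucky Y c₀ y ω p)) =
      𝔼 cs : Coins X.L S l d m, g (coinEquiv _ _ _ _ _ (y, cs)).1 := by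
    intro y
    simp only [expect_prod, g]
    rw [expect_comm (ι := Coins X.L S l d m)]
    refine expect_congr rfl fun ρ _ => ?_
    rw [expect_comm (ι := Coins X.L S l d m)]
    refine expect_congr rfl fun z _ => ?_
    have e1 : ∀ w : Vec l', (𝔼 cs : Coins X.L S l d m, ind (¬ ∃ p, Lucky Y c₀ y (ρ, z, w, cs) p)) =
        𝔼 cs : Coins X.L S l d m, ind (¬ ∃ p, (coinEquiv _ _ _ _ _ (y, cs)).1 p = (c₀, 0) ∧
          Blind (X.rel (Y.build ρ z)) p ∧ Spans (Y.mono ρ) p) := by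
      intro w
      refine expect_congr rfl fun cs _ => ind_congr (not_congr (exists_congr fun p => ?_))
      simp only [Lucky, coinEquiv, Equiv.coe_fn_mk, Prod.mk.injEq, funext_iff, Pi.zero_apply]
      tauto
    simp only [e1, Fintype.expect_const]
  have h3 : (𝔼 y : X.L → C, 𝔼 cs : Coins X.L S l d m, g (coinEquiv _ _ _ _ _ (y, cs)).1) =
      𝔼 κ, g κ := by
    rw [← expect_prod fun x : (X.L → C) × Coins X.L S l d m => g (coinEquiv _ _ _ _ _ x).1,
      Fintype.expect_equiv (coinEquiv _ _ _ _ _) _ (fun y => g y.1) fun _ => rfl, expect_prod]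
    simp only [Fintype.expect_const]
  rw [expect_comm]
  refine expect_le univ_nonempty fun j _ => ?_
  rw [← expect_blk _ j]
  simp only [sub_blk, Fintype.expect_const, h2, h3]
  exact h1

theorem thresh_step (a : Vec l) (F : State X k l d → ℝ) {τ : ℝ} (hτ : 0 ≤ τ) :
    𝔼 s, F s ≤ (𝔼 s, ind (τ ≤ lineAv a F s) * F s) + τ := by
  rw [← expect_mul_lineAv a _ F fun t s => by rw [lineAv_sh], ← expect_lineAv a F,
    ← Fintype.expect_const (ι := State X k l d) τ, ← expect_add_distrib]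
  simp only [Fintype.expect_const]
  refine expect_le_expect fun s _ => ?_
  by_cases h : τ ≤ lineAv a F s
  · rw [ind_of h]; linarith
  · rw [ind_of_not h]; push Not at h; linarith

theorem exists_params {δ τ : ℝ} (hδ : 0 < δ) (hτ : 0 < τ) : ∃ (q : ℕ) (η₀ : ℝ), 0 < η₀ ∧
    6 / 2 ^ q ≤ τ ^ 2 / 16 ∧ η₀ ≤ 1 ∧ η₀ ≤ δ / 4 ∧ η₀ ≤ τ / 2 ∧ η₀ ≤ τ ^ 2 / 16 ∧
    4 * 2 ^ q * η₀ ≤ τ ^ 2 / 16 ∧ 4 ^ q * η₀ ≤ (τ ^ 3 / 16) ^ 2 ∧ 4 * η₀ ≤ τ ^ 3 / 16 := by
  obtain ⟨q, hq⟩ := pow_unbounded_of_one_lt (96 / τ ^ 2) (one_lt_two (α := ℝ))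
  refine ⟨q, min (min (min 1 (δ / 4)) (min (τ / 2) (τ ^ 2 / 16)))
    (min (min (τ ^ 2 / 16 / (4 * 2 ^ q)) ((τ ^ 3 / 16) ^ 2 / 4 ^ q)) (τ ^ 3 / 64)),
    by positivity, ?_, ?_, ?_, ?_, ?_, ?_, ?_, ?_⟩
  · rw [div_lt_iff₀ (by positivity)] at hq
    rw [div_le_iff₀ (by positivity)]
    linarith
  · exact (min_le_left _ _).trans ((min_le_left _ _).trans (min_le_left _ _))
  · exact (min_le_left _ _).trans ((min_le_left _ _).trans (min_le_right _ _))
  · exact (min_le_left _ _).trans ((min_le_right _ _).trans (min_le_left _ _))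
  · exact (min_le_left _ _).trans ((min_le_right _ _).trans (min_le_right _ _))
  · rw [mul_comm, ← le_div_iff₀ (by positivity)]
    exact (min_le_right _ _).trans ((min_le_left _ _).trans (min_le_left _ _))
  · rw [mul_comm, ← le_div_iff₀ (by positivity)]
    exact (min_le_right _ _).trans ((min_le_left _ _).trans (min_le_right _ _))
  · have := (min_le_right (min (min 1 (δ / 4)) (min (τ / 2) (τ ^ 2 / 16))) _).trans
      (min_le_right (min (τ ^ 2 / 16 / (4 * 2 ^ q)) ((τ ^ 3 / 16) ^ 2 / 4 ^ q)) (τ ^ 3 / 64))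
    linarith

end MainAux

open MainAux

theorem main_thm (h1 : CharThm) (h2 : GoodThm) (h3 : StableThm) (h4 : DecodeThm) : MainThm := by
  intro δ hδ
  obtain ⟨s₀, kap, hkap, hchar⟩ := h1 (δ / 2) (by positivity)
  refine ⟨s₀, fun l hl => ?_⟩
  set τ : ℝ := kap / 2 ^ l / 4 with hτdef
  have hτ : 0 < τ := by positivity
  obtain ⟨q, η₀, hη₀, p1, p2, p3, p4, p5, p6, p7, p8⟩ := exists_params hδ hτ
  refine ⟨η₀, hη₀, fun η hη hηle S _ _ _ X h l' d' d m N k hI hl' hd hd1 hdm hk => ?_⟩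
  obtain ⟨Y, hAlg, hClose, hLeaf⟩ := hI
  intro U W D _ _ _ _ G hG C _ c₀ hC A B hLoc
  have : Nonempty C := ⟨c₀⟩
  by_contra hcon
  push Not at hcon
  have hcell : (Fintype.card (Cell X l d) : ℝ) ≤ η ^ 2 * (k + 1) := by
    refine le_trans ?_ hk
    have a1 : (1 : ℝ) ≤ Fintype.card (Cell X l d) := by exact_mod_cast Fintype.card_pos
    have a2 : (1 : ℝ) ≤ Fintype.card (Idx X.L S d → ZMod 2) := by exact_mod_cast Fintype.card_pos
    have a3 := mul_le_mul_of_nonneg_left a2 (zero_le_one.trans a1)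
    nlinarith
  let Γ : Type := (Fin (k + 1) × X.L → C) × (Fin (k + 1) × X.L → U)
  have s1 : δ / 2 + η ≤ 𝔼 γ : Γ, 𝔼 j, 𝔼 ω : Smp Y l d m, 𝔼 s, 𝔼 w,
      ind (Both (A γ.1 γ.2) (B γ.1 γ.2) j (plant s j (gp Y ω)) w (Y.hol ω.1 ω.2.1 ω.2.2.1)) := by
    have e1 := expect_le_expect (s := univ) fun (γ : Γ) _ =>
      close_step Y (m := m) hClose (A γ.1 γ.2) (B γ.1 γ.2)
    rw [expect_add_distrib, Fintype.expect_const, expect_prod] at e1
    have e2 := hcon.le.trans e1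
    linarith
  obtain ⟨a, y, z, Q, hEq, s2⟩ := hchar l hl S X l' Y k d m Γ (fun γ => A γ.1 γ.2)
    (fun γ => B γ.1 γ.2) η hη.le hcell s1
  let F : Γ → State X k l d → ℝ := fun γ s => Q γ s * numt Y m (B γ.1 γ.2) a y s
  let E : Γ → State X k l d → Prop := fun γ s => τ ≤ lineAv a (F γ) s
  have hE : ∀ γ t s, E γ (sh a t s) ↔ E γ s := fun γ t s => by simp only [E, lineAv_sh]
  obtain ⟨dec, hst⟩ := h3 S X d hd1
  let Gd : Γ → ℝ := fun γ => 𝔼 j, 𝔼 ω : Smp Y l d m, 𝔼 s, ind (E γ (plant s j (gp Y ω)) ∧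
      Good (X.rel (Y.build ω.1 ω.2.1)) (part j (z γ (plant s j (gp Y ω))))) *
    (Q γ (plant s j (gp Y ω)) * hv Y (B γ.1 γ.2) a y j ω (plant s j (gp Y ω)))
  let P : Γ → ℝ := fun γ => 𝔼 j, 𝔼 ω : Smp Y l d m, 𝔼 s, ind (E γ (plant s j (gp Y ω)) ∧
      ∀ p, Spans (Y.mono ω.1) p → Small dec (4 ^ q) p (part j (z γ (plant s j (gp Y ω)))))
  have hk1 : (0 : ℝ) < k + 1 := by positivity
  have s3 : τ ≤ 𝔼 γ, Gd γ := by
    have e0 : (Fintype.card (Cell X l d) : ℝ) / (k + 1) ≤ τ / 2 := by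
      rw [div_le_iff₀ hk1]
      refine hcell.trans (mul_le_mul_of_nonneg_right ?_ hk1.le)
      nlinarith
    have e1 : ∀ γ, 𝔼 s, F γ s ≤ Gd γ + (τ / 2 + τ) := fun γ => by
      have e2 := thresh_step a (F γ) hτ.le
      have e3 := h2 S X l' Y k l d m (B γ.1 γ.2) a y (z γ) (Q γ) (hEq γ) (E γ) (hE γ)
      linarith
    have e4 := expect_le_expect (s := univ) fun γ _ => e1 γ
    rw [expect_add_distrib, Fintype.expect_const] at e4
    have e5 : kap / 2 ^ l = 4 * τ := by rw [hτdef]; ring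
    rw [e5] at s2
    linarith
  have s4 : τ ^ 2 ≤ (𝔼 γ, P γ) + 3 * (τ ^ 2 / 16) := by
    have e0 : (d : ℝ) / (m + 1) ≤ τ ^ 2 / 16 := by
      rw [div_le_iff₀ (by positivity)]
      exact hdm.trans (mul_le_mul_of_nonneg_right (by linarith) (by positivity))
    have e1 : (4 * 2 ^ q / 2 ^ l' : ℝ) ≤ τ ^ 2 / 16 := by
      rw [div_eq_mul_one_div]
      exact (mul_le_mul_of_nonneg_left hl' (by positivity)).trans p6
    have e2 : ∀ γ, Gd γ ^ 2 ≤ P γ + 3 * (τ ^ 2 / 16) := fun γ => by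
      have e3 := hst l' Y d' hAlg hd k l m q (B γ.1 γ.2) a y (z γ) (Q γ) (hEq γ) (E γ) (hE γ)
      linarith
    have e4 := expect_le_expect (s := univ) fun γ _ => e2 γ
    rw [expect_add_distrib, Fintype.expect_const] at e4
    exact (pow_le_pow_left₀ hτ.le s3 2).trans ((sq_expect_le Gd).trans e4)
  let sel : (Fin (k + 1) × X.L → C) → Fin (k + 1) → Smp Y l d m → X.L := fun κ j ω =>
    Classical.epsilon (Lucky Y c₀ (sub j κ) ω)
  have s5 : ∀ κ, τ * 𝔼 x, P (κ, x) ≤ τ * (𝔼 j, 𝔼 ω : Smp Y l d m,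
      ind (¬ ∃ p, Lucky Y c₀ (sub j κ) ω p)) + 2 * (τ ^ 3 / 16) := by
    intro κ
    have e1 := h4 S X l' Y k l d m U W D G η hG (fun p => κ p = c₀) (B κ) (hLoc κ) a y
      (fun x => z (κ, x)) (fun x => Q (κ, x)) (fun x => hEq (κ, x)) (fun x => E (κ, x))
      (fun x => hE (κ, x)) dec (4 ^ q) (sel κ) η hη.le (by linarith) hk
    have e2 : √(((4 ^ q : ℕ) : ℝ) * η) ≤ τ ^ 3 / 16 := by
      refine Real.sqrt_le_iff.2 ⟨by positivity, le_trans ?_ p7⟩
      push_cast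
      exact mul_le_mul_of_nonneg_left hηle (by positivity)
    have e3 : τ * 𝔼 x, P (κ, x) ≤ 𝔼 x, 𝔼 j, 𝔼 ω : Smp Y l d m, 𝔼 s,
        (τ * ind (¬ ∃ p, Lucky Y c₀ (sub j κ) ω p) + ind (κ (j, sel κ j ω) = c₀ ∧
          Blind (X.rel (Y.build ω.1 ω.2.1)) (sel κ j ω) ∧
          (∀ b, (ω.2.2.2 b).1 (sel κ j ω) = 0) ∧
          Small dec (4 ^ q) (sel κ j ω) (part j (z (κ, x) (plant s j (gp Y ω)))) ∧
          E (κ, x) (plant s j (gp Y ω))) * lineAv a (F (κ, x)) (plant s j (gp Y ω))) := by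
      simp only [P, mul_expect]
      refine expect_le_expect fun x _ => expect_le_expect fun j _ =>
        expect_le_expect fun ω _ => expect_le_expect fun s _ => ?_
      by_cases hP : E (κ, x) (plant s j (gp Y ω)) ∧ ∀ p, Spans (Y.mono ω.1) p →
          Small dec (4 ^ q) p (part j (z (κ, x) (plant s j (gp Y ω))))
      · rw [ind_of hP]
        have hl : τ ≤ lineAv a (F (κ, x)) (plant s j (gp Y ω)) := hP.1
        by_cases hL : ∃ p, Lucky Y c₀ (sub j κ) ω p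
        · have hs : Lucky Y c₀ (sub j κ) ω (sel κ j ω) := Classical.epsilon_spec hL
          rw [ind_of_not (not_not.2 hL), ind_of ⟨hs.1, hs.2.1, hs.2.2.2, hP.2 _ hs.2.2.1, hP.1⟩]
          linarith
        · rw [ind_of hL]
          have := mul_nonneg (ind_nonneg (κ (j, sel κ j ω) = c₀ ∧
            Blind (X.rel (Y.build ω.1 ω.2.1)) (sel κ j ω) ∧
            (∀ b, (ω.2.2.2 b).1 (sel κ j ω) = 0) ∧
            Small dec (4 ^ q) (sel κ j ω) (part j (z (κ, x) (plant s j (gp Y ω)))) ∧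
            E (κ, x) (plant s j (gp Y ω)))) (hτ.le.trans hl)
          linarith
      · rw [ind_of_not hP, mul_zero]
        refine add_nonneg (mul_nonneg hτ.le (ind_nonneg _)) ?_
        by_cases hE' : E (κ, x) (plant s j (gp Y ω))
        · exact mul_nonneg (ind_nonneg _) (hτ.le.trans hE')
        · rw [ind_of_not fun hh => hE' hh.2.2.2.2, zero_mul]
    simp only [expect_add_distrib, Fintype.expect_const, ← mul_expect] at e3
    linarith
  have s6 := expect_le_expect (s := univ) fun κ _ => s5 κ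
  rw [expect_add_distrib, Fintype.expect_const, ← mul_expect, ← mul_expect,
    ← expect_prod P] at s6
  have s7 := mul_le_mul_of_nonneg_left (leaf_step Y (k := k) (d := d) hLeaf c₀ hC) hτ.le
  have s8 := mul_le_mul_of_nonneg_left s4 hτ.le
  have s9 := mul_le_mul_of_nonneg_left (hηle.trans p5) hτ.le
  have s10 : 0 < τ ^ 3 := by positivity
  nlinarith

end Vale.Agent.P339
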