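import Vale.Agent.P339.Stmt

/-!
Padding with dummy labels: from fibres of size at most two to 2-to-1 games.
-/

namespace Vale.Agent.P339

open Finset Vale.Agent.Lib.PCP Vale.Agent.Lib.PolyTime
open scoped BigOperators

namespace PadAux

theorem exactTwo_fst {q : ℕ} (E : Fin (2 * q) ≃ Fin q × Bool) : ExactTwo fun a => (E a).1 := by
  intro b
  refine Finset.card_eq_two.2 ⟨E.symm (b, false), E.symm (b, true), by simp, ?_⟩
  ext a
  simp only [mem_filter, mem_univ, true_and, mem_insert, mem_singleton, Equiv.eq_symm_apply]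
  rcases h : E a with ⟨b', c⟩
  cases c <;> simp

/-- A map with fibres of size at most two lifts to an injection. -/
theorem exists_lift {A Y : Type} [Nonempty A] (p : A → Y)
    (hp : ∀ a a' a'', p a = p a' → p a = p a'' → a = a' ∨ a = a'' ∨ a' = a'') :
    ∃ j : A → Y × Bool, Function.Injective j ∧ ∀ a, (j a).1 = p a := by
  classical
  refine ⟨fun a => (p a, decide (a = Function.invFun p (p a))), fun a a' h => ?_, fun _ => rfl⟩
  obtain ⟨h1, h2⟩ := Prod.mk.inj h
  have h3 : p (Function.invFun p (p a)) = p a := Function.invFun_eq ⟨a, rfl⟩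
  rw [← h1, decide_eq_decide] at h2
  rcases hp a a' _ h1 h3.symm with h | h | h
  · exact h
  · exact h.trans (h2.1 h).symm
  · exact (h2.2 h).trans h.symm

/-- The target of a label. -/
def tgt {A B Z : Type} (ι : A → Z) (f : A → Option B) (a : A) : B ⊕ Z :=
  match f a with
  | some b => Sum.inl b
  | none => Sum.inr (ι a)

theorem tgt_some {A B Z : Type} (ι : A → Z) {f : A → Option B} {a : A} {b : B}
    (h : f a = some b) : tgt ι f a = Sum.inl b := by simp [tgt, h]

theorem tgt_none {A B Z : Type} (ι : A → Z) {f : A → Option B} {a : A}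
    (h : f a = none) : tgt ι f a = Sum.inr (ι a) := by simp [tgt, h]

theorem tgt_two {A B Z : Type} {ι : A → Z} (hι : Function.Injective ι) {f : A → Option B}
    (hf : AtMostTwo f) (a a' a'' : A) (h1 : tgt ι f a = tgt ι f a') (h2 : tgt ι f a = tgt ι f a'') :
    a = a' ∨ a = a'' ∨ a' = a'' := by
  rcases e : f a with _ | b
  · rcases e' : f a' with _ | b'
    · rw [tgt_none ι e, tgt_none ι e'] at h1
      exact Or.inl (hι (Sum.inr.inj h1))
    · rw [tgt_none ι e, tgt_some ι e'] at h1
      cases h1
  · rcases e' : f a' with _ | b'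
    · rw [tgt_some ι e, tgt_none ι e'] at h1
      cases h1
    · rcases e'' : f a'' with _ | b''
      · rw [tgt_some ι e, tgt_none ι e''] at h2
        cases h2
      · rw [tgt_some ι e, tgt_some ι e'] at h1
        rw [tgt_some ι e, tgt_some ι e''] at h2
        rw [← Sum.inl.inj h1] at e'
        rw [← Sum.inl.inj h2] at e''
        exact hf a a' a'' b e e' e''

/-- Rotation of the dummy labels. -/
def rot (A : Type) {n : ℕ} (r : Fin (n + 1)) : A ⊕ Fin (n + 1) ≃ A ⊕ Fin (n + 1) :=
  Equiv.sumCongr (Equiv.refl A) (Equiv.addRight r)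

theorem exists_family (A B : Type) [Fintype A] [Nonempty A] [Fintype B] [DecidableEq B]
    [Nonempty B] (ε : ℝ) (hε : 0 < ε) : ∃ q : ℕ, 2 ≤ q ∧ ∃ (R : Type) (_ : Fintype R)
      (_ : Nonempty R) (iA : A → Fin (2 * q)) (iB : B → Fin q) (dA : Fin (2 * q) → A)
      (dB : Fin q → B) (g : (A → Option B) → R → Fin (2 * q) → Fin q), ∀ f, AtMostTwo f →
        (∀ r, ExactTwo (g f r)) ∧ (∀ r a b, f a = some b → g f r (iA a) = iB b) ∧
        ∀ x y, ((univ.filter fun r => g f r x = y).card : ℝ) ≤
          ((if f (dA x) = some (dB y) then 1 else 0) + ε) * Fintype.card R := by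
  classical
  obtain ⟨N₀, hN₀⟩ := exists_nat_ge (2 / ε)
  obtain ⟨N, hN⟩ : ∃ N, N = N₀ + Fintype.card A := ⟨_, rfl⟩
  have hNε : 2 ≤ ε * (N + 1) := by
    rw [div_le_iff₀' hε] at hN₀
    have : (N₀ : ℝ) ≤ N + 1 := by exact_mod_cast (by omega : N₀ ≤ N + 1)
    nlinarith
  obtain ⟨q, hq⟩ : ∃ q, q = Fintype.card B + (N + 1) := ⟨_, rfl⟩
  obtain ⟨m, hm⟩ : ∃ m, Fintype.card A + (m + 1) = 2 * q := ⟨2 * q - Fintype.card A - 1, by omega⟩
  have hB : 0 < Fintype.card B := Fintype.card_pos
  have hmN : N ≤ m := by omega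
  obtain ⟨ι⟩ : Nonempty (A ↪ Fin (N + 1)) :=
    Function.Embedding.nonempty_of_card_le (by rw [Fintype.card_fin]; omega)
  let eX : A ⊕ Fin (m + 1) ≃ Fin (2 * q) := Fintype.equivFinOfCardEq (by simpa using hm)
  let eY : B ⊕ Fin (N + 1) ≃ Fin q := Fintype.equivFinOfCardEq (by simp [hq])
  let e0 : A ⊕ Fin (m + 1) ≃ (B ⊕ Fin (N + 1)) × Bool :=
    Fintype.equivOfCardEq (by simp; omega)
  have hσ : ∀ f : A → Option B, ∃ σ : A ⊕ Fin (m + 1) ≃ (B ⊕ Fin (N + 1)) × Bool,
      AtMostTwo f → ∀ a, (σ (Sum.inl a)).1 = tgt ι f a := by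
    intro f
    by_cases hf : AtMostTwo f
    · obtain ⟨j, hj, hj'⟩ := exists_lift (tgt ι f) (tgt_two ι.injective hf)
      obtain ⟨σ, hσ⟩ := Equiv.Perm.exists_extending_pair _ _
        (e0.injective.comp Sum.inl_injective) hj
      exact ⟨e0.trans σ, fun _ a => by rw [← hj' a, ← hσ a]; rfl⟩
    · exact ⟨e0, fun h => absurd h hf⟩
  choose σ hσ using hσ
  let a₀ : A := Classical.arbitrary A
  let b₀ : B := Classical.arbitrary B
  refine ⟨q, by omega, Fin (m + 1) × Fin (N + 1), inferInstance, inferInstance,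
    fun a => eX (Sum.inl a), fun b => eY (Sum.inl b),
    fun x => Sum.elim id (fun _ => a₀) (eX.symm x), fun y => Sum.elim id (fun _ => b₀) (eY.symm y),
    fun f r x => eY (rot B r.2 (σ f (rot A r.1 (eX.symm x))).1), fun f hf => ⟨fun r => ?_, ?_, ?_⟩⟩
  · exact exactTwo_fst (((eX.symm.trans (rot A r.1)).trans (σ f)).trans
      (Equiv.prodCongr ((rot B r.2).trans eY) (Equiv.refl Bool)))
  · intro r a b h
    simp [rot, hσ f hf, tgt_some ι h]
  · intro x y
    obtain ⟨x, rfl⟩ := eX.surjective x
    obtain ⟨y, rfl⟩ := eY.surjective y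
    simp only [Equiv.symm_apply_apply, EmbeddingLike.apply_eq_iff_eq, Fintype.card_prod,
      Fintype.card_fin]
    have hm' : (N : ℝ) ≤ m := by exact_mod_cast hmN
    have hN0 : (0 : ℝ) ≤ N := Nat.cast_nonneg N
    have hi : ∀ p : Prop, ∀ _ : Decidable p, (0 : ℝ) ≤ if p then 1 else 0 := fun p _ => by
      split_ifs <;> norm_num
    push_cast
    rcases x with a | z
    · have h0 : ∀ r : Fin (m + 1), rot A r (Sum.inl a) = Sum.inl a := fun _ => rfl
      simp only [h0, hσ f hf, Sum.elim_inl, id]
      rcases Option.eq_none_or_eq_some (f a) with e | ⟨b, e⟩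
      · have h1 : (univ.filter fun r : Fin (m + 1) × Fin (N + 1) =>
            rot B r.2 (tgt ι f a) = y).card ≤ (univ : Finset (Fin (m + 1))).card := by
          refine Finset.card_le_card_of_injOn Prod.fst (fun _ _ => by simp) ?_
          intro r hr r' hr' h
          simp only [coe_filter, mem_univ, true_and, Set.mem_ofPred_eq, tgt_none ι e] at hr hr'
          refine Prod.ext h ?_
          simpa [rot] using hr.trans hr'.symm
        rw [card_univ, Fintype.card_fin] at h1
        have h2 : ((univ.filter fun r : Fin (m + 1) × Fin (N + 1) =>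
            rot B r.2 (tgt ι f a) = y).card : ℝ) ≤ m + 1 := by exact_mod_cast h1
        refine h2.trans (le_trans ?_ (mul_le_mul_of_nonneg_right
          (le_add_of_nonneg_left (hi _ _)) (by positivity)))
        nlinarith
      · have h1 : ∀ r : Fin (N + 1), rot B r (tgt ι f a) = Sum.inl b := fun r => by
          rw [tgt_some ι e]; rfl
        simp only [h1]
        by_cases hy : Sum.inl b = y
        · subst hy
          simp only [Sum.elim_inl, id, e, if_true, filter_true, card_univ, Fintype.card_prod,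
            Fintype.card_fin]
          push_cast
          have : (0 : ℝ) ≤ (m + 1) * (N + 1) := by positivity
          nlinarith
        · simp only [hy, filter_false, card_empty, Nat.cast_zero]
          exact mul_nonneg (add_nonneg (hi _ _) hε.le) (by positivity)
    · have h1 : (univ.filter fun r : Fin (m + 1) × Fin (N + 1) =>
          rot B r.2 (σ f (rot A r.1 (Sum.inr z))).1 = y).card ≤
          (univ : Finset (Fin (N + 1) × Bool)).card := by
        refine Finset.card_le_card_of_injOn
          (fun r => (r.2, (σ f (rot A r.1 (Sum.inr z))).2)) (fun _ _ => by simp) ?_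
        intro r hr r' hr' h
        simp only [coe_filter, mem_univ, true_and, Set.mem_ofPred_eq] at hr hr'
        obtain ⟨h2, h3⟩ := Prod.mk.inj h
        rw [← h2] at hr'
        have h4 := (σ f).injective (Prod.ext ((rot B r.2).injective (hr.trans hr'.symm)) h3)
        refine Prod.ext ?_ h2
        simpa [rot] using h4
      rw [card_univ, Fintype.card_prod, Fintype.card_fin, Fintype.card_bool] at h1
      have h2 : ((univ.filter fun r : Fin (m + 1) × Fin (N + 1) =>
          rot B r.2 (σ f (rot A r.1 (Sum.inr z))).1 = y).card : ℝ) ≤ (N + 1) * 2 := by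
        exact_mod_cast h1
      refine h2.trans (le_trans ?_ (mul_le_mul_of_nonneg_right
        (le_add_of_nonneg_left (hi _ _)) (by positivity)))
      have h3 : 2 ≤ ε * (m + 1) := by nlinarith
      nlinarith

theorem countP_toList_univ {R : Type} [Fintype R] (p : R → Bool) :
    (univ : Finset R).toList.countP p = (univ.filter fun r => p r = true).card := by
  rw [Finset.card_def, Finset.filter_val, ← Multiset.countP_eq_card_filter,
    ← Finset.coe_toList, Multiset.coe_countP]
  simp

section Red

variable {V A B R : Type} [Fintype R] {q : ℕ}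

/-- The reduction. -/
noncomputable def red (g : (A → Option B) → R → Fin (2 * q) → Fin q) (l : List (HEdge V A B)) :
    List (TEdge V q) :=
  l.flatMap fun c => (univ : Finset R).toList.map fun r => (c.1, c.2.1, g c.2.2 r)

theorem length_red (g : (A → Option B) → R → Fin (2 * q) → Fin q) (l : List (HEdge V A B)) :
    (red g l).length = l.length * Fintype.card R := by
  induction l with
  | nil => simp [red]
  | cons c l ih =>
    rw [red, List.flatMap_cons, List.length_append, ← red, ih]
    simp [add_mul, add_comm]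

theorem mem_red {g : (A → Option B) → R → Fin (2 * q) → Fin q} {l : List (HEdge V A B)}
    {e : TEdge V q} (h : e ∈ red g l) : ∃ c ∈ l, ∃ r, e = (c.1, c.2.1, g c.2.2 r) := by
  obtain ⟨c, hc, h⟩ := List.mem_flatMap.1 h
  obtain ⟨r, -, rfl⟩ := List.mem_map.1 h
  exact ⟨c, hc, r, rfl⟩

theorem cnt_red [DecidableEq B] (g : (A → Option B) → R → Fin (2 * q) → Fin q)
    (dA : Fin (2 * q) → A) (dB : Fin q → B) (ε : ℝ) (L : (V → Fin (2 * q)) × (V → Fin q))
    (l : List (HEdge V A B))
    (h : ∀ c ∈ l, ∀ x y, ((univ.filter fun r => g c.2.2 r x = y).card : ℝ) ≤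
      ((if c.2.2 (dA x) = some (dB y) then 1 else 0) + ε) * Fintype.card R) :
    (cnt satT (red g l) L : ℝ) ≤
      (cnt satH l (fun v => dA (L.1 v), fun v => dB (L.2 v)) + ε * l.length) * Fintype.card R := by
  induction l with
  | nil => simp [red, cnt]
  | cons c l ih =>
    have h1 := ih fun c hc => h c (List.mem_cons_of_mem _ hc)
    have h2 := h c List.mem_cons_self (L.1 c.1) (L.2 c.2.1)
    have h3 : ((univ : Finset R).toList.map fun r => ((c.1, c.2.1, g c.2.2 r) : TEdge V q)).countP
        (fun e => satT e L) = (univ.filter fun r => g c.2.2 r (L.1 c.1) = L.2 c.2.1).card := by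
      rw [List.countP_map, countP_toList_univ]
      simp [satT]
    rw [cnt] at h1 ⊢
    rw [red, List.flatMap_cons, List.countP_append, ← red, h3, cnt, List.countP_cons,
      List.length_cons]
    rw [cnt] at h1
    simp only [satH, decide_eq_true_eq] at h1 ⊢
    push_cast
    linarith

end Red

end PadAux

open PadAux in
theorem pad_thm : PadThm := by
  intro A B _ _ _ _ _ _ _ ε hε
  obtain ⟨q, hq, R, _, _, iA, iB, dA, dB, g, hg⟩ := exists_family A B ε hε
  refine ⟨q, hq, fun V _ s => ⟨red g, ?_, fun l hl => ?_, fun l hl => ?_⟩⟩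
  · exact PT.flatMap PT.id (PT.mapConst _ fun r _ => PT.pair PT.snd'.fst
      (PT.pair PT.snd'.snd.fst (PT.finComp (fun f => g f r) PT.snd'.snd.snd)))
  all_goals
    have h1 : ∀ e ∈ red g l, ExactTwo e.2.2 := fun e he => by
      obtain ⟨c, hc, r, rfl⟩ := mem_red he
      exact (hg _ (hl.1 c hc)).1 r
    have h2 : red g l ≠ [] := by
      rw [← List.length_pos_iff, length_red]
      exact Nat.mul_pos (List.length_pos_iff.2 hl.2.1) Fintype.card_pos
    refine ⟨h1, h2, ?_⟩
  · obtain ⟨L, hL⟩ := hl.2.2
    rw [one_mul, Nat.cast_le] at hL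
    have h3 := List.countP_eq_length.1 (le_antisymm List.countP_le_length hL)
    refine ⟨(fun v => iA (L.1 v), fun v => iB (L.2 v)), ?_⟩
    rw [one_mul, Nat.cast_le]
    refine (List.countP_eq_length.2 fun e he => ?_).ge
    obtain ⟨c, hc, r, rfl⟩ := mem_red he
    have h4 := h3 c hc
    simp only [satH, satT, decide_eq_true_eq] at h4 ⊢
    exact (hg _ (hl.1 c hc)).2.1 r _ _ h4
  · intro L
    refine (cnt_red g dA dB ε L l fun c hc => (hg _ (hl.1 c hc)).2.2).trans ?_
    rw [length_red]
    push_cast
    have h3 := hl.2.2 (fun v => dA (L.1 v), fun v => dB (L.2 v))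
    have h4 : (0 : ℝ) ≤ Fintype.card R := Nat.cast_nonneg _
    nlinarith

end Vale.Agent.P339
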