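import Vale.Agent.P339.Stmt

/-!
The rank lemma: an alternating form which is stable under resampling a random row of a matrix
with isotropic rows has a large kernel.
-/

namespace Vale.Agent.P339

open Finset Vale.Agent.Lib.PCP Vale.Agent.P325
open scoped BigOperators

namespace RankAux

theorem ind_mul_self (p : Prop) : ind p * ind p = ind p := by rw [← ind_and, and_self]

section Lin

variable {X : Type} [AddCommGroup X] [Module (ZMod 2) X] [Fintype X]

/-- Averages of characters of linear functionals. -/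
theorem expect_sg_lin (φ : X →ₗ[ZMod 2] ZMod 2) : 𝔼 x, sg (φ x) = ind (φ = 0) := by
  by_cases h : φ = 0
  · subst h; simp [ind_of]
  · rw [ind_of_not h]
    obtain ⟨y, hy⟩ : ∃ y, φ y ≠ 0 := by
      by_contra hc
      push Not at hc
      exact h (LinearMap.ext hc)
    have h1 := expect_shiftG (fun x => sg (φ x)) y
    simp only [map_add, sg_add, f2_ne_zero.1 hy, sg_one, mul_neg, mul_one,
      expect_neg_distrib] at h1
    linarith

/-- The density of the kernel of a linear map. -/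
noncomputable def kerP {Y : Type} [AddCommGroup Y] [Module (ZMod 2) Y] (L : X →ₗ[ZMod 2] Y) : ℝ :=
  𝔼 x, ind (L x = 0)

theorem kerP_nonneg {Y : Type} [AddCommGroup Y] [Module (ZMod 2) Y] (L : X →ₗ[ZMod 2] Y) :
    0 ≤ kerP L := expect_nonneg fun _ _ => ind_nonneg _

theorem expect_fiber {Y : Type} [AddCommGroup Y] [Module (ZMod 2) Y] (L : X →ₗ[ZMod 2] Y) (x₀ : X) :
    𝔼 x, ind (L x = L x₀) = kerP L := by
  rw [kerP, ← expect_shiftG (fun x => ind (L x = L x₀)) x₀]
  exact expect_congr rfl fun x _ => ind_congr (by simp)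

theorem expect_fiber_le {Y : Type} [AddCommGroup Y] [Module (ZMod 2) Y] (L : X →ₗ[ZMod 2] Y)
    (y : Y) : 𝔼 x, ind (L x = y) ≤ kerP L := by
  by_cases h : ∃ x₀, L x₀ = y
  · obtain ⟨x₀, rfl⟩ := h
    exact (expect_fiber L x₀).le
  · push Not at h
    simp only [ind_of_not (h _), Fintype.expect_const]
    exact kerP_nonneg L

/-- Vectors with distinct images are few when the kernel is large. -/
theorem card_mul_kerP_le {Y A : Type} [AddCommGroup Y] [Module (ZMod 2) Y] (L : X →ₗ[ZMod 2] Y)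
    (s : Finset A) (f : A → X) (hf : ∀ a ∈ s, ∀ b ∈ s, L (f a) = L (f b) → a = b) :
    (s.card : ℝ) * kerP L ≤ 1 := by
  have h1 : (s.card : ℝ) * kerP L = 𝔼 x, ∑ a ∈ s, ind (L x = L (f a)) := by
    rw [expect_sum_comm]
    simp only [expect_fiber, sum_const, nsmul_eq_mul]
  rw [h1]
  refine expect_le univ_nonempty fun x _ => ?_
  by_cases h : ∃ a ∈ s, L x = L (f a)
  · obtain ⟨a, ha, hx⟩ := h
    rw [sum_eq_single_of_mem a ha fun b hb hba => ind_of_not fun hb' =>
      hba (hf b hb a ha (hb'.symm.trans hx))]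
    exact ind_le_one _
  · push Not at h
    rw [sum_eq_zero fun a ha => ind_of_not (h a ha)]
    exact zero_le_one

variable {Γ : Type} [AddCommGroup Γ] [Module (ZMod 2) Γ] [Fintype Γ]

theorem half_le_ker (w : Γ →ₗ[ZMod 2] ZMod 2) : 1 / 2 ≤ 𝔼 g, ind (w g = 0) := by
  have h1 : ∀ g, ind (w g = 0) = (1 + sg (w g)) / 2 := fun g => by
    rw [sg_eq_ite', ind_eq_ite]; ring
  simp only [h1]
  rw [← expect_div, expect_add_distrib, expect_sg_lin, Fintype.expect_const]
  linarith [ind_nonneg (w = 0)]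

/-- A random vector is rarely killed by many functionals. -/
theorem orth_le (L : Γ →ₗ[ZMod 2] X →ₗ[ZMod 2] ZMod 2) (w : Γ →ₗ[ZMod 2] ZMod 2) :
    𝔼 x, ind (∀ g, w g = 0 → L g x = 0) ≤ 4 * 𝔼 g, ind (w g = 0 ∧ L g = 0) := by
  have h1 : ∀ x, ind (∀ g, w g = 0 → L g x = 0) ≤
      4 * (𝔼 g, ind (w g = 0) * sg (L g x)) ^ 2 := by
    intro x
    by_cases h : ∀ g, w g = 0 → L g x = 0
    · rw [ind_of h]
      have h2 : 𝔼 g, ind (w g = 0) * sg (L g x) = 𝔼 g, ind (w g = 0) :=
        expect_congr rfl fun g _ => by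
          by_cases hg : w g = 0
          · rw [h g hg, sg_zero, mul_one]
          · rw [ind_of_not hg, zero_mul]
      rw [h2]
      nlinarith [half_le_ker w]
    · rw [ind_of_not h]; positivity
  refine (expect_le_expect fun x _ => h1 x).trans ?_
  rw [← mul_expect]
  refine mul_le_mul_of_nonneg_left ?_ (by norm_num)
  simp only [sq, Fintype.expect_mul_expect]
  rw [expect_comm]
  refine expect_le univ_nonempty fun g _ => ?_
  rw [expect_comm, ← expect_shiftG (fun g' => ind (w g' = 0 ∧ L g' = 0)) g]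
  refine expect_le_expect fun g' _ => ?_
  have h3 : ∀ x, ind (w g = 0) * sg (L g x) * (ind (w g' = 0) * sg (L g' x)) =
      ind (w g = 0) * ind (w g' = 0) * sg (L (g' + g) x) := fun x => by
    rw [map_add, LinearMap.add_apply, sg_add]; ring
  simp only [h3]
  rw [← mul_expect, expect_sg_lin, ← ind_and, ← ind_and]
  exact ind_mono fun h => ⟨by rw [map_add, h.1.1, h.1.2, add_zero], h.2⟩

/-- A random vector rarely hits a small range. -/
theorem range_le {Y : Type} [AddCommGroup Y] [Module (ZMod 2) Y] (L : Γ →ₗ[ZMod 2] Y)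
    (B : X →ₗ[ZMod 2] Y) : (𝔼 x, ind (∃ g, L g = B x)) * kerP L ≤ kerP B := by
  calc _ = 𝔼 x, ind (∃ g, L g = B x) * kerP L := by rw [expect_mul]
    _ ≤ 𝔼 x, 𝔼 g, ind (L g = B x) := expect_le_expect fun x _ => by
        by_cases h : ∃ g, L g = B x
        · obtain ⟨g, hg⟩ := h
          rw [ind_of ⟨g, hg⟩, one_mul, ← hg, expect_fiber]
        · rw [ind_of_not h, zero_mul]
          exact expect_nonneg fun _ _ => ind_nonneg _
    _ ≤ kerP B := by
        rw [expect_comm]
        exact expect_le univ_nonempty fun g _ => by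
          simp only [eq_comm (a := L g)]
          exact expect_fiber_le B _

end Lin

/-- A large subspace is rarely orthogonal to a random vector. -/
theorem perp_le {κ Y : Type} [Fintype κ] [DecidableEq κ] [AddCommGroup Y] [Module (ZMod 2) Y]
    (L : (κ → ZMod 2) →ₗ[ZMod 2] Y) :
    (𝔼 w : κ → ZMod 2, ind (∀ g, L g = 0 → w ⬝ᵥ g = 0)) * kerP L ≤
      1 / Fintype.card (κ → ZMod 2) := by
  have hp := parseval (fun g => ind (L g = 0))
  simp only [sq (ind _), ind_mul_self] at hp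
  have h1 : ∀ w : κ → ZMod 2, ind (∀ g, L g = 0 → w ⬝ᵥ g = 0) * kerP L ^ 2 ≤
      hat (fun g => ind (L g = 0)) w ^ 2 := by
    intro w
    by_cases h : ∀ g, L g = 0 → w ⬝ᵥ g = 0
    · rw [ind_of h, one_mul]
      refine le_of_eq (congrArg (· ^ 2) (expect_congr rfl fun g _ => ?_))
      by_cases hg : L g = 0
      · rw [chi, h g hg, sg_zero, mul_one]
      · simp only [ind_of_not hg, zero_mul]
    · rw [ind_of_not h, zero_mul]; positivity
  have h2 := (sum_le_sum fun w _ => h1 w).trans hp.le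
  rw [← sum_mul] at h2
  have hk : 0 < kerP L := by
    rw [kerP, Fintype.expect_eq_sum_div_card]
    refine div_pos (lt_of_lt_of_le ?_ (single_le_sum (f := fun g => ind (L g = 0))
      (fun g _ => ind_nonneg _) (mem_univ 0))) (by exact_mod_cast Fintype.card_pos)
    rw [ind_of (map_zero L)]; norm_num
  rw [Fintype.expect_eq_sum_div_card, div_mul_eq_mul_div]
  refine div_le_div_of_nonneg_right ?_ (Nat.cast_nonneg _)
  change _ ≤ kerP L at h2
  nlinarith

/-- The dot product with a fixed vector. -/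
def dotL {κ : Type} [Fintype κ] (w : κ → ZMod 2) : (κ → ZMod 2) →ₗ[ZMod 2] ZMod 2 where
  toFun g := w ⬝ᵥ g
  map_add' := dotProduct_add w
  map_smul' c g := dotProduct_smul c w g

/-- The rank lemma. -/
theorem rank_le {κ Z X : Type} [Fintype κ] [DecidableEq κ] [AddGroup Z] [Fintype Z]
    [AddCommGroup X] [Module (ZMod 2) X] [Fintype X] (mv : (κ → ZMod 2) → X → Z)
    (L : Z → (κ → ZMod 2) →ₗ[ZMod 2] X →ₗ[ZMod 2] ZMod 2)
    (B : Z → X →ₗ[ZMod 2] X →ₗ[ZMod 2] ZMod 2) (E : Z → (κ → ZMod 2) → X → Prop)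
    (h1 : ∀ z w x, E z w x → ∀ g, w ⬝ᵥ g = 0 → L z g x = 0)
    (h2 : ∀ z w x, E z w x → ∀ g, L (z + mv w x) g = L z g + (w ⬝ᵥ g) • B z x)
    {β ρ : ℝ} (hβ : 0 < β) (hρ : 0 ≤ ρ) :
    𝔼 z, 𝔼 w, 𝔼 x, ind (E z w x ∧ kerP (B z) ≤ ρ) ≤
      4 * β + 1 / (β * Fintype.card (κ → ZMod 2)) + ρ / β := by
  set k : Z → (κ → ZMod 2) → ℝ := fun z w => 𝔼 g, ind (w ⬝ᵥ g = 0 ∧ L z g = 0) with hk
  set F : Z → (κ → ZMod 2) → ℝ :=
    fun z w => ind (β < kerP (L z) ∧ ∀ g, L z g = 0 → w ⬝ᵥ g = 0) with hF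
  have key : ∀ z w x, ind (E z w x ∧ kerP (B z) ≤ ρ) ≤
      ind (k z w ≤ β ∧ ∀ g, w ⬝ᵥ g = 0 → L z g x = 0) + F (z + mv w x) w +
        ind ((β < kerP (L z) ∧ kerP (B z) ≤ ρ) ∧ ∃ g, L z g = B z x) := by
    intro z w x
    refine le_trans (ind_mono ?_) ((ind_or_le _ _).trans (add_le_add_left (ind_or_le _ _) _))
    rintro ⟨hE, hB⟩
    by_cases hc : k z w ≤ β
    · exact Or.inl (Or.inl ⟨hc, h1 z w x hE⟩)
    push Not at hc
    by_cases hd : ∀ g, L (z + mv w x) g = 0 → w ⬝ᵥ g = 0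
    · refine Or.inl (Or.inr ⟨hc.trans_le (expect_le_expect fun g _ => ind_mono fun h => ?_), hd⟩)
      rw [h2 z w x hE, h.1, h.2, zero_smul, add_zero]
    push Not at hd
    obtain ⟨g, hg, hw⟩ := hd
    refine Or.inr ⟨⟨hc.trans_le (expect_le_expect fun g _ => ind_mono fun h => h.2), hB⟩, g, ?_⟩
    rw [h2 z w x hE, f2_ne_zero.1 hw, one_smul] at hg
    rw [← add_zero (L z g), ← add_self_two (B z x), ← add_assoc, hg, zero_add]
  have t1 : ∀ z w, 𝔼 x, ind (k z w ≤ β ∧ ∀ g, w ⬝ᵥ g = 0 → L z g x = 0) ≤ 4 * β := by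
    intro z w
    by_cases hc : k z w ≤ β
    · refine le_trans (expect_le_expect fun x _ => ind_mono fun h => h.2) ?_
      refine (orth_le (L z) (dotL w)).trans ?_
      change 4 * k z w ≤ _
      linarith
    · simp only [ind_of_not fun h : _ ∧ _ => hc h.1, Fintype.expect_const]
      positivity
  have t2 : 𝔼 z, 𝔼 w, 𝔼 x, F (z + mv w x) w ≤ 1 / (β * Fintype.card (κ → ZMod 2)) := by
    rw [expect_comm]
    have e1 : ∀ w, 𝔼 z, 𝔼 x, F (z + mv w x) w = 𝔼 z, F z w := fun w => by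
      rw [expect_comm]
      simp only [expect_shiftG (fun z => F z w), Fintype.expect_const]
    simp only [e1]
    rw [expect_comm]
    refine expect_le univ_nonempty fun z _ => ?_
    by_cases hc : β < kerP (L z)
    · refine le_trans (expect_le_expect fun w _ => ind_mono fun h => h.2) ?_
      have h3 := perp_le (L z)
      have h4 : 0 ≤ 𝔼 w : κ → ZMod 2, ind (∀ g, L z g = 0 → w ⬝ᵥ g = 0) :=
        expect_nonneg fun _ _ => ind_nonneg _
      rw [mul_comm, ← div_div, le_div_iff₀ hβ]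
      nlinarith
    · simp only [hF, ind_of_not fun h : _ ∧ _ => hc h.1, Fintype.expect_const]
      positivity
  have t3 : ∀ z, 𝔼 x, ind ((β < kerP (L z) ∧ kerP (B z) ≤ ρ) ∧ ∃ g, L z g = B z x) ≤ ρ / β := by
    intro z
    by_cases hc : β < kerP (L z) ∧ kerP (B z) ≤ ρ
    · refine le_trans (expect_le_expect fun w _ => ind_mono fun h => h.2) ?_
      have h3 := range_le (L z) (B z)
      have h4 : 0 ≤ 𝔼 x, ind (∃ g, L z g = B z x) := expect_nonneg fun _ _ => ind_nonneg _
      rw [le_div_iff₀ hβ]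
      nlinarith [hc.1, hc.2]
    · simp only [ind_of_not fun h : _ ∧ _ => hc h.1, Fintype.expect_const]
      positivity
  refine le_trans (expect_le_expect fun z _ => expect_le_expect fun w _ =>
    expect_le_expect fun x _ => key z w x) ?_
  simp only [expect_add_distrib]
  refine add_le_add (add_le_add ?_ t2) ?_
  · exact expect_le univ_nonempty fun z _ => expect_le univ_nonempty fun w _ => t1 z w
  · exact expect_le univ_nonempty fun z _ => expect_le univ_nonempty fun w _ => t3 z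

theorem kerP_le_of_lt_Rk {I : Type} [Fintype I] [DecidableEq I]
    (B : (I → ZMod 2) →ₗ[ZMod 2] (I → ZMod 2) →ₗ[ZMod 2] ZMod 2) {n : ℕ} (hn : 0 < n)
    (h : n < Rk B) : kerP B ≤ 1 / n := by
  classical
  have : Finite (LinearMap.range B) := Finite.of_surjective _ B.surjective_rangeRestrict
  have := Fintype.ofFinite (LinearMap.range B)
  choose f hf using fun a : LinearMap.range B => LinearMap.mem_range.1 a.2
  have h1 := card_mul_kerP_le B univ f fun a _ b _ hab => Subtype.ext (by rwa [hf, hf] at hab)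
  rw [Rk, Nat.card_eq_fintype_card] at h
  have h2 : (n : ℝ) ≤ (univ : Finset (LinearMap.range B)).card := by exact_mod_cast h.le
  rw [le_div_iff₀ (by exact_mod_cast hn)]
  nlinarith [kerP_nonneg B]

/-- The rows of a matrix. -/
def rowL {I : Type} {l : ℕ} (z : I → Vec l) : Vec l →ₗ[ZMod 2] I → ZMod 2 where
  toFun g := row g z
  map_add' g g' := funext fun i => add_dotProduct g g' (z i)
  map_smul' c g := funext fun i => smul_dotProduct c g (z i)

theorem row_add_tens {I : Type} {l : ℕ} (z : I → Vec l) (w g : Vec l) (x : I → ZMod 2) :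
    row g (z + tens w x) = row g z + (w ⬝ᵥ g) • x := by
  funext i
  simp only [row, tens, Pi.add_apply, dotProduct_add, dotProduct_smul, Pi.smul_apply, smul_eq_mul,
    dotProduct_comm g w, mul_comm]

end RankAux

open RankAux in
/-- The rank theorem. -/
theorem rank_thm : RankThm := by
  intro I T _ _ l' q Bf _ Ψ P hP
  have e1 : (𝔼 z : I → Vec l', 𝔼 w : Vec l', 𝔼 x : I → ZMod 2, 𝔼 x' : I → ZMod 2,
      ind (P (z + tens w x) ∧ P (z + tens w x') ∧ Ψ (z + tens w x) = Ψ (z + tens w x'))) =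
      𝔼 z : I → Vec l', 𝔼 w : Vec l', 𝔼 x : I → ZMod 2,
        ind (P z ∧ P (z + tens w x) ∧ Ψ z = Ψ (z + tens w x)) := by
    rw [expect_comm, expect_comm (ι := I → Vec l')]
    refine expect_congr rfl fun w _ => ?_
    rw [expect_comm]
    have e2 : ∀ x : I → ZMod 2, (𝔼 z : I → Vec l', 𝔼 x' : I → ZMod 2,
        ind (P (z + tens w x) ∧ P (z + tens w x') ∧ Ψ (z + tens w x) = Ψ (z + tens w x'))) =
        𝔼 z : I → Vec l', 𝔼 x' : I → ZMod 2,
          ind (P z ∧ P (z + tens w x') ∧ Ψ z = Ψ (z + tens w x')) := by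
      intro x
      rw [← expect_shiftG (fun z : I → Vec l' => 𝔼 x' : I → ZMod 2,
        ind (P z ∧ P (z + tens w x') ∧ Ψ z = Ψ (z + tens w x'))) (tens w x)]
      refine expect_congr rfl fun z _ => ?_
      rw [← expect_add_left (fun x' : I → ZMod 2 => ind (P (z + tens w x) ∧ P (z + tens w x') ∧
        Ψ (z + tens w x) = Ψ (z + tens w x'))) x]
      simp only [tens_add, add_assoc]
    simp only [e2, Fintype.expect_const]
  rw [e1]
  have hq : (0 : ℝ) < 2 ^ q := by positivity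
  have h := rank_le (fun (w : Vec l') (x : I → ZMod 2) => tens w x)
    (fun z => (Bf (Ψ z)).comp (rowL z)) (fun z => Bf (Ψ z))
    (fun z w x => (P z ∧ P (z + tens w x) ∧ Ψ z = Ψ (z + tens w x)) ∧ w ≠ 0)
    (fun z w x hE g hg => by
      obtain ⟨⟨a1, a2, a3⟩, a4⟩ := hE
      obtain ⟨j, hj⟩ := Function.ne_iff.1 a4
      have b1 := hP _ a2 g (Pi.single j 1)
      rw [← a3, row_add_tens, row_add_tens, hg, zero_smul, add_zero, dotProduct_single, mul_one,
        f2_ne_zero.1 hj, one_smul, map_add, hP z a1, zero_add] at b1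
      exact b1)
    (fun z w x hE g => by
      change Bf _ (row g _) = Bf _ (row g _) + _
      rw [← hE.1.2.2, row_add_tens, map_add, map_smul])
    (β := 1 / 2 ^ q) (ρ := 1 / (4 ^ q : ℕ)) (by positivity) (by positivity)
  have key : ∀ z (w : Vec l') (x : I → ZMod 2),
      ind (P z ∧ P (z + tens w x) ∧ Ψ z = Ψ (z + tens w x)) ≤
      ind (P z ∧ Rk (Bf (Ψ z)) ≤ 4 ^ q) + (ind (w = 0) +
        ind (((P z ∧ P (z + tens w x) ∧ Ψ z = Ψ (z + tens w x)) ∧ w ≠ 0) ∧
          kerP (Bf (Ψ z)) ≤ 1 / (4 ^ q : ℕ))) := by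
    intro z w x
    refine le_trans (ind_mono ?_) ((ind_or_le _ _).trans (add_le_add_right (ind_or_le _ _) _))
    intro hE
    by_cases h1 : Rk (Bf (Ψ z)) ≤ 4 ^ q
    · exact Or.inl ⟨hE.1, h1⟩
    by_cases h2 : w = 0
    · exact Or.inr (Or.inl h2)
    · exact Or.inr (Or.inr ⟨⟨hE, h2⟩, kerP_le_of_lt_Rk _ (by positivity) (not_le.1 h1)⟩)
  refine le_trans (expect_le_expect fun z _ => expect_le_expect fun w _ =>
    expect_le_expect fun x _ => key z w x) ?_
  simp only [expect_add_distrib, Fintype.expect_const]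
  have h3 : 𝔼 w : Vec l', ind (w = 0) = 1 / Fintype.card (Vec l') := by
    rw [Fintype.expect_eq_sum_div_card, sum_eq_single 0 (fun w _ hw => ind_of_not hw) (by simp),
      ind_of rfl]
  have h4 : (Fintype.card (Vec l') : ℝ) = 2 ^ l' := by simp
  have h5 : ((4 ^ q : ℕ) : ℝ) = 2 ^ q * 2 ^ q := by
    rw [← mul_pow]; norm_num
  rw [h3, h4]
  rw [h4, h5] at h
  have h6 : (1 : ℝ) ≤ 2 ^ q := one_le_pow₀ (by norm_num)
  have hl : (0 : ℝ) < 2 ^ l' := by positivity
  have a1 : (1 : ℝ) / (1 / 2 ^ q * 2 ^ l') = 2 ^ q / 2 ^ l' := by field_simp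
  have a2 : (1 : ℝ) / (2 ^ q * 2 ^ q) / (1 / 2 ^ q) = 1 / 2 ^ q := by field_simp
  have a3 : (1 : ℝ) / 2 ^ l' ≤ 2 ^ q / 2 ^ l' := div_le_div_of_nonneg_right h6 hl.le
  have a4 : (0 : ℝ) ≤ 2 ^ q / 2 ^ l' := by positivity
  have a5 : (0 : ℝ) ≤ 1 / 2 ^ q := by positivity
  have a6 : (6 : ℝ) / 2 ^ q = 6 * (1 / 2 ^ q) := by ring
  have a7 : (4 : ℝ) * 2 ^ q / 2 ^ l' = 4 * (2 ^ q / 2 ^ l') := by ring
  rw [a1, a2] at h
  rw [h5] at *
  linarith

end Vale.Agent.P339
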