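import Vale.Agent.P339.Basic

/-!
Stability of the character under the moves of the lower level.
-/

namespace Vale.Agent.P339

open Finset Vale.Agent.Lib.PCP Vale.Agent.P325
open scoped BigOperators

theorem cs_hat {A ι : Type} [Fintype A] [Fintype ι] [DecidableEq ι] (g : (ι → ZMod 2) → ℝ)
    (hg : ∀ t, |g t| ≤ 1) (P : A → Prop) (c : A → ℝ) (hc : ∀ x, |c x| ≤ 1) (χ : A → ι → ZMod 2) :
    (𝔼 x, 𝔼 t, ind (P x) * (c x * chi (χ x) t * g t)) ^ 2 ≤
      𝔼 x, 𝔼 x', ind (P x ∧ P x' ∧ χ x = χ x') := by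
  have h1 : (𝔼 x, 𝔼 t, ind (P x) * (c x * chi (χ x) t * g t)) =
      𝔼 t, g t * 𝔼 x, ind (P x) * c x * chi (χ x) t := by
    rw [expect_comm]
    refine expect_congr rfl fun t _ => ?_
    rw [mul_expect]
    exact expect_congr rfl fun x _ => by ring
  have h2 : 𝔼 t, g t ^ 2 ≤ 1 :=
    expect_le univ_nonempty fun t _ => (sq_le_one_iff_abs_le_one _).2 (hg t)
  rw [h1]
  refine (expect_mul_sq_le_sq_mul_sq _ _ _).trans ?_
  refine (mul_le_of_le_one_left (expect_nonneg fun _ _ => sq_nonneg _) h2).trans ?_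
  simp only [sq (𝔼 x, _), Fintype.expect_mul_expect]
  rw [expect_comm]
  refine expect_le_expect fun x _ => ?_
  rw [expect_comm]
  refine expect_le_expect fun x' _ => ?_
  have h3 : ∀ t, ind (P x) * c x * chi (χ x) t * (ind (P x') * c x' * chi (χ x') t) =
      ind (P x) * ind (P x') * (c x * c x') * (chi (χ x) t * chi (χ x') t) := fun t => by ring
  simp only [h3]
  rw [← mul_expect, expect_chi_mul_chi, ← ind_eq_ite, ind_and, ind_and, ← mul_assoc (ind (P x))]
  refine mul_le_mul_of_nonneg_right (mul_le_of_le_one_right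
    (mul_nonneg (ind_nonneg _) (ind_nonneg _)) ((le_abs_self _).trans ?_)) (ind_nonneg _)
  rw [abs_mul]
  exact mul_le_one₀ (hc x) (abs_nonneg _) (hc x')

theorem mask_eq_le {L S : Type} [Fintype L] [DecidableEq L] {d m : ℕ}
    (Φ Φ' : Idx L S d → ZMod 2) :
    𝔼 Λ : L → Fin (m + 1), ind (mask Λ Φ = mask Λ Φ') ≤ ind (Φ = Φ') + (d : ℝ) / (m + 1) := by
  by_cases h : Φ = Φ'
  · rw [ind_of h]
    exact (expect_le univ_nonempty fun _ _ => ind_le_one _).trans
      (le_add_of_nonneg_right (by positivity))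
  obtain ⟨i, hi⟩ := Function.ne_iff.1 h
  have h1 : ∀ Λ : L → Fin (m + 1), ind (mask Λ Φ = mask Λ Φ') ≤ ∑ j, ind (0 = Λ (i.1 j)) := by
    intro Λ
    by_cases h2 : ∃ j, Λ (i.1 j) = 0
    · obtain ⟨j, hj⟩ := h2
      refine (ind_le_one _).trans (le_trans (le_of_eq (ind_of hj.symm).symm)
        (single_le_sum (f := fun j => ind (0 = Λ (i.1 j))) (fun _ _ => ind_nonneg _) (mem_univ j)))
    · rw [ind_of_not fun e => hi (by simpa [mask, h2] using congrFun e i)]
      exact sum_nonneg fun _ _ => ind_nonneg _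
  have h2 : ∀ p : L, 𝔼 Λ : L → Fin (m + 1), ind (0 = Λ p) = 1 / ((m : ℝ) + 1) := fun p => by
    rw [expect_coord (fun b : Fin (m + 1) => ind (0 = b)) p, eq_div_iff (by positivity)]
    have := expect_ind_eq (0 : Fin (m + 1)) fun _ => 1
    simpa [mul_comm] using this
  rw [ind_of_not h, zero_add]
  refine (expect_le_expect fun Λ _ => h1 Λ).trans (le_of_eq ?_)
  rw [expect_sum_comm]
  simp only [h2, sum_const, card_univ, Fintype.card_fin, nsmul_eq_mul]
  ring

theorem stab_gen {L S I : Type} [Fintype L] [DecidableEq L] [Fintype S] [DecidableEq S]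
    [Fintype I] [DecidableEq I] {d m l' : ℕ} (P : (I → Vec l') → Prop) (c : (I → Vec l') → ℝ)
    (hc : ∀ z, |c z| ≤ 1) (Φ : (I → Vec l') → Idx L S d → ZMod 2)
    (g : (I → Vec l') → Vec l' → (L → Fin (m + 1)) → (Idx L S d → ZMod 2) → ℝ)
    (hg : ∀ z w Λ t, |g z w Λ t| ≤ 1) (hi : ∀ z w x, g (z + tens w x) w = g z w) :
    (𝔼 z, 𝔼 w, 𝔼 Λ, 𝔼 t, ind (P z) * (c z * chi (mask Λ (Φ z)) t * g z w Λ t)) ^ 2 ≤
      (𝔼 z : I → Vec l', 𝔼 w : Vec l', 𝔼 x : I → ZMod 2, 𝔼 x' : I → ZMod 2,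
        ind (P (z + tens w x) ∧ P (z + tens w x') ∧ Φ (z + tens w x) = Φ (z + tens w x'))) +
        (d : ℝ) / (m + 1) := by
  have h1 : (𝔼 z, 𝔼 w, 𝔼 Λ, 𝔼 t, ind (P z) * (c z * chi (mask Λ (Φ z)) t * g z w Λ t)) =
      𝔼 z, 𝔼 w, 𝔼 Λ, 𝔼 x : I → ZMod 2, 𝔼 t, ind (P (z + tens w x)) *
        (c (z + tens w x) * chi (mask Λ (Φ (z + tens w x))) t * g z w Λ t) := by
    rw [expect_comm]
    symm
    rw [expect_comm]
    refine expect_congr rfl fun w _ => ?_
    simp only [expect_comm (s := (univ : Finset (L → Fin (m + 1))))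
      (t := (univ : Finset (I → ZMod 2)))]
    rw [expect_comm]
    refine (expect_congr rfl fun x _ => ?_).trans (Fintype.expect_const _)
    rw [← expect_shiftG (fun z => 𝔼 Λ, 𝔼 t, ind (P z) *
      (c z * chi (mask Λ (Φ z)) t * g z w Λ t)) (tens w x)]
    simp only [hi]
  rw [h1, ← Fintype.expect_const (ι := I → Vec l') ((d : ℝ) / (m + 1)), ← expect_add_distrib]
  refine (sq_expect_le _).trans (expect_le_expect fun z _ => ?_)
  rw [← Fintype.expect_const (ι := Vec l') ((d : ℝ) / (m + 1)), ← expect_add_distrib]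
  refine (sq_expect_le _).trans (expect_le_expect fun w _ => ?_)
  refine (sq_expect_le _).trans ((expect_le_expect fun Λ _ => cs_hat (g z w Λ) (hg z w Λ)
    (fun x => P (z + tens w x)) (fun x => c (z + tens w x)) (fun x => hc _)
    fun x => mask Λ (Φ (z + tens w x))).trans ?_)
  rw [expect_comm, ← Fintype.expect_const (ι := I → ZMod 2) ((d : ℝ) / (m + 1)),
    ← expect_add_distrib]
  refine expect_le_expect fun x _ => ?_
  rw [expect_comm, ← Fintype.expect_const (ι := I → ZMod 2) ((d : ℝ) / (m + 1)),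
    ← expect_add_distrib]
  refine expect_le_expect fun x' _ => ?_
  by_cases h : P (z + tens w x) ∧ P (z + tens w x')
  · simp only [h.1, h.2, true_and]
    exact mask_eq_le _ _
  · refine expect_le univ_nonempty fun Λ _ => ?_
    rw [ind_of_not fun e => h ⟨e.1, e.2.1⟩]
    exact add_nonneg (ind_nonneg _) (by positivity)

theorem Small.mono {L S : Type} [Fintype L] [DecidableEq L] [Fintype S] [DecidableEq S] {d : ℕ}
    {dec : L → (Idx L S d → ZMod 2) → S} {R R' : ℕ} {p : L} {Φ : Idx L S d → ZMod 2}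
    (h : Small dec R p Φ) (hR : R ≤ R') : Small dec R' p Φ := by
  obtain ⟨A, hA, h⟩ := h
  exact ⟨A, hA.trans hR, h⟩

theorem sum_mul_row {I : Type} [Fintype I] {l : ℕ} (c : I → ZMod 2) (γ : Vec l) (z : I → Vec l) :
    ∑ i, c i * row γ z i = γ ⬝ᵥ ∑ i, c i • z i := by
  rw [dotProduct_sum]
  exact sum_congr rfl fun i _ => by rw [dotProduct_smul, smul_eq_mul, row]

theorem stable_thm (h1 : RankThm) (h2 : JuntaThm) : StableThm := by
  intro S _ _ _ X d hd
  obtain ⟨dec, hdec⟩ := h2 X.L S d hd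
  refine ⟨dec, fun l' Y d' hY hd' k l m q B a y z Q hE E hEi => ?_⟩
  choose Bf hB1 hB2 hB3 using fun ρ => hdec Y.I (Y.mono ρ) d' (hY.junta ρ) hd'
  let s₀ : Fin (k + 1) → Y.R → Coins X.L S l d m → State X k l d → (Y.I → Vec l') →
      State X k l d := fun j ρ cs s z' => plant s j (Y.build ρ z', restM a cs)
  let P : Fin (k + 1) → Y.R → Coins X.L S l d m → State X k l d → (Y.I → Vec l') → Prop :=
    fun j ρ cs s z' => E (s₀ j ρ cs s z') ∧
      Good (X.rel (Y.build ρ z')) (part j (z (s₀ j ρ cs s z')))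
  let g : Fin (k + 1) → Y.R → Coins X.L S l d m → State X k l d → (Y.I → Vec l') → Vec l' →
      (X.L → Fin (m + 1)) → (Idx X.L S d → ZMod 2) → ℝ := fun j ρ cs s z' w Λ t =>
    hv Y B a y j (ρ, z', w, cs) (sh a (emb j (mask Λ t)) (s₀ j ρ cs s z'))
  have hi : ∀ j ρ cs s z' w x, g j ρ cs s (z' + tens w x) w = g j ρ cs s z' w := by
    intro j ρ cs s z' w x
    funext Λ t
    simp only [g, hv, relP, s₀, sh_emb_plant, hY.inv]
    rw [relIn_plant_fst s j _ (Y.build ρ (z' + tens w x)) (Y.build ρ z'),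
      top_plant_fst s j (Y.build ρ (z' + tens w x)) (Y.build ρ z')]
  have reord : ∀ F : Smp Y l d m → State X k l d → ℝ, (𝔼 ω, 𝔼 s, F ω s) =
      𝔼 ρ, 𝔼 cs, 𝔼 s, 𝔼 z', 𝔼 w, 𝔼 Λ, 𝔼 t, F (ρ, z', w, Function.update cs a (Λ, t)) s := by
    intro F
    rw [expect_prod]
    refine expect_congr rfl fun ρ _ => ?_
    have e1 : ∀ z' w, (𝔼 cs, 𝔼 s, F (ρ, z', w, cs) s) =
        𝔼 cs, 𝔼 s, 𝔼 Λ, 𝔼 t, F (ρ, z', w, Function.update cs a (Λ, t)) s := fun z' w => by
      rw [← expect_update (fun cs => 𝔼 s, F (ρ, z', w, cs) s) a]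
      refine expect_congr rfl fun cs _ => ?_
      rw [expect_comm]
      exact expect_congr rfl fun s _ => expect_prod _
    rw [expect_prod]
    simp only [expect_prod (A := Vec l'), e1]
    symm
    calc _ = 𝔼 cs, 𝔼 z', 𝔼 w, 𝔼 s, 𝔼 Λ, 𝔼 t, F (ρ, z', w, Function.update cs a (Λ, t)) s := by
          refine expect_congr rfl fun cs _ => ?_
          rw [expect_comm]
          exact expect_congr rfl fun z' _ => expect_comm _ _ _
      _ = _ := by
          rw [expect_comm]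
          exact expect_congr rfl fun z' _ => expect_comm _ _ _
  have hgp : ∀ j ρ cs s z' w Λ t, plant s j (gp Y (ρ, z', w, Function.update cs a (Λ, t))) =
      sh a (emb j (mask Λ t)) (s₀ j ρ cs s z') := fun j ρ cs s z' w Λ t => by
    rw [plant_gp Y a]
    simp only [Function.update_self, restM_update, s₀]
  have cst : ∀ (A : Type) [Fintype A] [Nonempty A] (F : A → ℝ) (c : ℝ),
      (𝔼 x, F x) + c = 𝔼 x, (F x + c) := fun A _ _ F c => by
    rw [expect_add_distrib, Fintype.expect_const]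
  rw [cst]
  refine (sq_expect_le _).trans (expect_le_expect fun j _ => ?_)
  rw [reord, reord, cst]
  refine (sq_expect_le _).trans (expect_le_expect fun ρ _ => ?_)
  rw [cst]
  refine (sq_expect_le _).trans (expect_le_expect fun cs _ => ?_)
  rw [cst]
  refine (sq_expect_le _).trans (expect_le_expect fun s _ => ?_)
  simp only [hgp, hEi, hE.inv, hE.chr, chi_emb, chi_mask, Fintype.expect_const]
  have h3 := stab_gen (P j ρ cs s) (fun z' => Q (s₀ j ρ cs s z')) (fun _ => hE.abs_le _)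
    (fun z' => part j (z (s₀ j ρ cs s z'))) (g j ρ cs s) (fun _ _ _ _ => abs_hv_le _ _ _ _ _ _ _)
    (hi j ρ cs s)
  have h4 := h1 Y.I _ l' q (Bf ρ) (hB1 ρ) (fun z' => part j (z (s₀ j ρ cs s z'))) (P j ρ cs s)
    fun z' hz γ γ' => hB2 ρ _ _ hz.2 _ _
      (fun α β h => by rw [sum_mul_row, sum_mul_row, hY.meas ρ z' α β h])
      (fun α β h => by rw [sum_mul_row, sum_mul_row, hY.meas ρ z' α β h])
  have h5 : (𝔼 z', ind (P j ρ cs s z' ∧ Rk (Bf ρ (part j (z (s₀ j ρ cs s z')))) ≤ 4 ^ q)) ≤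
      𝔼 z', ind (E (s₀ j ρ cs s z') ∧ ∀ p, Spans (Y.mono ρ) p →
        Small dec (4 ^ q) p (part j (z (s₀ j ρ cs s z')))) :=
    expect_le_expect fun z' _ => ind_mono fun h =>
      ⟨h.1.1, fun p hp => (hB3 ρ _ _ h.1.2 p hp).mono h.2⟩
  refine le_trans (le_of_eq ?_) (h3.trans ?_)
  · rfl
  · linarith

end Vale.Agent.P339
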