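import Vale.Agent.P339.Stmt
import Vale.Agent.Lib.PCP.LabelCover

/-!
Label cover in star form with wildcard labels.
-/

namespace Vale.Agent.P339

open Finset Vale.Agent.Lib.PCP Vale.Agent.Lib.PolyTime
open scoped BigOperators

namespace StarAux

theorem sum_filter_fibre {C : Type} (key : C → ℕ) (F : C → ℝ) (n : ℕ) (L : List C)
    (hL : ∀ c ∈ L, key c < n) :
    ∑ v ∈ range n, ((L.filter fun c => decide (key c = v)).map F).sum = (L.map F).sum := by
  induction L with
  | nil => simp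
  | cons c L ih =>
    have h1 : ∀ v, (((c :: L).filter fun c => decide (key c = v)).map F).sum =
        (if key c = v then F c else 0) + ((L.filter fun c => decide (key c = v)).map F).sum := by
      intro v
      rw [List.filter_cons]
      by_cases e : key c = v <;> simp [e]
    rw [Finset.sum_congr rfl fun v _ => h1 v, Finset.sum_add_distrib,
      ih fun d hd => hL d (List.mem_cons_of_mem _ hd), Finset.sum_ite_eq,
      if_pos (mem_range.2 (hL c List.mem_cons_self)), List.map_cons, List.sum_cons]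

variable {D₀ A B : Type} [Fintype D₀]

/-- The edges at a vertex of the side with the large alphabet. -/
noncomputable def inc (G : LC D₀ A B) (v : ℕ) : List (PEdge ℕ ℕ A B) :=
  G.edges.filter fun c => decide (c.2.1 = v)

theorem length_inc {G : LC D₀ A B} {dV : ℕ} (hG : G.WF dV) {v : ℕ} (hv : v < G.nV) :
    (inc G v).length = dV := by
  have h1 : ((inc G v).length : ℝ) =
      ((∑ u ∈ range G.nU, ∑ i, (if G.nbr u i = v then 1 else 0) : ℕ) : ℝ) := by
    rw [inc, ← List.countP_eq_length_filter, countP_eq_sum, LC.edges, sum_map_flatMap,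
      sum_map_range]
    push_cast
    refine Finset.sum_congr rfl fun u _ => ?_
    rw [List.map_map, sum_map_univ]
    refine Finset.sum_congr rfl fun i _ => ?_
    simp
  rw [hG.reg v hv] at h1
  exact_mod_cast h1

theorem edges_lt {G : LC D₀ A B} {dV : ℕ} (hG : G.WF dV) : ∀ c ∈ G.edges, c.2.1 < G.nV := by
  intro c hc
  simp only [LC.edges, List.mem_flatMap, List.mem_range, List.mem_map] at hc
  obtain ⟨u, hu, i, -, rfl⟩ := hc
  exact hG.lt u hu i

theorem length_edges_eq {G : LC D₀ A B} {dV : ℕ} (hG : G.WF dV) :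
    (G.edges.length : ℝ) = G.nV * dV := by
  have h1 := sum_filter_fibre (fun c : PEdge ℕ ℕ A B => c.2.1) (fun _ => (1 : ℝ)) G.nV G.edges
    (edges_lt hG)
  rw [sum_map_const, one_mul] at h1
  rw [← h1, Finset.sum_congr rfl (g := fun _ => (dV : ℝ)) fun v hv => by
    rw [sum_map_const, one_mul]
    exact_mod_cast length_inc hG (mem_range.1 hv)]
  simp

/-- The edge number `i` at `v`. -/
noncomputable def edg (b₀ : B) (G : LC D₀ A B) (v i : ℕ) : PEdge ℕ ℕ A B :=
  (inc G v).getD i (0, 0, fun _ => b₀)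

theorem edg_mem (b₀ : B) {G : LC D₀ A B} {dV : ℕ} (hG : G.WF dV) {v i : ℕ} (hv : v < G.nV)
    (hi : i < dV) : edg b₀ G v i ∈ G.edges ∧ (edg b₀ G v i).2.1 = v := by
  have h1 : i < (inc G v).length := by rwa [length_inc hG hv]
  have h2 : edg b₀ G v i ∈ inc G v := by
    rw [edg, List.getD_eq_getElem _ _ h1]
    exact List.getElem_mem h1
  rw [inc, List.mem_filter] at h2
  exact ⟨h2.1, by simpa using h2.2⟩

theorem sum_edg (b₀ : B) {G : LC D₀ A B} {dV : ℕ} (hG : G.WF dV) (F : PEdge ℕ ℕ A B → ℝ) :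
    ∑ v ∈ range G.nV, ∑ i : Fin dV, F (edg b₀ G v i) = (G.edges.map F).sum := by
  rw [← sum_filter_fibre (fun c : PEdge ℕ ℕ A B => c.2.1) F G.nV G.edges (edges_lt hG)]
  refine Finset.sum_congr rfl fun v hv => ?_
  have h1 := sum_map_eq_sum_range (inc G v) (0, 0, fun _ => b₀) F
  rw [length_inc hG (mem_range.1 hv), Finset.sum_range] at h1
  exact h1.symm

variable {D : Type} [DecidableEq D]

/-- The projection with wildcards. -/
def wild (a₀ : A) (i₀ i : D) (π : A → B) (s : A × D × B) : A × D × B :=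
  (a₀, i₀, if s.2.1 = i then s.2.2 else π s.1)

theorem range_wild (a₀ : A) (i₀ i : D) (π : A → B) :
    Set.range (wild a₀ i₀ i π) = Set.range fun b : B => (a₀, i₀, b) := by
  ext s
  constructor
  · rintro ⟨t, rfl⟩
    exact ⟨_, rfl⟩
  · rintro ⟨b, rfl⟩
    exact ⟨(a₀, i, b), by simp [wild]⟩

/-- The star of a vertex. -/
noncomputable def star (a₀ : A) (b₀ : B) (i₀ : D) (idx : D → ℕ) (G : LC D₀ A B) (v : ℕ) :
    StarData D (A × D × B) :=
  (v, fun i => ((edg b₀ G v (idx i)).1, wild a₀ i₀ i (edg b₀ G v (idx i)).2.2))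

/-- All stars. -/
noncomputable def stars (a₀ : A) (b₀ : B) (i₀ : D) (idx : D → ℕ) (G : LC D₀ A B) :
    List (StarData D (A × D × B)) := (List.range G.nV).map (star a₀ b₀ i₀ idx G)

theorem nice_stars (a₀ : A) (b₀ : B) (i₀ : D) (idx : D → ℕ) (G : LC D₀ A B) :
    Nice (stars a₀ b₀ i₀ idx G) := by
  constructor
  · intro c hc c' hc' i i'
    obtain ⟨v, -, rfl⟩ := List.mem_map.1 hc
    obtain ⟨v', -, rfl⟩ := List.mem_map.1 hc'
    exact (range_wild _ _ _ _).trans (range_wild _ _ _ _).symm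
  · intro c hc i i' hi
    obtain ⟨v, -, rfl⟩ := List.mem_map.1 hc
    refine ⟨(a₀, i, b₀), fun s => ⟨(a₀, i, (wild a₀ i₀ i (edg b₀ G v (idx i)).2.2 s).2.2), ?_, ?_⟩⟩
    · simp [star, wild]
    · simp [star, wild, hi]

theorem stars_ne_nil [Nonempty D₀] (a₀ : A) (b₀ : B) (i₀ : D) (idx : D → ℕ) {G : LC D₀ A B}
    {dV : ℕ} (hG : G.WF dV) : stars a₀ b₀ i₀ idx G ≠ [] := by
  rw [← List.length_pos_iff, stars, List.length_map, List.length_range]
  exact (Nat.zero_le _).trans_lt (hG.lt 0 hG.pos (Classical.arbitrary _))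

theorem complete [DecidableEq B] (a₀ : A) (b₀ : B) (i₀ : D) {idx : D → ℕ} {G : LC D₀ A B} {dV : ℕ}
    (hG : G.WF dV) (hidx : ∀ i, idx i < dV) (h : G.Sat) :
    ∃ f g : ℕ → A × D × B, ∀ c ∈ stars a₀ b₀ i₀ idx G, ∀ i,
      (c.2 i).2 (f c.1) = g (c.2 i).1 := by
  obtain ⟨⟨g, f⟩, hs⟩ := h.edges
  refine ⟨fun v => (f v, i₀, (edg b₀ G v (idx i₀)).2.2 (f v)), fun u => (a₀, i₀, g u),
    fun c hc i => ?_⟩
  obtain ⟨v, hv, rfl⟩ := List.mem_map.1 hc
  obtain ⟨h1, h2⟩ := edg_mem b₀ hG (List.mem_range.1 hv) (hidx i)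
  have h3 := hs _ h1
  simp only [satP, decide_eq_true_eq, h2] at h3
  simp only [star, wild]
  by_cases e : i₀ = i
  · subst e
    simp [h3]
  · simp [e, h3]

theorem sound [DecidableEq B] (a₀ : A) (b₀ : B) {dV n : ℕ} (i₀ : Fin dV × Fin (n + 1))
    {G : LC D₀ A B} (hG : G.WF dV) {θ : ℝ} (h : G.ValLE θ) (hθ : 0 ≤ θ) :
    (starOf (stars a₀ b₀ i₀ (fun i => i.1) G)).ValLE (θ + 1 / (n + 1)) := by
  intro f g
  have hlen : (stars a₀ b₀ i₀ (fun i : Fin dV × Fin (n + 1) => (i.1 : ℕ)) G).length = G.nV := by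
    rw [stars, List.length_map, List.length_range]
  have hd : (0 : ℝ) < dV := by exact_mod_cast i₀.1.pos
  rcases Nat.eq_zero_or_pos G.nV with h0 | h0
  · have : IsEmpty (Fin (stars a₀ b₀ i₀ (fun i : Fin dV × Fin (n + 1) => (i.1 : ℕ)) G).length) := by
      rw [hlen, h0]; infer_instance
    rw [Finset.univ_eq_empty, Finset.expect_empty]
    positivity
  have hn : (0 : ℝ) < G.nV := by exact_mod_cast h0
  let f₀ : ℕ → A := fun v =>
    if hv : v < (stars a₀ b₀ i₀ (fun i : Fin dV × Fin (n + 1) => (i.1 : ℕ)) G).length then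
      (f ⟨v, hv⟩).1 else a₀
  let g₀ : ℕ → B := fun u => (g u).2.2
  let F : PEdge ℕ ℕ A B → ℝ := fun c => if satP c (g₀, f₀) = true then 1 else 0
  have hF : ∀ c, 0 ≤ F c := fun c => by simp only [F]; split_ifs <;> norm_num
  have h1 : ∀ u : Fin (stars a₀ b₀ i₀ (fun i : Fin dV × Fin (n + 1) => (i.1 : ℕ)) G).length,
      (𝔼 i, ind ((starOf (stars a₀ b₀ i₀ (fun i : Fin dV × Fin (n + 1) => (i.1 : ℕ)) G)).proj u i
        (f u) = g ((starOf (stars a₀ b₀ i₀ (fun i => (i.1 : ℕ)) G)).nbr u i))) ≤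
        (∑ i : Fin dV, F (edg b₀ G u i)) / dV + 1 / (n + 1) := by
    intro u
    have hu : (u : ℕ) < G.nV := hlen ▸ u.2
    have h2 : ∀ i, ind ((starOf (stars a₀ b₀ i₀ (fun i : Fin dV × Fin (n + 1) => (i.1 : ℕ)) G)).proj
        u i (f u) = g ((starOf (stars a₀ b₀ i₀ (fun i => (i.1 : ℕ)) G)).nbr u i)) ≤
        F (edg b₀ G u i.1) + if (f u).2.1.2 = i.2 then 1 else 0 := by
      intro i
      have e1 : (stars a₀ b₀ i₀ (fun i : Fin dV × Fin (n + 1) => (i.1 : ℕ)) G)[u] =
          star a₀ b₀ i₀ (fun i => (i.1 : ℕ)) G u := by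
        rw [Fin.getElem_fin]
        simp only [stars, List.getElem_map, List.getElem_range]
      by_cases e : (starOf (stars a₀ b₀ i₀ (fun i : Fin dV × Fin (n + 1) => (i.1 : ℕ)) G)).proj
        u i (f u) = g ((starOf (stars a₀ b₀ i₀ (fun i => (i.1 : ℕ)) G)).nbr u i)
      · rw [ind_of e]
        by_cases e' : (f u).2.1 = i
        · rw [if_pos (by rw [e'])]
          linarith [hF (edg b₀ G u i.1)]
        · simp only [starOf, e1, star, wild, if_neg e'] at e
          have e2 : F (edg b₀ G u i.1) = 1 := by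
            simp only [F, satP, (edg_mem b₀ hG hu i.1.2).2, decide_eq_true_eq]
            rw [if_pos]
            simp only [f₀, g₀, dif_pos u.2, Fin.eta, ← e]
          rw [e2]
          split_ifs <;> norm_num
      · rw [ind_of_not e]
        have := hF (edg b₀ G u i.1)
        split_ifs <;> linarith
    refine (expect_le_expect fun i _ => h2 i).trans (le_of_eq ?_)
    rw [expect_add_distrib, ← univ_product_univ, expect_product, expect_product]
    congr 1
    · simp only [expect_const univ_nonempty]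
      rw [Fintype.expect_eq_sum_div_card, Fintype.card_fin]
    · have : Nonempty (Fin dV) := ⟨i₀.1⟩
      have h3 : ∀ i : Fin dV, (𝔼 j : Fin (n + 1), if (f u).2.1.2 = j then (1 : ℝ) else 0) =
          1 / (n + 1) := fun _ => by
        rw [Fintype.expect_eq_sum_div_card, Finset.sum_ite_eq, if_pos (mem_univ _),
          Fintype.card_fin]
        push_cast
        rfl
      rw [expect_congr rfl fun i _ => h3 i, expect_const univ_nonempty]
  have hne : Nonempty (Fin (stars a₀ b₀ i₀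
      (fun i : Fin dV × Fin (n + 1) => (i.1 : ℕ)) G).length) := ⟨⟨0, by rwa [hlen]⟩⟩
  refine (expect_le_expect fun u _ => h1 u).trans ?_
  rw [expect_add_distrib, expect_const univ_nonempty, Fintype.expect_eq_sum_div_card,
    Fintype.card_fin, ← Finset.sum_div,
    ← Finset.sum_range (fun v => ∑ i : Fin dV, F (edg b₀ G v i)), hlen, sum_edg b₀ hG F]
  have h4 := h.edges (g₀, f₀)
  rw [cnt_eq_sum, length_edges_eq hG] at h4
  refine add_le_add ?_ le_rfl
  rw [div_div, div_le_iff₀ (by positivity)]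
  calc (G.edges.map F).sum ≤ θ * (G.nV * dV) := h4
    _ = θ * (dV * G.nV) := by ring

theorem pt_stars [Fintype A] [Fintype B] [Fintype D] [Enc A] [Enc B] [EncInj B] [Enc D] {α : Type}
    [Enc α] {F : α → LC D₀ A B} (h : LC.IsPT F) (a₀ : A) (b₀ : B) (i₀ : D) (idx : D → ℕ) :
    PT ∅ fun a => stars a₀ b₀ i₀ idx (F a) := by
  classical
  have h1 : ∀ i : ℕ, PT ∅ fun p : α × ℕ => edg b₀ (F p.1) p.2 i := fun i =>
    PT.getD (PT.filter (f := fun (p : α × ℕ) (c : PEdge ℕ ℕ A B) => decide (c.2.1 = p.2))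
      (h.edges.comp PT.fst') (PT.eq PT.snd'.snd.fst PT.fst'.snd)) (PT.const i) (PT.const _)
  exact PT.map (PT.range h.nV h.nVb) (PT.snd'.pair (PT.funMk fun i =>
    (h1 (idx i)).fst.pair (PT.finComp (wild a₀ i₀ i) (h1 (idx i)).snd.snd)))

end StarAux

open StarAux in
/-- Label cover in star form is hard. -/
theorem star_thm : StarThm := by
  intro θ hθ
  obtain ⟨d, a, b, dV, F, hdV, hF⟩ := label_cover (θ / 2) (by positivity)
  obtain ⟨n, hn⟩ := exists_nat_one_div_lt (show 0 < θ / 2 by positivity)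
  let i₀ : Fin dV × Fin (n + 1) := (⟨0, hdV⟩, 0)
  refine ⟨Fin dV × Fin (n + 1), Fin (a + 1) × (Fin dV × Fin (n + 1)) × Fin (b + 1), inferInstance,
    ⟨i₀⟩, inferInstance, inferInstance, ⟨(0, i₀, 0)⟩, inferInstance, inferInstance,
    fun φ => stars 0 0 i₀ (fun i => i.1) (F φ), pt_stars hF.pt _ _ _ _,
    fun φ hφ => ⟨stars_ne_nil _ _ _ _ (hF.wf φ), nice_stars _ _ _ _ _,
      complete _ _ _ (hF.wf φ) (fun i => i.1.2) (hF.sat φ hφ)⟩,
    fun φ hφ => ⟨stars_ne_nil _ _ _ _ (hF.wf φ), nice_stars _ _ _ _ _, fun f g => ?_⟩⟩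
  exact (sound 0 0 i₀ (hF.wf φ) (hF.val φ hφ) (by positivity) f g).trans (by linarith)

end Vale.Agent.P339
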