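import Vale.Agent.P339.Basic

/-!
The tower of levels: choice of the parameters and the main theorem on systems of tables.
-/

namespace Vale.Agent.P339

open Finset Vale.Agent.Lib.PCP Vale.Agent.P325
open scoped BigOperators

namespace Tower

section

variable {S : Type} [Fintype S] [DecidableEq S]

theorem zero_step {X : Sys S} (h : X.Zero) (k l d m : ℕ) : (X.step k l d m).Zero := by
  obtain ⟨t, ht⟩ := h
  refine ⟨(fun _ => (t, 0), 0), fun α β => ⟨fun j => ht _ _, ?_⟩⟩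
  change top _ α = top _ β
  simp [top, ev]

theorem twoOne_step {X : Sys S} (hX : X.TwoOne) (k l d m : ℕ) : (X.step k l d m).TwoOne := by
  rintro (_ | h) ⟨j, s, ω, cs, w⟩
  · refine ⟨fun α β h => ⟨h.1, Or.inl h.2⟩, fun α β γ h1 h2 => ?_⟩
    rcases h1.2 with a | a
    · exact Or.inl ⟨h1.1, a⟩
    rcases h2.2 with b | b
    · exact Or.inr (Or.inl ⟨h2.1, b⟩)
    exact Or.inr (Or.inr ⟨fun j' => Setoid.trans' _ (Setoid.symm' _ (h1.1 j')) (h2.1 j'),
      add_right_cancel (a.symm.trans b)⟩)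
  · obtain ⟨h1, h2⟩ := hX h ω
    set s' : State X k l d := plant s j (X.tab ω, plantM cs) with hs'
    have e1 : (s'.1 j).1 = X.tab ω := by rw [hs', plant_self]
    have up : ∀ α β : Asg X k, relIn j (X.hole h ω) s' α β →
        X.rel (X.tab ω) (sub j α) (sub j β) → relS s' α β := by
      intro α β a b
      refine ⟨fun j' => ?_, a.2⟩
      by_cases hj : j' = j
      · subst hj; rw [← e1] at b; exact b
      · have := a.1 j'
        rwa [Function.update_of_ne hj] at this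
    have dn : ∀ α β : Asg X k, relIn j (X.hole h ω) s' α β →
        X.hole h ω (sub j α) (sub j β) := fun α β a => by
      have := a.1 j
      rwa [Function.update_self] at this
    refine ⟨fun α β (a : relS s' α β) => ⟨fun j' => ?_, a.2⟩,
      fun α β γ (a : relIn j (X.hole h ω) s' α β) (b : relIn j (X.hole h ω) s' α γ) => ?_⟩
    · by_cases hj : j' = j
      · subst hj
        rw [Function.update_self]
        refine h1 _ _ ?_
        rw [← e1]; exact a.1 j'
      · rw [Function.update_of_ne hj]; exact a.1 j'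
    · rcases h2 _ _ _ (dn α β a) (dn α γ b) with c | c | c
      · exact Or.inl (up α β a c)
      · exact Or.inr (Or.inl (up α γ b c))
      · exact Or.inr (Or.inr (up β γ (Setoid.trans' _ (Setoid.symm' _ a) b) c))

omit [Fintype S] [DecidableEq S] in
theorem pairLE_symm {X : Sys S} {h h' : X.H} {N : ℕ} {θ δ : ℝ} (hp : X.PairLE h h' N θ δ) :
    X.PairLE h' h N θ δ := by
  intro U W D _ _ _ _ G hG C _ c₀ hC A B hB
  simpa only [and_comm] using hp U W D G hG C c₀ hC A B hB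

omit [Fintype S] [DecidableEq S] in
theorem sound_of_pair {X : Sys S} [Nonempty X.H] {θ δ₀ δ : ℝ} (h0 : 0 ≤ δ₀) (hδ : 0 ≤ δ)
    (hp : ∀ h h', h ≠ h' → X.PairLE h h' 1 θ δ₀) (hH : 1 / (Fintype.card X.H : ℝ) + δ₀ ≤ δ ^ 2) :
    X.Sound θ δ := by
  classical
  intro U W D _ _ _ _ G hG A B hB
  have h1 : ∀ h h', (𝔼 x, 𝔼 ω, ind (X.Pass (A x) (B x) h ω ∧ X.Pass (A x) (B x) h' ω)) ≤
      (if h = h' then 1 else 0) + δ₀ := by
    intro h h'
    split_ifs with e
    · refine le_trans (expect_le univ_nonempty fun x _ => expect_le univ_nonempty fun ω _ =>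
        ind_le_one _) (by linarith)
    · have := hp h h' e U W D G hG Unit () (by simp) (fun _ => A) (fun _ => B) fun _ p _ => hB p
      rw [Fintype.expect_const] at this
      linarith
  have h2 : (𝔼 x, 𝔼 ω, 𝔼 h, ind (X.Pass (A x) (B x) h ω)) ^ 2 ≤ δ ^ 2 := by
    refine (sq_expect_le _).trans ((expect_le_expect fun x _ => sq_expect_le _).trans ?_)
    simp only [sq (𝔼 h : X.H, _), Fintype.expect_mul_expect, ← ind_and]
    calc _ = 𝔼 h, 𝔼 h', 𝔼 x, 𝔼 ω, ind (X.Pass (A x) (B x) h ω ∧ X.Pass (A x) (B x) h' ω) := by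
          simp only [expect_comm (ι := X.Ω) (κ := X.H)]
          simp only [expect_comm (ι := X.L → U) (κ := X.H)]
      _ ≤ 𝔼 h : X.H, 𝔼 h' : X.H, ((if h = h' then 1 else 0) + δ₀) :=
          expect_le_expect fun h _ => expect_le_expect fun h' _ => h1 h h'
      _ ≤ δ ^ 2 := expect_le univ_nonempty fun h _ => by
          rw [expect_add_distrib, Fintype.expect_const, Fintype.expect_eq_sum_div_card,
            sum_ite_eq, if_pos (mem_univ _)]
          exact hH
  exact (abs_le_of_sq_le_sq' h2 hδ).2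

end

/-- The tower with `n` levels. -/
theorem tower (h2 : InnerTopThm) (h3 : InnerStepThm) (h4 : PairStepThm) {δ η : ℝ} (hη : 0 < η)
    (hη1 : η ≤ 1) (lam : ℕ → ℕ) (hlam : ∀ i, lam i ≤ lam (i + 1)) (H m : ℕ)
    (hm : (2 : ℝ) ^ H ≤ η * (m + 1)) (S : Type) [Fintype S] [DecidableEq S]
    (h1 : ∀ i < H, ∀ (X : Sys S) (h : X.H) (l' d' d N k : ℕ),
      X.Inner h l' d' (N * (m + 1) ^ 2 ^ lam i) η → lam (i + 1) ≤ l' →
      2 * d' ≤ d → 1 ≤ d → (d : ℝ) ≤ η * (m + 1) →
      ((Fintype.card (Cell X (lam i) d) : ℝ) * Fintype.card (Idx X.L S d → ZMod 2)) ^ 2 ≤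
        η ^ 2 * (k + 1) → (X.step k (lam i) d m).PairLE none (some h) N η δ) (n : ℕ) :
    ∀ i N : ℕ, i + n ≤ H → ∃ X : Sys S, Fintype.card X.H = n ∧ X.TwoOne ∧ X.Zero ∧
      (∀ h, ∃ l' d', lam i ≤ l' ∧ d' ≤ 2 ^ n ∧ X.Inner h l' d' N η) ∧
      ∀ h h', h ≠ h' → X.PairLE h h' N η δ := by
  induction n with
  | zero =>
    intro i N _
    exact ⟨Sys.base S, Fintype.card_eq_zero_iff.2 (inferInstanceAs (IsEmpty Empty)),
      fun h => h.elim, ⟨(), fun _ _ => trivial⟩, fun h => h.elim, fun h => h.elim⟩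
  | succ n ih =>
    intro i N hi
    obtain ⟨X, c1, c2, c3, c4, c5⟩ := ih (i + 1) (N * (m + 1) ^ 2 ^ lam i) (by omega)
    obtain ⟨k, hk⟩ := exists_nat_ge
      ((((Fintype.card (Cell X (lam i) (2 ^ (n + 1))) : ℝ) *
        Fintype.card (Idx X.L S (2 ^ (n + 1)) → ZMod 2)) ^ 2 +
        (Fintype.card (Cell X (lam i) (2 ^ (n + 1))) : ℝ) * (N + 1)) / η ^ 2)
    rw [div_le_iff₀ (by positivity)] at hk
    have hk1 : ((Fintype.card (Cell X (lam i) (2 ^ (n + 1))) : ℝ) *
        Fintype.card (Idx X.L S (2 ^ (n + 1)) → ZMod 2)) ^ 2 ≤ η ^ 2 * (k + 1) := by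
      have : (0 : ℝ) ≤ (Fintype.card (Cell X (lam i) (2 ^ (n + 1))) : ℝ) * (N + 1) := by positivity
      nlinarith [sq_nonneg η]
    have hk2 : (Fintype.card (Cell X (lam i) (2 ^ (n + 1))) : ℝ) * (N + 1) ≤ η ^ 2 * (k + 1) := by
      nlinarith [sq_nonneg η, sq_nonneg ((Fintype.card (Cell X (lam i) (2 ^ (n + 1))) : ℝ) *
        Fintype.card (Idx X.L S (2 ^ (n + 1)) → ZMod 2))]
    have hd : 1 ≤ 2 ^ (n + 1) := Nat.one_le_two_pow
    have hp : ∀ h, (X.step k (lam i) (2 ^ (n + 1)) m).PairLE none (some h) N η δ := by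
      intro h
      obtain ⟨l', d', a1, a2, a3⟩ := c4 h
      refine h1 i (by omega) X h l' d' _ N k a3 a1 (by rw [pow_succ]; omega) hd
        (le_trans ?_ hm) hk1
      push_cast
      exact pow_le_pow_right₀ (by norm_num) (by omega)
    refine ⟨X.step k (lam i) (2 ^ (n + 1)) m, ?_, twoOne_step c2 _ _ _ _, zero_step c3 _ _ _ _,
      ?_, ?_⟩
    · rw [← c1]; exact Fintype.card_option
    · rintro (_ | h)
      · exact ⟨lam i, _, le_rfl, le_rfl, h2 S X k _ _ m N η c3 hd hη.le hη1 hk2⟩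
      · obtain ⟨l', d', a1, a2, a3⟩ := c4 h
        exact ⟨l', d', (hlam i).trans a1, a2.trans (by rw [pow_succ]; omega),
          h3 S X h k _ _ m N l' d' η a3⟩
    · rintro (_ | h) (_ | h') hne
      · exact absurd rfl hne
      · exact hp h'
      · exact pairLE_symm (hp h)
      · exact h4 S X h h' k _ _ m N η δ (c5 h h' fun e => hne (congrArg some e))

end Tower

open Tower in
/-- The main theorem on systems of tables. -/
theorem core_thm (h1 : MainThm) (h2 : InnerTopThm) (h3 : InnerStepThm) (h4 : PairStepThm) :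
    CoreThm := by
  intro δ hδ
  obtain ⟨s₀, hs⟩ := h1 (δ ^ 2 / 2) (by positivity)
  choose! η₀ hη₀ hmain using hs
  have hnext : ∀ l, ∃ l', l ≤ l' ∧ (s₀ ≤ l → 1 / 2 ^ l' ≤ η₀ l) := by
    intro l
    by_cases hl : s₀ ≤ l
    · obtain ⟨n, hn⟩ := exists_pow_lt_of_lt_one (hη₀ l hl) (show (1 / 2 : ℝ) < 1 by norm_num)
      refine ⟨max l n, le_max_left _ _, fun _ => le_trans ?_ hn.le⟩
      rw [one_div_pow]
      exact one_div_le_one_div_of_le (by positivity)
        (pow_le_pow_right₀ (by norm_num) (le_max_right _ _))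
    · exact ⟨l, le_rfl, fun h => absurd h hl⟩
  choose nx hnx1 hnx2 using hnext
  set lam : ℕ → ℕ := fun i => nx^[i] s₀ with hlam
  have l1 : ∀ i, lam (i + 1) = nx (lam i) := fun i => Function.iterate_succ_apply' nx i s₀
  have l2 : ∀ i, lam i ≤ lam (i + 1) := fun i => by rw [l1]; exact hnx1 _
  have l3 : ∀ i, s₀ ≤ lam i := fun i => by
    induction i with
    | zero => exact le_rfl
    | succ i ih => exact ih.trans (l2 i)
  obtain ⟨H', hH⟩ := exists_nat_ge (2 / δ ^ 2)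
  have hex : ∀ n : ℕ, ∃ η : ℝ, 0 < η ∧ η ≤ 1 ∧ ∀ i < n, η ≤ η₀ (lam i) := by
    intro n
    induction n with
    | zero => exact ⟨1, one_pos, le_rfl, fun i hi => absurd hi (Nat.not_lt_zero i)⟩
    | succ n ih =>
      obtain ⟨η, a1, a2, a3⟩ := ih
      refine ⟨min η (η₀ (lam n)), lt_min a1 (hη₀ _ (l3 n)), (min_le_left _ _).trans a2,
        fun i hi => ?_⟩
      rcases Nat.lt_succ_iff_lt_or_eq.1 hi with h | rfl
      · exact (min_le_left _ _).trans (a3 i h)
      · exact min_le_right _ _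
  obtain ⟨η, a1, a2, a3⟩ := hex (H' + 1)
  obtain ⟨m, hm⟩ := exists_nat_ge ((2 : ℝ) ^ (H' + 1) / η)
  rw [div_le_iff₀ a1] at hm
  refine ⟨η, a1, fun S _ _ _ => ?_⟩
  obtain ⟨X, c1, c2, -, -, c5⟩ := tower h2 h3 h4 (δ := δ ^ 2 / 2) a1 a2 lam l2 (H' + 1) m
    (by nlinarith) S
    (fun i hi X h l' d' d N k b1 b2 b3 b4 b5 b6 =>
      hmain (lam i) (l3 i) η a1 (a3 i hi) S X h l' d' d m N k b1
        (le_trans (one_div_le_one_div_of_le (by positivity)
          (pow_le_pow_right₀ (by norm_num) (l1 i ▸ b2))) (hnx2 _ (l3 i))) b3 b4 b5 b6)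
    (H' + 1) 0 1 (by omega)
  have hne : Nonempty X.H := Fintype.card_pos_iff.1 (by omega)
  refine ⟨X, hne, c2, sound_of_pair (by positivity) hδ.le c5 ?_⟩
  rw [c1]
  have : 1 / ((H' + 1 : ℕ) : ℝ) ≤ δ ^ 2 / 2 := by
    rw [div_le_iff₀ (by positivity)] at hH ⊢
    push_cast
    nlinarith [sq_nonneg δ]
  linarith

end Vale.Agent.P339
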