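import Vale.Agent.P339.Tree2

/-!
The descriptions of the samples around the node of a level.
-/

namespace Vale.Agent.P339

open Finset Vale.Agent.Lib.PCP Vale.Agent.P325
open scoped BigOperators

section

variable {S : Type} [Fintype S] [DecidableEq S] {X : Sys S} {k l d m : ℕ}

/-- A state from the tables of the children and the new table. -/
def packE (X : Sys S) (k l d : ℕ) :
    (Fin (k + 1) → X.T) × (Col X k d → Vec l) ≃ State X k l d where
  toFun q := (fun j => (q.1 j, fun i => q.2 (some (j, i))), q.2 none)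
  invFun s := (fun j => (s.1 j).1, fun i => match i with
    | none => s.2
    | some (j, i) => (s.1 j).2 i)
  left_inv q := by
    refine Prod.ext rfl (funext fun i => ?_)
    rcases i with _ | ⟨j, i⟩ <;> rfl
  right_inv _ := rfl

/-- The functions which belong to the columns. -/
def monoT : Col X k d → Asg X k → ZMod 2
  | none, _ => 1
  | some (j, i), α => if sub j α ∘ i.1 = i.2 then 1 else 0

theorem top_pack (ζ : Fin (k + 1) → X.T) (M : Col X k d → Vec l) (α : Asg X k) :
    top (packE X k l d (ζ, M)) α = ∑ i, monoT i α • M i := by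
  rw [Fintype.sum_option, Fintype.sum_prod_type]
  simp only [monoT, one_smul, Fintype.sum_prod_type (α₁ := Fin d → X.L), ite_smul, zero_smul,
    sum_ite_eq, mem_univ, if_true]
  rfl

omit [Fintype S] [DecidableEq S] in
theorem relTop_sh (w : Vec l) (t : Col X k d → ZMod 2) (s : State X k l d) :
    relTop (sh w t s) w = relTop s w := by
  ext α β
  change ((∀ j, _) ∧ (top _ α = top _ β ∨ top _ α = top _ β + w)) ↔
    ((∀ j, _) ∧ (top _ α = top _ β ∨ top _ α = top _ β + w))
  refine and_congr_right fun _ => ?_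
  rw [top_sh, top_sh]
  have h1 : ∀ x y : Vec l, x + w = y ↔ x = y + w := fun x y =>
    ⟨fun h => by rw [← h, add_assoc, add_self_two, add_zero],
      fun h => by rw [h, add_assoc, add_self_two, add_zero]⟩
  rcases f2_cases (t none + ∑ j, ev (part j t) (sub j α)) with e | e <;>
    rcases f2_cases (t none + ∑ j, ev (part j t) (sub j β)) with e' | e' <;>
    simp only [e, e', zero_smul, one_smul, add_zero, h1, add_assoc, add_self_two, or_comm]

omit [Fintype S] [DecidableEq S] in
theorem blind_relS {s : State X k l d} {j : Fin (k + 1)} {p : X.L} (hB : Blind (X.rel (s.1 j).1) p)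
    (hM : ∀ α b, ev (s.1 j).2 (Function.update α p b) = ev (s.1 j).2 α) :
    Blind (relS s) (j, p) := by
  intro α b
  refine ⟨fun j' => ?_, ?_⟩
  · by_cases h : j' = j
    · subst h
      rw [sub_update_self]
      exact hB _ _
    · rw [sub_update_ne _ h]
  · change top s α = top s _
    simp only [top]
    congr 1
    refine sum_congr rfl fun j' _ => ?_
    by_cases h : j' = j
    · subst h
      rw [sub_update_self, hM]
    · rw [sub_update_ne _ h]

/-- The description of the new level. -/
noncomputable def innTop (X : Sys S) (k l d m : ℕ) : Inn (X.step k l d m) l where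
  R := Fin (k + 1) → X.T
  I := Col X k d
  build ζ M := packE X k l d (ζ, M)
  hol ζ M w := relTop (packE X k l d (ζ, M)) w
  mono _ := monoT

/-- The description of an old level. -/
noncomputable def innStep {l' : ℕ} (Y : Inn X l') (k l d m : ℕ) : Inn (X.step k l d m) l' where
  R := Fin (k + 1) × State X k l d × Coins X.L S l d m × Y.R
  I := Y.I
  build r z := plant r.2.1 r.1 (Y.build r.2.2.2 z, plantM r.2.2.1)
  hol r z w := relIn r.1 (Y.hol r.2.2.2 z w) (plant r.2.1 r.1 (Y.build r.2.2.2 z, plantM r.2.2.1))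
  mono r i α := Y.mono r.2.2.2 i (sub r.1 α)

theorem expect_step (F : (X.step k l d m).Ω → ℝ) :
    𝔼 ω, F ω = 𝔼 j, 𝔼 s, 𝔼 ω, 𝔼 cs, 𝔼 w, F (j, s, ω, cs, w) := by
  refine (expect_prod (A := Fin (k + 1))
    (B := State X k l d × X.Ω × Coins X.L S l d m × Vec l) _).trans ?_
  simp only [expect_prod (A := State X k l d), expect_prod (A := X.Ω),
    expect_prod (A := Coins X.L S l d m)]

end

theorem expect_slice {J L C : Type} [Fintype J] [DecidableEq J] [Fintype L] [DecidableEq L]
    [Fintype C] [Nonempty C] (p₀ : L) (F : (J → C) → ℝ) :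
    𝔼 κ : J × L → C, F (fun j => κ (j, p₀)) = 𝔼 κ, F κ := by
  have h1 : 𝔼 κ : J × L → C, F (fun j => κ (j, p₀)) =
      𝔼 q : (J × L → C) × (J → C), F fun j => q.1 (j, p₀) := by
    rw [expect_prod]
    simp only [Fintype.expect_const]
  have h2 : 𝔼 κ, F κ = 𝔼 q : (J × L → C) × (J → C), F q.2 := by
    rw [expect_prod]
    simp only [Fintype.expect_const]
  rw [h1, h2]
  refine Fintype.expect_equiv (Function.Involutive.toPerm
    (fun q : (J × L → C) × (J → C) =>
      (fun r => if r.2 = p₀ then q.2 r.1 else q.1 r, fun j => q.1 (j, p₀))) fun q => ?_) _ _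
    fun _ => rfl
  refine Prod.ext (funext fun r => ?_) (funext fun j => by simp)
  obtain ⟨r1, r2⟩ := r
  by_cases h : r2 = p₀
  · simp [h]
  · simp [h]

theorem none_hit {J B C K : Type} [Fintype J] [DecidableEq J] [Nonempty J] [Fintype B] [Fintype C]
    [Fintype K] [Nonempty K] (b₀ : B) (c₀ : C) {e : ℝ} (he : 0 ≤ e)
    (h : (Fintype.card B : ℝ) * Fintype.card C ≤ e ^ 2 * Fintype.card J) :
    𝔼 κ : J → C, 𝔼 s : (J → B) × K, ind (∀ j, ¬ (κ j = c₀ ∧ s.1 j = b₀)) ≤ e := by
  have : Nonempty (B × C) := ⟨(b₀, c₀)⟩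
  have h1 := cover_abs (J := J) (K := K) (fun _ : Unit => (b₀, c₀))
    (fun s => ind (∀ j, s.1 j ≠ (b₀, c₀))) (fun _ => abs_ind_le _) he
    (by rw [Fintype.card_prod]; push_cast; exact h)
  have h2 : ∀ (j : J) (s : (J → B × C) × K),
      ind (∀ j', (plant s j (b₀, c₀)).1 j' ≠ (b₀, c₀)) = 0 := fun j s =>
    ind_of_not fun h => h j (plant_self _ _ _)
  simp only [h2, expect_const_zero, zero_sub, abs_neg] at h1
  refine le_trans (le_of_eq ?_) ((le_abs_self _).trans h1)
  rw [← expect_prod fun q : (J → C) × ((J → B) × K) => ind (∀ j, ¬ (q.1 j = c₀ ∧ q.2.1 j = b₀))]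
  refine Fintype.expect_equiv
    ⟨fun q => (fun j => (q.2.1 j, q.1 j), q.2.2), fun s => (fun j => (s.1 j).2,
      fun j => (s.1 j).1, s.2), fun _ => rfl, fun _ => rfl⟩ _ _ fun q => ind_congr ?_
  simp only [Equiv.coe_fn_mk, ne_eq, Prod.mk.injEq, and_comm]

theorem innerTop_thm : InnerTopThm := by
  intro S _ _ X k l d m N e hZ hd he he1 hk
  have hpk : ∀ Φ : State X k l d → ℝ, 𝔼 s, Φ s = 𝔼 ζ, 𝔼 M, Φ (packE X k l d (ζ, M)) := fun Φ => by
    rw [← expect_prod fun q => Φ (packE X k l d q)]
    exact (Fintype.expect_equiv (packE X k l d) _ _ fun _ => rfl).symm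
  have hc0 : (0 : ℝ) ≤ Fintype.card (Cell X l d) := Nat.cast_nonneg _
  refine ⟨innTop X k l d m, ⟨fun ζ M w x => ?_, fun ζ M α β h => ?_, fun ζ i => ?_⟩,
    fun F hF => ?_, fun C _ c₀ hC => ?_⟩
  · exact relTop_sh w x (packE X k l d (ζ, M))
  · exact (top_pack ζ M α).symm.trans (Eq.trans h.2 (top_pack ζ M β))
  · rcases i with _ | ⟨j, c, p⟩
    · exact ⟨∅, by simp, fun _ _ _ => rfl⟩
    · refine ⟨univ.image fun i => (j, c i), card_image_le.trans (by simp), fun α β h => ?_⟩
      have h1 : sub j α ∘ c = sub j β ∘ c := funext fun i => h _ (mem_image_of_mem _ (mem_univ i))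
      change (if sub j α ∘ c = p then (1 : ZMod 2) else 0) = if sub j β ∘ c = p then 1 else 0
      rw [h1]
  · have h1 := cover_abs (J := Fin (k + 1)) (K := Vec l)
      (fun q : X.Ω × Coins X.L S l d m => ((X.tab q.1, plantM q.2) : Cell X l d))
      (fun s => 𝔼 w, F s (relTop s w))
      (fun s => (abs_expect_le _ _).trans (expect_le univ_nonempty fun w _ => hF _ _)) he
      (by rw [Fintype.card_fin]; push_cast; nlinarith [(Nat.cast_nonneg N : (0 : ℝ) ≤ N)])
    have h2 := (abs_le.1 h1).2
    rw [hpk fun s => 𝔼 w, F s (relTop s w), sub_le_iff_le_add'] at h2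
    refine le_trans (le_of_eq ?_) h2
    rw [expect_step]
    refine expect_congr rfl fun j _ => ?_
    symm
    rw [expect_comm]
    exact expect_congr rfl fun s _ => expect_prod _
  · obtain ⟨t₀, ht₀⟩ := hZ
    have p₀ : X.L := Classical.arbitrary _
    have : Nonempty C := ⟨c₀⟩
    have h1 := none_hit (J := Fin (k + 1)) (K := Vec l) ((t₀, 0) : Cell X l d) c₀ he (by
      have : (Fintype.card C : ℝ) ≤ N + 1 := by exact_mod_cast hC.trans (Nat.le_succ N)
      rw [Fintype.card_fin]; push_cast; nlinarith)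
    rw [← expect_slice p₀] at h1
    refine le_trans (expect_le_expect fun κ _ => ?_) h1
    rw [hpk]
    refine expect_le_expect fun ζ _ => expect_le_expect fun M _ => ind_mono fun h j hj => h ?_
    refine ⟨(j, p₀), hj.1, blind_relS (s := packE X k l d (ζ, M)) ?_ ?_, fun b => ?_⟩
    · rw [hj.2]; exact fun _ _ => ht₀ _ _
    · rw [hj.2]; exact fun _ _ => by rw [ev_zero, ev_zero]
    · refine ⟨Pi.single (some (j, (fun _ => p₀, fun _ => b))) 1, fun α => ?_⟩
      refine (dotProduct_single_one (fun i => monoT i α) _).trans (if_congr ?_ rfl rfl)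
      exact ⟨fun h => congrFun h ⟨0, hd⟩, fun h => funext fun _ => h⟩

theorem innerStep_thm : InnerStepThm := by
  rintro S _ _ X h k l d m N l' d' e ⟨Y, hY, hC, hL⟩
  have hR : ∀ Φ : (innStep Y k l d m).R → ℝ,
      𝔼 r, Φ r = 𝔼 j, 𝔼 s, 𝔼 cs, 𝔼 ρ, Φ (j, s, cs, ρ) := fun Φ => by
    refine (expect_prod (A := Fin (k + 1))
      (B := State X k l d × Coins X.L S l d m × Y.R) _).trans ?_
    simp only [expect_prod (A := State X k l d), expect_prod (A := Coins X.L S l d m)]
  have cst : ∀ (A : Type) [Fintype A] [Nonempty A] (F : A → ℝ) (c : ℝ),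
      (𝔼 x, F x) + c = 𝔼 x, (F x + c) := fun A _ _ F c => by
    rw [expect_add_distrib, Fintype.expect_const]
  refine ⟨innStep Y k l d m, ⟨fun r z w x => ?_, fun r z α β h => ?_, fun r i => ?_⟩,
    fun F hF => ?_, fun C _ c₀ hN => ?_⟩
  · exact (congrArg (fun q => relIn r.1 q _) (hY.inv r.2.2.2 z w x)).trans
      (relIn_plant_fst _ _ _ _ _ _)
  · refine hY.meas r.2.2.2 z _ _ ?_
    have h1 := h.1 r.1
    change X.rel ((plant r.2.1 r.1 (Y.build r.2.2.2 z, plantM r.2.2.1)).1 r.1).1 _ _ at h1
    rwa [plant_self] at h1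
  · obtain ⟨A, hA, hA'⟩ := hY.junta r.2.2.2 i
    exact ⟨A.image fun p => (r.1, p), card_image_le.trans hA,
      fun α β h => hA' _ _ fun p hp => h _ (mem_image_of_mem _ hp)⟩
  · rw [expect_step, hR, cst]
    refine expect_le_expect fun j _ => ?_
    rw [cst]
    refine expect_le_expect fun s _ => ?_
    rw [cst, expect_comm]
    refine expect_le_expect fun cs _ => ?_
    refine le_trans (le_of_eq ?_) (hC (fun t r => F (plant s j (t, plantM cs))
      (relIn j r (plant s j (t, plantM cs)))) fun _ _ => hF _ _)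
    exact expect_congr rfl fun ω _ => Fintype.expect_const (ι := Vec l)
      (F (plant s j (X.tab ω, plantM cs)) (relIn j (X.hole h ω) (plant s j (X.tab ω, plantM cs))))
  · have : Nonempty C := ⟨c₀⟩
    have h1 := hL (C × (Vec l → Fin (m + 1))) (c₀, fun _ => 0) (by
      rw [Fintype.card_prod, Fintype.card_fun, Fintype.card_fin, Fintype.card_fun, ZMod.card,
        Fintype.card_fin]
      exact Nat.mul_le_mul_right _ hN)
    let Φ : (Fin (k + 1) × X.L → C) → Fin (k + 1) → Coins X.L S l d m → ℝ := fun κ j cs =>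
      𝔼 ρ, 𝔼 z, ind (¬ ∃ p, (κ (j, p) = c₀ ∧ ∀ a, (cs a).1 p = 0) ∧
        Blind (X.rel (Y.build ρ z)) p ∧ Spans (Y.mono ρ) p)
    refine le_trans (b := 𝔼 κ, 𝔼 j, 𝔼 cs, Φ κ j cs) (expect_le_expect fun κ _ => ?_) ?_
    · rw [hR]
      refine expect_le_expect fun j _ => expect_le univ_nonempty fun s _ =>
        expect_le_expect fun cs _ => expect_le_expect fun ρ _ => expect_le_expect fun z _ =>
          ind_mono fun h ⟨p, h1, h2, h3⟩ => h ⟨(j, p), h1.1, ?_, fun b => ?_⟩
      · refine blind_relS (s := plant s j (Y.build ρ z, plantM cs)) ?_ fun α b => ?_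
        · rw [plant_self]; exact h2
        · rw [plant_self]; exact ev_plantM_update h1.2 α b
      · obtain ⟨v, hv⟩ := h3 b
        exact ⟨v, fun α => hv (sub j α)⟩
    · rw [expect_comm]
      refine expect_le univ_nonempty fun j _ => ?_
      refine (expect_blk (fun κ => 𝔼 cs, Φ κ j cs) j).symm.trans_le ?_
      refine expect_le univ_nonempty fun κ _ => ?_
      rw [expect_coins fun κ₁ cs => Φ (blk κ j κ₁) j cs]
      refine expect_le univ_nonempty fun ts _ => le_trans (le_of_eq ?_) h1
      refine expect_congr rfl fun κ' _ => expect_congr rfl fun ρ _ => expect_congr rfl fun z _ =>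
        ind_congr (not_congr (exists_congr fun p => and_congr_left fun _ => ?_))
      simp [blk, Prod.ext_iff, funext_iff]

end Vale.Agent.P339
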