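import Vale.Agent.P339.Basic

/-!
Two old levels: restriction of the strategies to the planted child.
-/

namespace Vale.Agent.P339

open Finset Vale.Agent.Lib.PCP Vale.Agent.P325
open scoped BigOperators

section

variable {S : Type} {X : Sys S} {k l d : ℕ}

theorem relIn_comap {s : State X k l d} {j : Fin (k + 1)} {p : X.L}
    (hM : ∀ α b, ev (s.1 j).2 (Function.update α p b) = ev (s.1 j).2 α) (π : S → S)
    (r : Setoid (X.L → S)) :
    relIn j (r.comap (upd π p)) s = (relIn j r s).comap (upd π (j, p)) := by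
  have h1 : ∀ α, top s (upd π (j, p) α) = top s α := fun α => by
    simp only [top]
    congr 1
    refine sum_congr rfl fun j' _ => ?_
    by_cases h : j' = j
    · subst h
      rw [sub_upd_self, upd, hM]
    · rw [sub_upd_ne _ _ h]
  ext α β
  change ((∀ j'', _) ∧ top _ α = top _ β) ↔
    ((∀ j'', _) ∧ top _ (upd π (j, p) α) = top _ (upd π (j, p) β))
  rw [h1, h1]
  refine and_congr_left fun _ => forall_congr' fun j'' => ?_
  by_cases h : j'' = j
  · subst h
    rw [Function.update_self, Function.update_self, sub_upd_self, sub_upd_self]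
    rfl
  · rw [Function.update_of_ne h, Function.update_of_ne h, sub_upd_ne _ _ h, sub_upd_ne _ _ h]

theorem relIn_sub {s : State X k l d} {j : Fin (k + 1)} {r : Setoid (X.L → S)} {α β : Asg X k}
    (h : relIn j r s α β) : r (sub j α) (sub j β) := by
  have := h.1 j
  rwa [Function.update_self] at this

theorem blk_update {J L A : Type} [DecidableEq J] [DecidableEq L] (x : J × L → A) (j : J)
    (y : L → A) (p : L) (u : A) :
    blk x j (Function.update y p u) = Function.update (blk x j y) (j, p) u := by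
  funext q
  by_cases h : q = (j, p)
  · subst h; simp [blk]
  · rw [Function.update_of_ne h]
    obtain ⟨q1, q2⟩ := q
    simp only [blk]
    split_ifs with h1
    · subst h1
      rw [Function.update_of_ne fun e => h (by rw [e])]
    · rfl

end

/-- Joining the coins of the leaves with the coins of the rows. -/
def coinE (L C V F T : Type) : (L → C) × (V → (L → F) × T) ≃ (L → C × (V → F)) × (V → T) where
  toFun q := (fun p => (q.1 p, fun a => (q.2 a).1 p), fun a => (q.2 a).2)
  invFun q := (fun p => (q.1 p).1, fun a => (fun p => (q.1 p).2 a, q.2 a))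
  left_inv _ := rfl
  right_inv _ := rfl

theorem expect_coins {L C V F T : Type} [Fintype L] [DecidableEq L] [Fintype C] [Fintype V]
    [DecidableEq V] [Fintype F] [Fintype T] (Φ : (L → C) → (V → (L → F) × T) → ℝ) :
    𝔼 κ, 𝔼 cs, Φ κ cs = 𝔼 ts : V → T, 𝔼 κ' : L → C × (V → F),
      Φ (fun p => (κ' p).1) fun a => (fun p => (κ' p).2 a, ts a) := by
  rw [← expect_prod fun q : (L → C) × (V → (L → F) × T) => Φ q.1 q.2, expect_comm,
    ← expect_prod fun q : (L → C × (V → F)) × (V → T) =>
      Φ (fun p => (q.1 p).1) fun a => (fun p => (q.1 p).2 a, q.2 a)]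
  exact Fintype.expect_equiv (coinE L C V F T) _ _ fun _ => rfl

theorem pairStep_thm : PairStepThm := by
  intro S _ _ X h h' k l d m N θ δ hX U W D _ _ _ _ G hG C _ c₀ hC A B hL
  have : Nonempty C := ⟨c₀⟩
  let F : (Fin (k + 1) × X.L → C) → (Fin (k + 1) × X.L → U) → Fin (k + 1) → State X k l d → X.Ω →
      Coins X.L S l d m → ℝ := fun κ x j s ω cs =>
    ind (X.hole h ω (sub j (A κ x (plant s j (X.tab ω, plantM cs))))
        (sub j (B κ x (relIn j (X.hole h ω) (plant s j (X.tab ω, plantM cs))))) ∧
      X.hole h' ω (sub j (A κ x (plant s j (X.tab ω, plantM cs))))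
        (sub j (B κ x (relIn j (X.hole h' ω) (plant s j (X.tab ω, plantM cs))))))
  have h1 : (𝔼 κ, 𝔼 x, 𝔼 ω : (X.step k l d m).Ω,
      ind ((X.step k l d m).Pass (A κ x) (B κ x) (some h) ω ∧
        (X.step k l d m).Pass (A κ x) (B κ x) (some h') ω)) ≤
      𝔼 κ, 𝔼 x, 𝔼 j, 𝔼 s, 𝔼 ω, 𝔼 cs, F κ x j s ω cs := by
    refine expect_le_expect fun κ _ => expect_le_expect fun x _ => ?_
    refine (expect_prod (A := Fin (k + 1))
      (B := State X k l d × X.Ω × Coins X.L S l d m × Vec l) _).trans_le ?_
    refine expect_le_expect fun j _ => ?_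
    rw [expect_prod]
    refine expect_le_expect fun s _ => ?_
    rw [expect_prod]
    refine expect_le_expect fun ω _ => ?_
    rw [expect_prod]
    refine expect_le_expect fun cs _ => expect_le univ_nonempty fun w _ => ?_
    exact ind_mono fun e => ⟨relIn_sub e.1, relIn_sub e.2⟩
  refine h1.trans ?_
  have h2 : (𝔼 κ, 𝔼 x, 𝔼 j, 𝔼 s, 𝔼 ω, 𝔼 cs, F κ x j s ω cs) =
      𝔼 j, 𝔼 s, 𝔼 κ, 𝔼 cs, 𝔼 x, 𝔼 ω, F κ x j s ω cs := by
    calc _ = 𝔼 κ, 𝔼 j, 𝔼 s, 𝔼 cs, 𝔼 x, 𝔼 ω, F κ x j s ω cs := by
          refine expect_congr rfl fun κ _ => ?_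
          rw [expect_comm]
          refine expect_congr rfl fun j _ => ?_
          rw [expect_comm]
          refine expect_congr rfl fun s _ => ?_
          symm
          rw [expect_comm]
          exact expect_congr rfl fun x _ => expect_comm _ _ _
      _ = _ := by
          rw [expect_comm]
          exact expect_congr rfl fun j _ => expect_comm _ _ _
  rw [h2]
  refine expect_le univ_nonempty fun j _ => expect_le univ_nonempty fun s _ => ?_
  rw [← expect_blk _ j]
  refine expect_le univ_nonempty fun κ _ => ?_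
  rw [expect_coins fun κ₁ cs => 𝔼 x, 𝔼 ω, F (blk κ j κ₁) x j s ω cs]
  refine expect_le univ_nonempty fun ts _ => ?_
  have h3 : ∀ κ' : X.L → C × (Vec l → Fin (m + 1)),
      (𝔼 x, 𝔼 ω, F (blk κ j fun p => (κ' p).1) x j s ω fun a => (fun p => (κ' p).2 a, ts a)) =
      𝔼 x, 𝔼 y, 𝔼 ω, F (blk κ j fun p => (κ' p).1) (blk x j y) j s ω
        fun a => (fun p => (κ' p).2 a, ts a) := fun κ' => (expect_blk _ j).symm
  simp only [h3]
  rw [expect_comm]
  refine expect_le univ_nonempty fun x _ => ?_
  have t₀ : X.T := Classical.arbitrary _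
  refine le_trans (le_of_eq ?_) (hX U W D G hG (C × (Vec l → Fin (m + 1))) (c₀, fun _ => 0) ?_
    (fun κ' y t => sub j (A (blk κ j fun p => (κ' p).1) (blk x j y)
      (plant s j (t, plantM fun a => (fun p => (κ' p).2 a, ts a)))))
    (fun κ' y r => sub j (B (blk κ j fun p => (κ' p).1) (blk x j y)
      (relIn j r (plant s j (t₀, plantM fun a => (fun p => (κ' p).2 a, ts a)))))) ?_)
  · refine expect_congr rfl fun κ' _ => expect_congr rfl fun y _ => expect_congr rfl fun ω _ => ?_
    simp only [F, Sys.Pass, relIn_plant_fst s j _ (X.tab ω) t₀]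
  · rw [Fintype.card_prod, Fintype.card_fun, Fintype.card_fin, Fintype.card_fun, ZMod.card,
      Fintype.card_fin]
    exact Nat.mul_le_mul_right _ hC
  · intro κ' p hp y u u' i i' r e
    have hM : ∀ α b, ev ((plant s j (t₀, plantM fun a => (fun p => (κ' p).2 a, ts a))).1 j).2
        (Function.update α p b) =
        ev ((plant s j (t₀, plantM fun a => (fun p => (κ' p).2 a, ts a))).1 j).2 α := fun α b => by
      rw [plant_self]
      exact ev_plantM_update (fun a => by simp only [hp]) α b
    have h4 := hL (blk κ j fun p => (κ' p).1) (j, p) (by simp [blk, hp]) (blk x j y) u u' i i'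
      (relIn j r (plant s j (t₀, plantM fun a => (fun p => (κ' p).2 a, ts a)))) e
    simp only [relIn_comap hM, blk_update]
    exact Eq.mp (congrArg₂ r (sub_upd_self _ _ j p) (sub_upd_self _ _ j p)) (relIn_sub h4)

end Vale.Agent.P339
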